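import Vale.Agent.P097K.OccP
import Vale.Agent.P097C.Paste
import Vale.Agent.P097Top.Defs

/-!
# P097K: specifications of the core with growth bounds off a small set.
Everything which is not redefined here is taken from `P097C`.
-/

open Filter Topology Set Metric ComplexConjugate
open Vale.Agent.P097C

namespace Vale.Agent.P097K

/-- the curve on its strip, without growth bounds (`C` is the constant of `PB`) -/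
structure SD (r : ℝ) (θ h g Q : ℂ → ℂ) (c C : ℝ) : Prop where
  r0 : 0 < r
  c0 : 0 < c
  C1 : 1 ≤ C
  anθ : AnalyticOnNhd ℂ θ (St r)
  anh : AnalyticOnNhd ℂ h (St r)
  ang : AnalyticOnNhd ℂ g (St r)
  anQ : AnalyticOnNhd ℂ Q (St r)
  dθ : ∀ y ∈ St r, deriv θ y = g y
  ode : ∀ y ∈ St r, deriv (deriv g) y = Q y * g y
  wr : ∀ y ∈ St r, deriv (deriv h) y * g y - deriv h y * deriv g y + h y * g y ^ 3 = c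
  perθ : ∀ y ∈ St r, θ (y + 1) = θ y + 2 * Real.pi
  perh : ∀ y ∈ St r, h (y + 1) = h y
  reθ : ∀ t : ℝ, (θ t).im = 0
  posg : ∀ t : ℝ, PR (g t)

/-- level -/
noncomputable def lv (r : ℝ) (y : ℂ) : ℝ := 1 + |Real.log (dd r y)|

/-- pointwise bounds by a small power of the level -/
def PB (r : ℝ) (g Q : ℂ → ℂ) (C : ℝ) (y : ℂ) : Prop :=
  (‖g y‖ * dd r y) ^ 16 ≤ C * lv r y ∧ (‖Q y‖ * dd r y ^ 2) ^ 16 ≤ C * lv r y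

/-- the bounds hold and the level is at most `N` -/
def PL (r : ℝ) (g Q : ℂ → ℂ) (C N : ℝ) (y : ℂ) : Prop := PB r g Q C y ∧ Real.exp (-N) ≤ dd r y

/-- occupation of the moderate band up to depth `N` is `o(N)`, at the points of `G` -/
def Occ2G (r : ℝ) (g : ℂ → ℂ) (G : ℂ → Prop) : Prop :=
  ∀ A ε : ℝ, 1 ≤ A → 0 < ε → ∃ N₀ : ℝ, ∀ N ≥ N₀, ∃ W : ℂ → ℝ,
  Bar (St r) W ∧ (∀ t : ℝ, W t ≤ ε * N) ∧ ∀ y ∈ St r, G y → UJ W y 0 ∧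
    (A⁻¹ ≤ ‖g y‖ → ‖g y‖ ≤ A → UJ W y (-1 / (dd r y + Real.exp (-N)) ^ 2))

/-- the complement of `G` is small -/
def Avoid (r : ℝ) (G : ℂ → Prop) (ε : ℝ) : Prop := ∀ N : ℝ, ∃ E : ℂ → ℝ, Bar (St r) E ∧
  (∀ t : ℝ, E t ≤ ε) ∧ ∀ y ∈ St r, UJ E y 0 ∧ (E y < 1 → Real.exp (-N) ≤ dd r y → G y)

/-- the input of the core -/
def Inp (r : ℝ) (g Q : ℂ → ℂ) : Prop := ∀ ε : ℝ, 0 < ε → ∃ (C : ℝ) (G : ℂ → Prop), 1 ≤ C ∧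
  (∀ y ∈ St r, G y → PB r g Q C y) ∧ Occ2G r g G ∧ Avoid r G ε

/-- THE CORE -/
def Spec_CORE : Prop := ∀ (r ρ c C : ℝ) (θ h g Q Y φ p : ℂ → ℂ) (n : ℕ),
  SD r θ h g Q c C → Inp r g Q → CL r ρ c θ h g n Y φ p → False

/-! ## from a majorant with bounded moments to the input -/

/-- `κ` dominates the scale invariant sizes on hyperbolic discs -/
structure Maj (r : ℝ) (g Q : ℂ → ℂ) (κ : ℂ → ℝ) : Prop where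
  one : ∀ y, 1 ≤ κ y
  loc : ∀ y ∈ St r, ∀ z ∈ ball y ((r - |y.im|) / 2),
    ‖g z‖ * (r - |y.im|) ≤ κ y ∧ ‖Q z‖ * (r - |y.im|) ^ 2 ≤ κ y ^ 2

/-- the dyadic band -/
def Band (r : ℝ) (k : ℕ) (y : ℂ) : Prop := r / 2 ^ (k + 1) ≤ r - |y.im| ∧ r - |y.im| ≤ r / 2 ^ k

/-- all moments of `κ` over the boxes of each band are bounded -/
def Mom (r : ℝ) (κ : ℂ → ℝ) : Prop := ∀ p : ℕ, ∃ C : ℝ, ∀ k : ℕ, ∃ b : ℕ → ℝ,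
  (∀ i, 0 ≤ b i) ∧ ∑ i ∈ Finset.range (2 ^ k), b i ^ p ≤ C * 2 ^ k ∧
  ∀ y ∈ St r, Band r k y → κ y ≤ b ⌊Int.fract y.re * 2 ^ k⌋₊

/-- one barrier for each band and each power -/
def Ker (r : ℝ) (κ : ℂ → ℝ) : Prop := ∀ p : ℕ, ∃ C : ℝ, ∀ k : ℕ, ∃ V : ℂ → ℝ, Bar (St r) V ∧
  (∀ t : ℝ, V t ≤ C) ∧ ∀ y ∈ St r, UJ V y 0 ∧
    (Band r k y → κ y ^ p ≤ V y ∧ UJ V y (-(κ y ^ p / dd r y ^ 2)))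

/-- no calm disc where the majorant is moderate -/
def NCL (r : ℝ) (g Q : ℂ → ℂ) (κ : ℂ → ℝ) : Prop := ∀ C₀ : ℝ, ∃ e d₀ : ℝ, 0 < e ∧ 0 < d₀ ∧
  ∀ y ∈ St r, κ y ≤ C₀ → dd r y < d₀ → ¬ Calm r g Q e y

def Spec_KER : Prop := ∀ (r : ℝ) (κ : ℂ → ℝ), 0 < r → (∀ y, 1 ≤ κ y) → Mom r κ → Ker r κ

def Spec_INP : Prop := ∀ (r c C : ℝ) (θ h g Q : ℂ → ℂ) (κ : ℂ → ℝ), SD r θ h g Q c C →
  Maj r g Q κ → Ker r κ → NCL r g Q κ → Inp r g Q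

/-- the interface with the top of the tree -/
def Spec_CORE2 : Prop := ∀ (r c T : ℝ) (θ H Q Y φ p : ℂ → ℂ) (κ : ℂ → ℝ) (n : ℕ),
  P097Top.Cur r c θ H Q → Maj r (deriv θ) Q κ → Mom r κ → NCL r (deriv θ) Q κ →
  P097Top.LeafD r c θ H n T Y φ p → P097Top.NoReg r n T Y → False

/-! ## the rows of the core -/

def Spec_ALG : Prop := ∀ (r ρ c C : ℝ) (θ h g Q Y φ p : ℂ → ℂ) (n : ℕ) [NeZero n],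
  SD r θ h g Q c C → CL r ρ c θ h g n Y φ p → ∃ Y' s l τ η, AL n r ρ c θ h g Y' s l τ η

def Spec_WU : Prop := ∀ (r c C : ℝ) (θ h g Q : ℂ → ℂ), SD r θ h g Q c C →
  ∀ (F : Finset ℝ) (ε : ℝ), 0 < ε → ∃ lam₀ : ℝ, ∀ lam ≥ lam₀, ∀ L : ℝ, ∃ W, Bar (St r) W ∧
    (∀ t ∈ F, W (t : ℝ) ≤ ε) ∧ ∀ y ∈ St r, PL r g Q C L y → UJ W y 0 ∧
      (W y < 1 → Real.exp (-2 * lam) * √(dd r y) ≤ TT r 1 g y)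

def Spec_ANC : Prop := ∀ (r c C : ℝ) (θ h g Q : ℂ → ℂ), SD r θ h g Q c C →
  ∀ N E E₁ : ℂ → ℂ, AnalyticOnNhd ℂ N (St r) →
  (∀ y ∈ St r, deriv N y * g y - N y * deriv g y = E y) →
  (∀ y ∈ St r, deriv (deriv N) y = Q y * N y + E₁ y ∧ ‖E₁ y‖ ≤ ‖E y‖) →
  ∀ (F : Finset ℝ) (ε : ℝ), 0 < ε → ∃ lam₀ : ℝ, ∀ lam ≥ lam₀, ∃ W, Bar (St r) W ∧
    (∀ t ∈ F, W (t : ℝ) ≤ ε) ∧ ∀ y ∈ St r, PB r g Q C y → ‖E y‖ ≤ Real.exp lam →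
      Real.exp (-2 * lam) * √(dd r y) ≤ TT r 1 g y → W y < 1 → UJ W y 0 ∧
      ‖N y * conj (g y) + (dd r y : ℂ) ^ 2 * deriv N y * conj (deriv g y)‖ ≤
        Real.exp (5 * lam) * TT r 1 g y

def Spec_HB : Prop := ∀ (r c C : ℝ) (θ h g Q : ℂ → ℂ), SD r θ h g Q c C →
  ∀ (F : Finset ℝ) (ε : ℝ), 0 < ε → ∃ lam₀ : ℝ, ∀ lam ≥ lam₀, ∀ L : ℝ, ∃ W, Bar (St r) W ∧
    (∀ t ∈ F, W (t : ℝ) ≤ ε) ∧ ∀ y ∈ St r, PL r g Q C L y → |(θ y).im| ≤ lam → W y < 1 →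
      UJ W y 0 ∧ ‖h y‖ ≤ Real.exp (11 * lam)

def Spec_WR : Prop := ∀ (n : ℕ) [NeZero n] (r ρ c C : ℝ) (θ h g Q : ℂ → ℂ) (Y : ℂ → ZMod n → ℂ),
  SD r θ h g Q c C → Cv r ρ Y → ∀ K ε : ℝ, 1 ≤ K → 0 < ε → ∃ lam₀ : ℝ, ∀ lam ≥ lam₀,
    ∃ (Λ : Finset ℝ) (W : ℂ → ℝ), Λ.card ≤ n ∧ (∀ L ∈ Λ, lam ≤ L) ∧ Bar (St ρ) W ∧ W 0 ≤ ε ∧
      ∀ x ∈ St ρ, (W x < 1 → ∀ j, |(θ (Y x j)).im| ≤ lam) ∧
        ((∀ j, PB r g Q C (Y x j)) → DrvAt r g Y K lam Λ x → UJ W x 0)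

def Spec_WFIN : Prop := ∀ (n : ℕ) [NeZero n] (r ρ : ℝ) (g : ℂ → ℂ) (Y : ℂ → ZMod n → ℂ)
  (G : ℂ → Prop), Occ2G r g G → Cv r ρ Y → ∀ ε : ℝ, 0 < ε → ∃ lam₀ : ℝ, ∀ lam ≥ lam₀,
    ∀ K : ℝ, 1 ≤ K →
    ∃ (Λ : Finset ℝ) (N : ℝ) (W : ℂ → ℝ), Λ.card ≤ n ∧ (∀ L ∈ Λ, lam ≤ L) ∧ lam ≤ N ∧
      Bar (St ρ) W ∧ W 0 ≤ ε ∧ ∀ x ∈ St ρ,
        ((∃ j, dd r (Y x j) ≤ Real.exp (-N)) → 1 ≤ W x) ∧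
        ((∀ j, G (Y x j)) → DrvAt r g Y K lam Λ x → UJ W x 0)

def Spec_TAME : Prop := ∀ (n : ℕ) [NeZero n] (r ρ c C : ℝ) (θ h g Q : ℂ → ℂ) Y s l τ η,
  SD r θ h g Q c C → AL n r ρ c θ h g Y s l τ η → ∀ (ε : ℝ) (m : ℕ), 0 < ε →
  ∃ K lam₀ : ℝ, 1 ≤ K ∧ ∀ lam ≥ lam₀, ∀ (N : ℝ) (Λ : Finset ℝ), Λ.card ≤ m → (∀ L ∈ Λ, lam ≤ L) →
    ∃ W, Bar (St ρ) W ∧ W 0 ≤ ε ∧ ∀ x ∈ St ρ, (∀ j, PL r g Q C N (Y x j)) →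
      (∀ j, |(θ (Y x j)).im| ≤ lam) → W x < 1 → UJ W x 0 ∧ Good r c g s l K lam Λ (Y x)

def Spec_GD : Prop := ∀ (n : ℕ) [NeZero n] (r ρ c C : ℝ) (θ h g Q : ℂ → ℂ) Y s l τ η,
  SD r θ h g Q c C → AL n r ρ c θ h g Y s l τ η → ∀ K : ℝ, 1 ≤ K →
  ∃ K' lam₀ : ℝ, 1 ≤ K' ∧ ∀ lam ≥ lam₀, ∀ Λ : Finset ℝ, (∀ L ∈ Λ, lam ≤ L) → ∀ x ∈ St ρ,
    (∀ j, PB r g Q C (Y x j)) → Good r c g s l K lam Λ (Y x) → DrvAt r g Y K' lam Λ x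

def Spec_TOP : Prop := ∀ (n : ℕ) [NeZero n] (r ρ c C : ℝ) (θ h g Q : ℂ → ℂ) Y s l τ η,
  SD r θ h g Q c C → AL n r ρ c θ h g Y s l τ η → ∀ K lam N : ℝ,
  (∃ M : ℝ, ∀ x ∈ St ρ, Lev r (Y x) Finset.univ N → Good r c g s l K lam {N} (Y x) →
    ‖η 0 x‖ ≤ Real.exp M) ∧
  ∀ b : ℝ, ∃ ρ' < ρ, ∀ x ∈ St ρ, Lev r (Y x) Finset.univ N → Good r c g s l K lam {N} (Y x) →
    Real.exp (-b) ≤ ‖η 0 x‖ → |x.im| ≤ ρ'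

def Spec_ACORE : Prop := ∀ (n : ℕ) [NeZero n] (r ρ c C : ℝ) (θ h g Q : ℂ → ℂ) Y s l τ η,
  SD r θ h g Q c C → Inp r g Q → AL n r ρ c θ h g Y s l τ η → False

theorem core_of (hA : Spec_ALG) (hC : Spec_ACORE) : Spec_CORE :=
  fun r ρ c C θ h g Q Y φ p n hS hN hL =>
    haveI : NeZero n := ⟨hL.odd.pos.ne'⟩
    let ⟨Y', s, l, τ, η, H⟩ := hA r ρ c C θ h g Q Y φ p n hS hL
    hC n r ρ c C θ h g Q Y' s l τ η hS hN H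

end Vale.Agent.P097K
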