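import Vale.Agent.P097C.Dd

/-!
# P097K: few boxes give barriers (periodic Poisson kernels)
-/

set_option linter.all false

open Filter Topology Set Metric
open Vale.Agent.P097C

namespace Vale.Agent.P097K

/-- the dyadic level of a point of the strip -/
def Lv (r : ℝ) (k : ℕ) (y : ℂ) : Prop :=
  r * (1 / 2) ^ (k + 1) < r - |y.im| ∧ r - |y.im| ≤ r * (1 / 2) ^ k

/-- the part of level `k` of `B` is covered, modulo `1`, by boxes of total length `η` -/
def Few (r : ℝ) (B : Set ℂ) (k : ℕ) (η : ℝ) : Prop :=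
  ∃ I : Finset ℝ, I.card * (1 / 2 : ℝ) ^ k ≤ η ∧
    ∀ y ∈ B, Lv r k y → ∃ x ∈ I, ∃ m : ℤ, |y.re - m - x| ≤ (1 / 2) ^ k

theorem exists_lv {r : ℝ} {y : ℂ} (hr : 0 < r) (hy : y ∈ St r) : ∃ k, Lv r k y := by
  have h : |y.im| < r := hy
  obtain ⟨k, h1, h2⟩ := exists_nat_pow_near_of_lt_one (x := (r - |y.im|) / r) (y := (1 / 2 : ℝ))
    (div_pos (by linarith) hr) ((div_le_one hr).2 (by linarith [abs_nonneg y.im])) (by norm_num)
    (by norm_num)
  exact ⟨k, by rwa [lt_div_iff₀' hr] at h1, by rwa [div_le_iff₀' hr] at h2⟩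

theorem Few.mono {r η η' : ℝ} {B B' : Set ℂ} {k : ℕ} (h : Few r B k η) (e : B' ⊆ B) (e' : η ≤ η') :
    Few r B' k η' := let ⟨I, h1, h2⟩ := h; ⟨I, h1.trans e', fun y hy => h2 y (e hy)⟩

theorem Few.empty {r η : ℝ} {B : Set ℂ} {k : ℕ} (h : ∀ y ∈ B, ¬ Lv r k y) (e : 0 ≤ η) :
    Few r B k η := ⟨∅, by simpa using e, fun y hy hl => absurd hl (h y hy)⟩

theorem Few.nonneg {r η : ℝ} {B : Set ℂ} {k : ℕ} (h : Few r B k η) : 0 ≤ η :=
  let ⟨I, h1, _⟩ := h; le_trans (by positivity) h1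

namespace Box

variable {r s : ℝ} {y : ℂ}

noncomputable def ww (r : ℝ) (y : ℂ) : ℂ := Complex.exp (-(2 * Real.pi) * (Complex.I * y + r))

noncomputable def HH (r : ℝ) (y : ℂ) : ℂ := (1 + ww r y) / (1 - ww r y)

noncomputable def bb (r s : ℝ) : ℝ := 2 / (1 - Real.exp (-(2 * Real.pi) * (r - s)))

lemma ww_norm (r : ℝ) (y : ℂ) : ‖ww r y‖ = Real.exp (-(2 * Real.pi) * (r - y.im)) := by
  rw [ww, Complex.norm_exp]
  congr 1
  simp
  ring

lemma ex_lt (h : s < r) : Real.exp (-(2 * Real.pi) * (r - s)) < 1 :=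
  Real.exp_lt_one_iff.2 (by nlinarith [Real.pi_pos])

lemma bb_pos (h : s < r) : 0 < bb r s := div_pos two_pos (sub_pos.2 (ex_lt h))

lemma ww_lt (h : y.im < r) : ‖ww r y‖ < 1 := by rw [ww_norm]; exact ex_lt h

lemma ww_ne (h : y.im < r) : 1 - ww r y ≠ 0 := fun e => by
  have := ww_lt h
  rw [← sub_eq_zero.1 e, norm_one] at this
  exact lt_irrefl _ this

lemma HH_an (h : y.im < r) : AnalyticAt ℂ (HH r) y := by
  have : AnalyticAt ℂ (ww r) y := by unfold ww; fun_prop
  exact (analyticAt_const.add this).div (analyticAt_const.sub this) (ww_ne h)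

lemma HH_re (h : y.im < r) : (HH r y).re = (1 - ‖ww r y‖ ^ 2) / ‖1 - ww r y‖ ^ 2 := by
  rw [HH, Complex.div_re, Complex.sq_norm, Complex.sq_norm, ← add_div, Complex.normSq_apply (ww r y)]
  congr 1
  simp
  ring

lemma HH_pos (h : y.im < r) : 0 ≤ (HH r y).re := by
  rw [HH_re h]
  have := ww_lt h
  exact div_nonneg (by nlinarith [norm_nonneg (ww r y)]) (sq_nonneg _)

lemma HH_le (h : y.im ≤ s) (hs : s < r) : ‖HH r y‖ ≤ bb r s := by
  have h1 : ‖ww r y‖ ≤ Real.exp (-(2 * Real.pi) * (r - s)) := by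
    rw [ww_norm]; exact Real.exp_le_exp.2 (by nlinarith [Real.pi_pos])
  have h2 := ex_lt hs
  rw [HH, norm_div, bb]
  refine div_le_div₀ (by norm_num) ((norm_add_le _ _).trans (by rw [norm_one]; linarith))
    (by linarith) ?_
  have := norm_sub_norm_le (1 : ℂ) (ww r y)
  rw [norm_one] at this
  linarith

lemma HH_per (r : ℝ) (y : ℂ) (m : ℤ) : HH r (y - m) = HH r y := by
  have : ww r (y - m) = ww r y := by
    rw [ww, ww, show -(2 * (Real.pi : ℂ)) * (Complex.I * (y - m) + r) =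
      -(2 * Real.pi) * (Complex.I * y + r) + m * (2 * Real.pi * Complex.I) by ring,
      Complex.exp_add, Complex.exp_int_mul_two_pi_mul_I, mul_one]
  rw [HH, HH, this]

lemma exp_sub {u : ℂ} (h : u.re ≤ 0) : ‖1 - Complex.exp u‖ ≤ 2 * ‖u‖ := by
  rcases le_total ‖u‖ 1 with e | e
  · rw [norm_sub_rev]; exact Complex.norm_exp_sub_one_le e
  · have h1 : ‖Complex.exp u‖ ≤ 1 := by rw [Complex.norm_exp]; exact Real.exp_le_one_iff.2 h
    have := norm_sub_le (1 : ℂ) (Complex.exp u)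
    rw [norm_one] at this
    linarith

/-- the constant of the lower bound on a box -/
noncomputable def cc (r : ℝ) : ℝ :=
  8 * Real.pi * (r + 1) ^ 2 * Real.exp (4 * Real.pi * r) / r

lemma cc_pos (hr : 0 < r) : 0 < cc r := by unfold cc; positivity

lemma HH_ge (hr : 0 < r) {δ : ℝ} (δ0 : 0 < δ) (δ1 : δ ≤ 1) (h1 : r * (δ / 2) < r - y.im)
    (h2 : r - y.im ≤ r * δ) (h3 : |y.re| ≤ δ) : 1 ≤ cc r * δ * (HH r y).re := by
  have p := Real.pi_pos
  set t := r - y.im with ht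
  have t0 : 0 < t := lt_trans (by positivity) h1
  have hy : y.im < r := by linarith
  have n1 : ‖1 - ww r y‖ ≤ 4 * Real.pi * (r + 1) * δ := by
    refine (exp_sub ?_).trans ?_
    · simp; nlinarith
    · have e : Complex.I * y + r = (t : ℝ) + (y.re : ℝ) * Complex.I := by
        apply Complex.ext <;> simp [ht]
        ring
      have := norm_add_le ((t : ℝ) : ℂ) ((y.re : ℝ) * Complex.I)
      rw [norm_mul, norm_neg, e]
      simp only [norm_mul, Complex.norm_real, Complex.norm_I, Complex.norm_ofNat, Real.norm_eq_abs,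
        abs_of_pos t0, abs_of_pos p, mul_one] at this ⊢
      nlinarith
  have n2 : 2 * Real.pi * r * δ / Real.exp (4 * Real.pi * r) ≤ 1 - ‖ww r y‖ ^ 2 := by
    rw [ww_norm, ← ht, ← Real.exp_nat_mul]
    have e1 := Real.add_one_le_exp (4 * Real.pi * t)
    have e2 : Real.exp (4 * Real.pi * t) ≤ Real.exp (4 * Real.pi * r) :=
      Real.exp_le_exp.2 (by nlinarith [mul_le_mul_of_nonneg_left δ1 hr.le])
    have e3 : Real.exp ((2 : ℕ) * (-(2 * Real.pi) * t)) = 1 / Real.exp (4 * Real.pi * t) := by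
      rw [one_div, ← Real.exp_neg]; congr 1; push_cast; ring
    rw [e3, one_sub_div (Real.exp_pos _).ne']
    exact div_le_div₀ (by nlinarith) (by nlinarith) (Real.exp_pos _) e2
  have n0 : 0 < ‖1 - ww r y‖ := norm_pos_iff.2 (ww_ne hy)
  have n3 : 2 * Real.pi * r * δ / Real.exp (4 * Real.pi * r) / (4 * Real.pi * (r + 1) * δ) ^ 2 ≤
      (HH r y).re := by
    rw [HH_re hy]
    exact div_le_div₀ (le_trans (by positivity) n2) n2 (by positivity) (by gcongr)
  refine le_trans (le_of_eq ?_) (mul_le_mul_of_nonneg_left n3 (mul_pos (cc_pos hr) δ0).le)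
  unfold cc
  field_simp
  norm_num

/-- one level -/
lemma box0 (hr : 0 < r) {B : Set ℂ} {k : ℕ} {η : ℝ} (h : Few r B k η) :
    ∃ S : ℂ → ℂ, AnalyticOnNhd ℂ S (St r) ∧ (∀ y ∈ St r, 0 ≤ (S y).re) ∧
      (∀ s < r, ∀ y : ℂ, |y.im| ≤ s → ‖S y‖ ≤ 2 * cc r * bb r s * η) ∧
      ∀ y ∈ St r, y ∈ B → Lv r k y → 1 ≤ (S y).re := by
  obtain ⟨I, h1, h2⟩ := h
  set δ : ℝ := (1 / 2) ^ k with hδ
  have δ0 : 0 < δ := by positivity
  have δ1 : δ ≤ 1 := pow_le_one₀ (by norm_num) (by norm_num)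
  have c0 := mul_pos (cc_pos hr) δ0
  have a1 : ∀ y ∈ St r, ∀ x : ℝ, (y - x).im < r ∧ (x - y).im < r := fun y hy x => by
    have := abs_lt.1 (show |y.im| < r from hy)
    constructor <;> simp <;> linarith
  have re : ∀ y, (∑ x ∈ I, ((cc r * δ : ℝ) : ℂ) * (HH r (y - x) + HH r (x - y))).re =
      ∑ x ∈ I, (cc r * δ * (HH r (y - x)).re + cc r * δ * (HH r (x - y)).re) := fun y => by
    rw [Complex.re_sum]
    exact Finset.sum_congr rfl fun x _ => by rw [Complex.re_ofReal_mul, Complex.add_re, mul_add]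
  have p1 : ∀ y ∈ St r, ∀ x : ℝ, 0 ≤ cc r * δ * (HH r (y - x)).re ∧
      0 ≤ cc r * δ * (HH r (x - y)).re := fun y hy x =>
    ⟨mul_nonneg c0.le (HH_pos (a1 y hy x).1), mul_nonneg c0.le (HH_pos (a1 y hy x).2)⟩
  refine ⟨fun y => ∑ x ∈ I, ((cc r * δ : ℝ) : ℂ) * (HH r (y - x) + HH r (x - y)), fun y hy => ?_,
    fun y hy => ?_, fun s hs y hy => ?_, fun y hy hB hl => ?_⟩
  · refine Finset.analyticAt_fun_sum _ fun x _ => analyticAt_const.mul (AnalyticAt.add ?_ ?_)
    · exact (HH_an (a1 y hy x).1).comp_of_eq (analyticAt_id.sub analyticAt_const) rfl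
    · exact (HH_an (a1 y hy x).2).comp_of_eq (analyticAt_const.sub analyticAt_id) rfl
  · rw [re]
    exact Finset.sum_nonneg fun x _ => add_nonneg (p1 y hy x).1 (p1 y hy x).2
  · have := abs_le.1 hy
    have b0 := bb_pos hs
    refine (norm_sum_le_of_le I (n := fun _ => cc r * δ * (bb r s + bb r s)) fun x _ => ?_).trans ?_
    · rw [norm_mul, Complex.norm_real, Real.norm_of_nonneg c0.le]
      exact mul_le_mul_of_nonneg_left ((norm_add_le _ _).trans (add_le_add
        (HH_le (by simp; linarith) hs) (HH_le (by simp; linarith) hs))) c0.le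
    · rw [Finset.sum_const, nsmul_eq_mul]
      have := mul_le_mul_of_nonneg_left h1 (mul_pos (cc_pos hr) b0).le
      linarith
  · obtain ⟨x, hx, m, hm⟩ := h2 y hB hl
    obtain ⟨l1, l2⟩ := hl
    rw [pow_succ, ← hδ] at l1
    rw [re]
    refine le_trans ?_ (Finset.single_le_sum
      (fun x _ => add_nonneg (p1 y hy x).1 (p1 y hy x).2) hx)
    rcases le_total 0 y.im with e | e
    · rw [abs_of_nonneg e] at l1 l2
      have := HH_ge (y := y - x - m) hr δ0 δ1 (by simp; linarith) (by simp; linarith)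
        (by simpa [sub_right_comm] using hm)
      rw [HH_per] at this
      linarith [(p1 y hy x).2]
    · rw [abs_of_nonpos e] at l1 l2
      have := HH_ge (y := x - y - (-m : ℤ)) hr δ0 δ1 (by simp; linarith) (by simp; linarith)
        (by rw [← abs_neg]; convert hm using 2; simp; ring)
      rw [HH_per] at this
      linarith [(p1 y hy x).1]

end Box

open Box

/-- **hitting**: a set with summable densities is hit with small probability -/
theorem box1 {r : ℝ} (hr : 0 < r) : ∃ c : ℝ, 0 < c ∧ ∀ (B : Set ℂ) (η : ℕ → ℝ),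
    (∀ k, Few r B k (η k)) → Summable η → ∃ E : ℂ → ℝ, Bar (St r) E ∧
      (∀ t : ℝ, E t ≤ c * ∑' k, η k) ∧ ∀ y ∈ St r, UJ E y 0 ∧ (y ∈ B → 1 ≤ E y) := by
  refine ⟨2 * cc r * bb r 0, by have := cc_pos hr; have := bb_pos hr; positivity,
    fun B η h hη => ?_⟩
  choose S h1 h2 h3 h4 using fun k => box0 hr (h k)
  have sm : ∀ y ∈ St r, Summable fun k => S k y := fun y hy =>
    Summable.of_norm_bounded (hη.mul_left _) fun k => h3 k _ hy y le_rfl
  have an : AnalyticOnNhd ℂ (fun y => ∑' k, S k y) (St r) := by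
    intro y hy
    obtain ⟨s, s1, s2⟩ := exists_between (show |y.im| < r from hy)
    exact (Complex.differentiableOn_tsum_of_summable_norm (hη.mul_left _)
      (fun k z hz => (h1 k z (lt_trans hz s2)).differentiableAt.differentiableWithinAt)
      (St_open s) fun k z hz => h3 k s s2 z (le_of_lt hz)).analyticAt ((St_open s).mem_nhds s1)
  refine ⟨fun y => (∑' k, S k y).re, ⟨Complex.continuous_re.comp_continuousOn an.continuousOn,
    fun y hy => ?_⟩, fun t => ?_, fun y hy => ⟨(EJ.re (an y hy)).uj, fun hB => ?_⟩⟩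
  · exact (tsum_nonneg fun k => h2 k y hy).trans_eq (Complex.re_tsum (sm y hy)).symm
  · refine (Complex.re_le_norm _).trans ?_
    rw [← tsum_mul_left]
    exact tsum_of_norm_bounded (hη.mul_left _).hasSum fun k => h3 k 0 hr t (by simp)
  · obtain ⟨k, hk⟩ := exists_lv hr hy
    exact ((h4 k y hy hB hk).trans (((Complex.hasSum_re (sm y hy).hasSum).summable).le_tsum k
      fun j _ => h2 j y hy)).trans_eq (Complex.re_tsum (sm y hy)).symm

theorem Lv.dd_le {r : ℝ} {k : ℕ} {y : ℂ} (hr : 0 < r) (hy : y ∈ St r) (h : Lv r k y) :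
    r ^ 2 * (1 / 2) ^ (k + 1) ≤ dd r y ∧ dd r y ≤ 4 * (r ^ 2 * (1 / 2) ^ (k + 1)) := by
  have h0 : |y.im| < r := hy
  have e : dd r y = (r - |y.im|) * (r + |y.im|) := by rw [dd, ← sq_abs y.im]; ring
  have a0 := abs_nonneg y.im
  obtain ⟨h1, h2⟩ := h
  rw [e]
  constructor
  · nlinarith [mul_le_mul_of_nonneg_left h1.le hr.le, mul_nonneg (sub_pos.2 h0).le a0]
  · rw [pow_succ (1 / 2 : ℝ)]
    nlinarith [mul_le_mul_of_nonneg_left h2 hr.le, mul_nonneg (sub_pos.2 h0).le (sub_pos.2 h0).le]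

/-- **occupation**: a set with density `η` on every level is occupied for a time `c η N` -/
theorem box2 {r : ℝ} (hr : 0 < r) : ∃ c N₀ : ℝ, 0 < c ∧ ∀ (B : Set ℂ) (η : ℝ),
    (∀ k, Few r B k η) → ∀ N ≥ N₀, ∃ V : ℂ → ℝ, Bar (St r) V ∧
      (∀ t : ℝ, V t ≤ c * (η * N + 1)) ∧ ∀ y ∈ St r, UJ V y 0 ∧
        (y ∈ B → UJ V y (-1 / (dd r y + Real.exp (-N)) ^ 2)) := by
  have c0 : 0 < 2 * cc r * bb r 0 := by have := cc_pos hr; have := bb_pos hr; positivity
  set c := 2 * cc r * bb r 0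
  refine ⟨2 / r ^ 2 * (16 * c + 1), max 1 (2 * r ^ 2), by positivity, fun B η h N hN => ?_⟩
  have N1 : 1 ≤ N := (le_max_left _ _).trans hN
  have N2 : 2 * r ^ 2 ≤ N := (le_max_right _ _).trans hN
  have η0 := (h 0).nonneg
  choose S h1 h2 h3 h4 using fun k => box0 hr (h k)
  set a := Real.exp (-N) with ha
  have a0 : 0 < a := Real.exp_pos _
  let κ : ℕ → ℝ := fun k => r ^ 2 * (1 / 2) ^ (k + 1)
  have κ0 : ∀ k, 0 < κ k := fun k => by positivity
  let U : ℕ → ℂ → ℝ := fun k y => min (4 * (S k y).re) (Real.log (1 + dd r y / κ k))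
  let T : ℂ → ℝ := fun y => min 1 (Real.log (1 + dd r y / a))
  have bU : ∀ k, Bar (St r) (U k) := fun k => Bar.min (Bar.smul (by norm_num)
    ⟨Complex.continuous_re.comp_continuousOn (h1 k).continuousOn, h2 k⟩) (mu_bar (κ0 k))
  have bT : Bar (St r) T := (Bar.const zero_le_one).min (mu_bar a0)
  have m0 : ∀ y ∈ St r, ∀ k, 0 < k → UJ (fun y => Real.log (1 + dd r y / k)) y 0 :=
    fun y hy k hk => (mu_uj hy hk).mono
      (div_nonpos_of_nonpos_of_nonneg (by nlinarith) (sq_nonneg _))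
  have jU : ∀ y ∈ St r, ∀ k, UJ (U k) y 0 := fun y hy k =>
    (le_total (4 * (S k y).re) (Real.log (1 + dd r y / κ k))).elim
      (fun e => UJ.min_left (by simpa using (EJ.re (h1 k y hy)).uj.smul (k := 4) (by norm_num)) e)
      fun e => (m0 y hy _ (κ0 k)).min_right e
  have jT : ∀ y ∈ St r, UJ T y 0 := fun y hy => (le_total 1 (Real.log (1 + dd r y / a))).elim
    (fun e => (UJ.const 1 y).min_left e) fun e => (m0 y hy _ a0).min_right e
  have jS : ∀ y ∈ St r, ∀ I : Finset ℕ, UJ (fun y => ∑ k ∈ I, U k y) y 0 := fun y hy I => by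
    simpa using UJ.sum I (a := fun _ => 0) fun k _ => jU y hy k
  have r2 : 0 ≤ 2 / r ^ 2 := by positivity
  have lg : ∀ x : ℝ, 0 ≤ x → Real.log (1 + x) ≤ x := fun x hx => by
    have := Real.log_le_sub_one_of_pos (show 0 < 1 + x by positivity)
    linarith
  refine ⟨fun y => 2 / r ^ 2 * (∑ k ∈ Finset.range ⌈3 * N⌉₊, U k y + T y),
    ((Bar.sum _ fun k _ => bU k).add bT).smul r2, fun t => ?_, fun y hy =>
    ⟨by simpa using ((jS y hy _).add (jT y hy)).smul r2, fun hB => ?_⟩⟩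
  · have e1 : ∑ k ∈ Finset.range ⌈3 * N⌉₊, U k t ≤ ⌈3 * N⌉₊ * (4 * (c * η)) := by
      have := Finset.sum_le_card_nsmul (Finset.range ⌈3 * N⌉₊) (fun k => U k t) (4 * (c * η))
        fun k _ => (min_le_left _ _).trans (mul_le_mul_of_nonneg_left
          ((Complex.re_le_norm _).trans (h3 k 0 hr t (by simp))) (by norm_num))
      rwa [Finset.card_range, nsmul_eq_mul] at this
    have e2 : (⌈3 * N⌉₊ : ℝ) ≤ 4 * N := by
      have := Nat.ceil_lt_add_one (show 0 ≤ 3 * N by positivity)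
      linarith
    have e3 : T t ≤ 1 := min_le_left _ _
    have e4 := mul_le_mul_of_nonneg_right e2 (show 0 ≤ 4 * (c * η) by positivity)
    have e5 : 0 ≤ η * N := by positivity
    rw [mul_assoc]
    exact mul_le_mul_of_nonneg_left (by nlinarith) r2
  have d0 := dd_pos hy
  rcases le_total (dd r y) a with e | e
  · have j1 : UJ T y (-(2 * r ^ 2) / (dd r y + a) ^ 2) := (mu_uj hy a0).min_right
      ((lg _ (by positivity)).trans ((div_le_one a0).2 e))
    refine (((jS y hy _).add j1).smul r2).mono ?_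
    rw [zero_add, ← mul_div_assoc]
    refine div_le_div_of_nonneg_right ?_ (sq_nonneg _)
    field_simp
    norm_num
  · obtain ⟨k, hk⟩ := exists_lv hr hy
    obtain ⟨l1, l2⟩ := hk.dd_le hr hy
    have km : k ∈ Finset.range ⌈3 * N⌉₊ := by
      rw [Finset.mem_range, Nat.lt_ceil]
      have e1 : a ≤ N * (1 / 2) ^ k := by
        have : (0 : ℝ) < (1 / 2) ^ k := by positivity
        rw [pow_succ (1 / 2 : ℝ)] at l2
        nlinarith
      have e2 := Real.log_le_log a0 e1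
      rw [ha, Real.log_exp, Real.log_mul (by positivity) (by positivity), Real.log_pow,
        one_div, Real.log_inv] at e2
      have e3 := Real.log_le_sub_one_of_pos (show 0 < N by positivity)
      have e4 := Real.log_two_gt_d9
      have e5 : (0 : ℝ) ≤ k := Nat.cast_nonneg k
      nlinarith
    have j1 : UJ (U k) y (-(2 * r ^ 2) / (dd r y + κ k) ^ 2) := (mu_uj hy (κ0 k)).min_right
      ((lg _ (div_pos d0 (κ0 k)).le).trans (((div_le_iff₀ (κ0 k)).2 l2).trans
        (by linarith [h4 k y hy hB hk])))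
    have j2 := (((j1.add (jS y hy ((Finset.range ⌈3 * N⌉₊).erase k))).add (jT y hy)).smul r2)
    refine (j2.congr (.of_forall fun x => by
      simp only [← Finset.add_sum_erase _ (fun k => U k x) km])).mono ?_
    rw [add_zero, add_zero, ← mul_div_assoc, div_le_div_iff₀ (by have := κ0 k; positivity)
      (by positivity)]
    have e1 : 2 / r ^ 2 * -(2 * r ^ 2) = -4 := by field_simp; norm_num
    have e2 : (dd r y + κ k) ^ 2 ≤ (2 * (dd r y + a)) ^ 2 :=
      pow_le_pow_left₀ (by have := κ0 k; positivity) (by simp only [κ]; linarith) 2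
    rw [e1]
    nlinarith

open MeasureTheory in
/-- from measure to counts -/
theorem few_of_vol {r η : ℝ} {B : Set ℂ} {k : ℕ} (η0 : 0 ≤ η)
    (h : volume {x : ℝ | x ∈ Ico (0 : ℝ) 1 ∧ ∃ y ∈ B, Lv r k y ∧ ∃ m : ℤ,
      |y.re - m - x| ≤ (1 / 2) ^ k} ≤ ENNReal.ofReal η) : Few r B k η := by
  classical
  set δ : ℝ := (1 / 2) ^ k with hδ
  have δ0 : 0 < δ := by positivity
  have δ2 : δ * 2 ^ k = 1 := by rw [hδ, ← mul_pow]; norm_num
  let J := (Finset.range (2 ^ k)).filter fun j : ℕ => ∃ y ∈ B, Lv r k y ∧ ∃ m : ℤ,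
    y.re - m ∈ Ico (j * δ) ((j + 1) * δ)
  refine ⟨J.image fun j : ℕ => j * δ, ?_, fun y hy hl => ?_⟩
  · have h1 : volume (⋃ j ∈ J, Ico ((j : ℝ) * δ) ((j + 1) * δ)) = ENNReal.ofReal (J.card * δ) := by
      rw [measure_biUnion_finset (fun i _ j _ hij => ?_) fun _ _ => measurableSet_Ico]
      · simp only [Real.volume_Ico, add_mul, one_mul, add_sub_cancel_left, Finset.sum_const,
          nsmul_eq_mul]
        rw [ENNReal.ofReal_mul (Nat.cast_nonneg _), ENNReal.ofReal_natCast]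
      · refine Set.disjoint_left.2 fun x hi hj => hij ?_
        have a1 := lt_of_mul_lt_mul_right (hi.1.trans_lt hj.2) δ0.le
        have a2 := lt_of_mul_lt_mul_right (hj.1.trans_lt hi.2) δ0.le
        norm_cast at a1 a2
        omega
    have h2 := (measure_mono (μ := volume) (s := ⋃ j ∈ J, Ico ((j : ℝ) * δ) ((j + 1) * δ))
      fun x hx => ?_).trans h
    · rw [h1, ENNReal.ofReal_le_ofReal_iff η0] at h2
      exact le_trans (mul_le_mul_of_nonneg_right (Nat.cast_le.2 Finset.card_image_le) δ0.le) h2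
    · obtain ⟨j, hj, hx⟩ := mem_iUnion₂.1 hx
      obtain ⟨j1, y, hy, hl, m, hm⟩ := Finset.mem_filter.1 hj
      have j2 : (j : ℝ) + 1 ≤ 2 ^ k := by exact_mod_cast Finset.mem_range.1 j1
      refine ⟨⟨le_trans (by positivity) hx.1, hx.2.trans_le (by nlinarith)⟩, y, hy, hl, m, ?_⟩
      rw [abs_le]
      constructor <;> linarith [hx.1, hx.2, hm.1, hm.2]
  · set u := Int.fract y.re with hu
    have u0 : 0 ≤ u := Int.fract_nonneg _
    have u1 : u < 1 := Int.fract_lt_one _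
    have f1 := Nat.floor_le (show 0 ≤ u * 2 ^ k by positivity)
    have f2 := Nat.lt_floor_add_one (u * 2 ^ k)
    set j := ⌊u * 2 ^ k⌋₊
    have e : u = u * 2 ^ k * δ := by rw [mul_assoc, mul_comm _ δ, δ2, mul_one]
    have g1 : j * δ ≤ u := by rw [e]; gcongr
    have g2 : u < (j + 1) * δ := by rw [e]; gcongr
    have j1 : j < 2 ^ k := by
      have : (j : ℝ) < 2 ^ k := f1.trans_lt (by
        have : (0 : ℝ) < 2 ^ k := by positivity
        nlinarith)
      exact_mod_cast this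
    refine ⟨j * δ, Finset.mem_image.2 ⟨j, Finset.mem_filter.2 ⟨Finset.mem_range.2 j1, y, hy, hl,
      ⌊y.re⌋, g1, g2⟩, rfl⟩, ⌊y.re⌋, ?_⟩
    change |u - j * δ| ≤ δ
    rw [abs_le]
    constructor <;> linarith

end Vale.Agent.P097K
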