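import Vale.Agent.P097K.Spec

/-!
# P097K (copy of P097C): tools for the statement TOP
-/

open Filter Topology Set Metric

open Vale.Agent.P097C

namespace Vale.Agent.P097K
namespace Tx

lemma opn (r : ℝ) : IsOpen (St r) := isOpen_lt (by fun_prop) continuous_const

lemma cvx (r : ℝ) : Convex ℝ (St r) := by
  have e : St r = {y : ℂ | y.im < r} ∩ {y : ℂ | -r < y.im} := by
    ext y; simp only [St, mem_ofPred_eq, mem_inter_iff, abs_lt]; tauto
  rw [e]
  exact (convex_halfSpace_im_lt r).inter (convex_halfSpace_im_gt (-r))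

lemma opnC (n : ℕ) [NeZero n] (r : ℝ) : IsOpen (Cf n r) := by
  have e : Cf n r = ⋂ i, (fun y : ZMod n → ℂ => y i) ⁻¹' St r := by
    ext y; simp [Cf]
  rw [e]
  exact isOpen_iInter_of_finite fun i => (opn r).preimage (continuous_apply i)

lemma st_add {r : ℝ} {y : ℂ} (hy : y ∈ St r) (m : ℤ) : y + m ∈ St r := by
  simpa [St] using hy

lemma cf_add {n : ℕ} {r : ℝ} {y : ZMod n → ℂ} (hy : y ∈ Cf n r) (m : ZMod n → ℤ) :
    (fun i => y i + m i) ∈ Cf n r := fun i => st_add (hy i) (m i)

lemma g_one {r c C : ℝ} {θ h g Q : ℂ → ℂ} (hS : SD r θ h g Q c C) {y : ℂ} (hy : y ∈ St r) :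
    g (y + 1) = g y := by
  have h1 : y + 1 ∈ St r := by simpa using st_add hy 1
  have e : (fun z => θ (z + 1)) =ᶠ[𝓝 y] fun z => θ z + 2 * Real.pi := by
    filter_upwards [(opn r).mem_nhds hy] with z hz using hS.perθ z hz
  rw [← hS.dθ _ h1, ← hS.dθ _ hy, ← deriv_comp_add_const, e.deriv_eq, deriv_add_const]

lemma g_per {r c C : ℝ} {θ h g Q : ℂ → ℂ} (hS : SD r θ h g Q c C) {y : ℂ} (hy : y ∈ St r)
    (m : ℤ) : g (y + m) = g y := by
  induction m using Int.induction_on with
  | zero => simp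
  | succ k ih =>
    have := g_one hS (st_add hy k)
    rw [← ih, ← this]; congr 1; push_cast; ring
  | pred k ih =>
    have := g_one hS (st_add hy (-k - 1))
    rw [← ih, ← this]; congr 1; push_cast; ring

variable {n : ℕ} [NeZero n]

lemma mv {c : ℝ} {s l g τ η v : ZMod n → ℂ} (E : Eqs c s l g τ η v) (i : ZMod n) :
    (MM c (piv i) s l g).mulVec (Sum.elim τ η) = η i • Pi.single (Sum.inr i) 1 := by
  funext a
  rcases a with j | j
  · simp only [Matrix.mulVec, dotProduct, Fintype.sum_sum_type, MM, Sum.elim_inl, Sum.elim_inr,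
      ite_mul, zero_mul, sub_mul, neg_mul, Finset.sum_sub_distrib, Finset.sum_neg_distrib,
      Finset.sum_ite_eq', Finset.mem_univ, if_true, Pi.smul_apply]
    rw [Pi.single_eq_of_ne (by simp), E.eqE j]; simp
  · simp only [Matrix.mulVec, dotProduct, Fintype.sum_sum_type, MM, Sum.elim_inl, Sum.elim_inr,
      ite_mul, zero_mul, mul_add, add_mul, mul_ite, mul_one, mul_zero, Finset.sum_add_distrib,
      Finset.sum_ite_eq', Finset.mem_univ, if_true, Pi.smul_apply]
    by_cases hj : j = i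
    · subst hj
      simp [piv, al, be]
    · rw [Pi.single_eq_of_ne (by simpa using hj)]
      simp only [piv, al, be, hj, if_false, if_true, smul_eq_mul, mul_zero]
      have h1 := E.eqθ j
      have h2 := E.eqη j
      linear_combination (c * s j ^ 2) * h1 - 2 * g j * h2

/-- the cofactor -/
noncomputable def AA (c : ℝ) (g : ℂ → ℂ) (s l : ZMod n → (ZMod n → ℂ) → ℂ) (j : ZMod n)
    (y : ZMod n → ℂ) : ℂ :=
  (MM c (piv 0) (fun j => s j y) (fun j => l j y) fun j => g (y j)).adjugate (.inr j) (.inr 0)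

lemma cram {c : ℝ} {s l g τ η v : ZMod n → ℂ} (E : Eqs c s l g τ η v) (j : ZMod n) :
    (MM c (piv 0) s l g).det * η j = η 0 * (MM c (piv 0) s l g).adjugate (.inr j) (.inr 0) := by
  have h := congrArg (fun u => ((MM c (piv 0) s l g).adjugate.mulVec u) (.inr j)) (mv E 0)
  simp only [Matrix.mulVec_mulVec, Matrix.adjugate_mul, Matrix.smul_mulVec, Matrix.one_mulVec,
    Matrix.mulVec_smul, Matrix.mulVec_single_one, Pi.smul_apply, Sum.elim_inr, smul_eq_mul,
    Matrix.col_apply] at h
  exact h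

lemma an_det {ι E : Type*} [Fintype ι] [DecidableEq ι] [NormedAddCommGroup E] [NormedSpace ℂ E]
    {M : E → Matrix ι ι ℂ} {y : E} (h : ∀ a b, AnalyticAt ℂ (fun z => M z a b) y) :
    AnalyticAt ℂ (fun z => (M z).det) y := by
  simp only [Matrix.det_apply']
  exact Finset.analyticAt_fun_sum _ fun σ _ =>
    analyticAt_const.mul (Finset.analyticAt_fun_prod _ fun i _ => h _ _)

lemma an_adj {ι E : Type*} [Fintype ι] [DecidableEq ι] [NormedAddCommGroup E] [NormedSpace ℂ E]
    {M : E → Matrix ι ι ℂ} {y : E} (h : ∀ a b, AnalyticAt ℂ (fun z => M z a b) y) (i j : ι) :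
    AnalyticAt ℂ (fun z => (M z).adjugate i j) y := by
  simp only [Matrix.adjugate_apply]
  refine an_det fun a b => ?_
  by_cases e : a = j
  · simp only [e, Matrix.updateRow_self]; exact analyticAt_const
  · simp only [Matrix.updateRow_ne e]; exact h a b

omit [NeZero n] in
lemma an_MM {E : Type*} [NormedAddCommGroup E] [NormedSpace ℂ E] {c : ℝ} {t : ZMod n → Fin 3}
    {s l g : ZMod n → E → ℂ} {y : E} (hs : ∀ j, AnalyticAt ℂ (s j) y)
    (hl : ∀ j, AnalyticAt ℂ (l j) y) (hg : ∀ j, AnalyticAt ℂ (g j) y) (a b : ZMod n ⊕ ZMod n) :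
    AnalyticAt ℂ (fun z => MM c t (fun j => s j z) (fun j => l j z) (fun j => g j z) a b) y := by
  rcases a with j | j <;> rcases b with i | i <;> simp only [MM, al, be]
  · split_ifs
    · exact hl j
    · exact analyticAt_const
  · refine AnalyticAt.sub (AnalyticAt.neg ?_) ?_ <;> split_ifs
    exacts [hs _, analyticAt_const, hs _, analyticAt_const]
  · refine AnalyticAt.mul ?_ analyticAt_const
    split_ifs
    exacts [analyticAt_const.mul ((hs j).pow 2), analyticAt_const, analyticAt_const]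
  · split_ifs
    exacts [analyticAt_const.mul ((hg j).pow 3), analyticAt_const, analyticAt_const,
      analyticAt_const]

/-- compactness modulo integer shifts -/
lemma clus {r a : ℝ} (hr : 0 < r) (ha : 0 < a) (y : ℕ → ZMod n → ℂ)
    (hy : ∀ k j, a ≤ dd r (y k j)) : ∃ (m : ℕ → ZMod n → ℤ) (φ : ℕ → ℕ) (w : ZMod n → ℂ),
      w ∈ Cf n r ∧ StrictMono φ ∧ Tendsto (fun k => fun i => y (φ k) i + m (φ k) i) atTop (𝓝 w) := by
  set K : Set ℂ := {z | a ≤ dd r z} ∩ closedBall 0 (1 + r)
  have hK : IsCompact K := (isCompact_closedBall 0 (1 + r)).inter_left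
    (isClosed_le continuous_const (by unfold dd; fun_prop))
  have hP : IsCompact (Set.univ.pi fun _ : ZMod n => K) := isCompact_univ_pi fun _ => hK
  have him : ∀ z : ℂ, a ≤ dd r z → |z.im| < r := fun z hz =>
    abs_lt_of_sq_lt_sq (by unfold dd at hz; linarith) hr.le
  obtain ⟨w, hw, φ, hφ, ht⟩ := hP.tendsto_subseq
    (x := fun k i => y k i + ((-⌊(y k i).re⌋ : ℤ) : ℂ)) fun k i _ => by
      refine ⟨by simpa [dd] using hy k i, ?_⟩
      rw [mem_closedBall_zero_iff]
      refine (Complex.norm_le_abs_re_add_abs_im _).trans (add_le_add ?_ ?_)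
      · have h1 := Int.fract_nonneg (y k i).re
        have h2 := Int.fract_lt_one (y k i).re
        have e : (y k i + ((-⌊(y k i).re⌋ : ℤ) : ℂ)).re = Int.fract (y k i).re := by
          simp [Int.fract, sub_eq_add_neg]
        rw [e, abs_of_nonneg h1]; exact h2.le
      · simpa using (him _ (hy k i)).le
  exact ⟨fun k i => -⌊(y k i).re⌋, φ, w, fun i => him _ (hw i trivial).1, hφ, ht⟩

end Tx
end Vale.Agent.P097K
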