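import Vale.Agent.P097K.Spec
import Vale.Agent.P097K.Box

/-!
# P097K: from moments to kernels (row KER)
-/

set_option linter.all false

open Filter Topology Set Metric
open Vale.Agent.P097C

namespace Vale.Agent.P097K

namespace Box

variable {r : ℝ} {y : ℂ}

lemma HH_ge' (hr : 0 < r) {δ : ℝ} (δ0 : 0 < δ) (δ1 : δ ≤ 1) (h1 : r * (δ / 2) ≤ r - y.im)
    (h2 : r - y.im ≤ r * δ) (h3 : |y.re| ≤ δ) : 1 ≤ cc r * δ * (HH r y).re := by
  have p := Real.pi_pos
  set t := r - y.im with ht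
  have t0 : 0 < t := lt_of_lt_of_le (by positivity) h1
  have hy : y.im < r := by linarith
  have n1 : ‖1 - ww r y‖ ≤ 4 * Real.pi * (r + 1) * δ := by
    refine (exp_sub ?_).trans ?_
    · simp; nlinarith
    · have e : Complex.I * y + r = (t : ℝ) + (y.re : ℝ) * Complex.I := by
        apply Complex.ext <;> simp [ht]
        ring
      have := norm_add_le ((t : ℝ) : ℂ) ((y.re : ℝ) * Complex.I)
      rw [norm_mul, norm_neg, e]
      simp only [norm_mul, Complex.norm_real, Complex.norm_I, Complex.norm_ofNat, Real.norm_eq_abs,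
        abs_of_pos t0, abs_of_pos p, mul_one] at this ⊢
      nlinarith
  have n2 : 2 * Real.pi * r * δ / Real.exp (4 * Real.pi * r) ≤ 1 - ‖ww r y‖ ^ 2 := by
    rw [ww_norm, ← ht, ← Real.exp_nat_mul]
    have e1 := Real.add_one_le_exp (4 * Real.pi * t)
    have e2 : Real.exp (4 * Real.pi * t) ≤ Real.exp (4 * Real.pi * r) :=
      Real.exp_le_exp.2 (by nlinarith [mul_le_mul_of_nonneg_left δ1 hr.le])
    have e3 : Real.exp ((2 : ℕ) * (-(2 * Real.pi) * t)) = 1 / Real.exp (4 * Real.pi * t) := by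
      rw [one_div, ← Real.exp_neg]; congr 1; push_cast; ring
    rw [e3, one_sub_div (Real.exp_pos _).ne']
    exact div_le_div₀ (by nlinarith) (by nlinarith) (Real.exp_pos _) e2
  have n0 : 0 < ‖1 - ww r y‖ := norm_pos_iff.2 (ww_ne hy)
  have n3 : 2 * Real.pi * r * δ / Real.exp (4 * Real.pi * r) / (4 * Real.pi * (r + 1) * δ) ^ 2 ≤
      (HH r y).re := by
    rw [HH_re hy]
    exact div_le_div₀ (le_trans (by positivity) n2) n2 (by positivity) (by gcongr)
  refine le_trans (le_of_eq ?_) (mul_le_mul_of_nonneg_left n3 (mul_pos (cc_pos hr) δ0).le)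
  unfold cc
  field_simp
  norm_num

/-- the kernel of one box -/
lemma one (hr : 0 < r) {δ : ℝ} (δ0 : 0 < δ) (δ1 : δ ≤ 1) (x : ℝ) :
    ∃ U : ℂ → ℝ, Bar (St r) U ∧ (∀ t : ℝ, U t ≤ (1 + 8 / r ^ 2) * (2 * cc r * bb r 0) * δ) ∧
      ∀ y ∈ St r, UJ U y 0 ∧ (r * (δ / 2) ≤ r - |y.im| → r - |y.im| ≤ r * δ →
        (∃ m : ℤ, |y.re - m - x| ≤ δ) → 1 ≤ U y ∧ UJ U y (-(1 / dd r y ^ 2))) := by
  have c0 := mul_pos (cc_pos hr) δ0
  have a1 : ∀ y ∈ St r, (y - x).im < r ∧ (x - y).im < r := fun y hy => by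
    have := abs_lt.1 (show |y.im| < r from hy)
    constructor <;> simp <;> linarith
  let S : ℂ → ℂ := fun y => ((cc r * δ : ℝ) : ℂ) * (HH r (y - x) + HH r (x - y))
  have re : ∀ y, (S y).re = cc r * δ * (HH r (y - x)).re + cc r * δ * (HH r (x - y)).re :=
    fun y => by simp only [S]; rw [Complex.re_ofReal_mul, Complex.add_re, mul_add]
  have p1 : ∀ y ∈ St r, 0 ≤ cc r * δ * (HH r (y - x)).re ∧
      0 ≤ cc r * δ * (HH r (x - y)).re := fun y hy =>
    ⟨mul_nonneg c0.le (HH_pos (a1 y hy).1), mul_nonneg c0.le (HH_pos (a1 y hy).2)⟩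
  have an : AnalyticOnNhd ℂ S (St r) := fun y hy => analyticAt_const.mul (AnalyticAt.add
    ((HH_an (a1 y hy).1).comp_of_eq (analyticAt_id.sub analyticAt_const) rfl)
    ((HH_an (a1 y hy).2).comp_of_eq (analyticAt_const.sub analyticAt_id) rfl))
  have bS : Bar (St r) fun y => (S y).re :=
    ⟨Complex.continuous_re.comp_continuousOn an.continuousOn, fun y hy =>
      (add_nonneg (p1 y hy).1 (p1 y hy).2).trans_eq (re y).symm⟩
  have k0 : 0 < r ^ 2 * (δ / 2) := by positivity
  have r2 : 0 ≤ 2 / r ^ 2 := by positivity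
  have jS : ∀ y ∈ St r, UJ (fun y => (S y).re) y 0 := fun y hy => (EJ.re (an y hy)).uj
  have bM := (bS.smul (k := 4) (by norm_num)).min (mu_bar (r := r) k0)
  refine ⟨fun y => (S y).re + 2 / r ^ 2 * min (4 * (S y).re)
    (Real.log (1 + dd r y / (r ^ 2 * (δ / 2)))), bS.add (bM.smul r2), fun t => ?_, fun y hy =>
    ⟨?_, fun l1 l2 ⟨m, hm⟩ => ?_⟩⟩
  · have e1 : (S t).re ≤ 2 * cc r * bb r 0 * δ := by
      refine (Complex.re_le_norm _).trans ?_
      simp only [S]
      rw [norm_mul, Complex.norm_real, Real.norm_of_nonneg c0.le]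
      refine (mul_le_mul_of_nonneg_left ((norm_add_le _ _).trans (add_le_add
        (HH_le (s := 0) (by simp) hr) (HH_le (s := 0) (by simp) hr))) c0.le).trans_eq (by ring)
    have e2 := mul_le_mul_of_nonneg_left ((min_le_left (4 * (S t).re)
      (Real.log (1 + dd r t / (r ^ 2 * (δ / 2))))).trans
        (mul_le_mul_of_nonneg_left e1 (by norm_num))) r2
    calc _ ≤ 2 * cc r * bb r 0 * δ + 2 / r ^ 2 * (4 * (2 * cc r * bb r 0 * δ)) := add_le_add e1 e2
      _ = _ := by ring
  · have j : UJ (fun y => min (4 * (S y).re) (Real.log (1 + dd r y / (r ^ 2 * (δ / 2))))) y 0 :=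
      (le_total (4 * (S y).re) (Real.log (1 + dd r y / (r ^ 2 * (δ / 2))))).elim
        (fun e => UJ.min_left (by simpa using (jS y hy).smul (k := 4) (by norm_num)) e)
        fun e => ((mu_uj hy k0).mono
          (div_nonpos_of_nonpos_of_nonneg (by nlinarith) (sq_nonneg _))).min_right e
    simpa using (jS y hy).add (j.smul r2)
  · have s1 : 1 ≤ (S y).re := by
      rw [re]
      rcases le_total 0 y.im with e | e
      · rw [abs_of_nonneg e] at l1 l2
        have := HH_ge' (y := y - x - m) hr δ0 δ1 (by simp; linarith) (by simp; linarith)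
          (by simpa [sub_right_comm] using hm)
        rw [HH_per] at this
        linarith [(p1 y hy).2]
      · rw [abs_of_nonpos e] at l1 l2
        have := HH_ge' (y := x - y - (-m : ℤ)) hr δ0 δ1 (by simp; linarith) (by simp; linarith)
          (by rw [← abs_neg]; convert hm using 2; simp; ring)
        rw [HH_per] at this
        linarith [(p1 y hy).1]
    have h0 : |y.im| < r := hy
    have e : dd r y = (r - |y.im|) * (r + |y.im|) := by rw [dd, ← sq_abs y.im]; ring
    have a0 := abs_nonneg y.im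
    have d0 := dd_pos hy
    have d1 : r ^ 2 * (δ / 2) ≤ dd r y := by
      rw [e]; nlinarith [mul_le_mul_of_nonneg_left l1 hr.le, mul_nonneg (sub_pos.2 h0).le a0]
    have d2 : dd r y ≤ 4 * (r ^ 2 * (δ / 2)) := by
      rw [e]
      nlinarith [mul_le_mul_of_nonneg_left l2 hr.le, mul_nonneg (sub_pos.2 h0).le (sub_pos.2 h0).le]
    refine ⟨s1.trans (le_add_of_nonneg_right (mul_nonneg r2 (bM.2 y hy))), ?_⟩
    have l3 : Real.log (1 + dd r y / (r ^ 2 * (δ / 2))) ≤ 4 * (S y).re := by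
      have := Real.log_le_sub_one_of_pos (show 0 < 1 + dd r y / (r ^ 2 * (δ / 2)) by positivity)
      have := (div_le_iff₀ k0).2 d2
      linarith
    refine ((jS y hy).add (((mu_uj hy k0).min_right l3).smul r2)).mono ?_
    rw [zero_add, ← mul_div_assoc, ← neg_div, div_le_div_iff₀ (by positivity) (by positivity)]
    have e1 : 2 / r ^ 2 * -(2 * r ^ 2) = -4 := by field_simp; norm_num
    have e2 : (dd r y + r ^ 2 * (δ / 2)) ^ 2 ≤ (2 * dd r y) ^ 2 :=
      pow_le_pow_left₀ (by positivity) (by linarith) 2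
    rw [e1]
    nlinarith

end Box

open Box in
theorem ker : Spec_KER := by
  intro r κ hr κ1 hM p
  obtain ⟨C, hC⟩ := hM p
  have c0 : 0 < (1 + 8 / r ^ 2) * (2 * cc r * bb r 0) := by
    have := cc_pos hr; have := bb_pos hr; positivity
  set c := (1 + 8 / r ^ 2) * (2 * cc r * bb r 0)
  refine ⟨c * C, fun k => ?_⟩
  obtain ⟨b, b0, b1, b2⟩ := hC k
  set δ : ℝ := (2 ^ k)⁻¹ with hδ
  have k0 : (0 : ℝ) < 2 ^ k := by positivity
  have δ0 : 0 < δ := by positivity
  have δ1 : δ ≤ 1 := inv_le_one_of_one_le₀ (one_le_pow₀ (by norm_num))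
  have δ2 : δ * 2 ^ k = 1 := inv_mul_cancel₀ k0.ne'
  choose U u1 u2 u3 using fun i : ℕ => one hr δ0 δ1 (i * δ)
  have w0 : ∀ i, 0 ≤ b i ^ p := fun i => pow_nonneg (b0 i) p
  have jS : ∀ y ∈ St r, ∀ I : Finset ℕ, UJ (fun y => ∑ i ∈ I, b i ^ p * U i y) y 0 :=
    fun y hy I => by
      simpa using UJ.sum I (a := fun i => b i ^ p * 0) fun i _ => (u3 i y hy).1.smul (w0 i)
  refine ⟨fun y => ∑ i ∈ Finset.range (2 ^ k), b i ^ p * U i y,
    Bar.sum _ fun i _ => (u1 i).smul (w0 i), fun t => ?_, fun y hy => ⟨jS y hy _, fun hB => ?_⟩⟩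
  · refine (Finset.sum_le_sum fun i _ => mul_le_mul_of_nonneg_left (u2 i t) (w0 i)).trans ?_
    rw [← Finset.sum_mul]
    refine (mul_le_mul_of_nonneg_right b1 (by positivity)).trans_eq ?_
    linear_combination (c * C) * δ2
  · have h1 := b2 y hy hB
    set u := Int.fract y.re with hu
    have u0 : 0 ≤ u := Int.fract_nonneg _
    have u1' : u < 1 := Int.fract_lt_one _
    have f1 := Nat.floor_le (show 0 ≤ u * 2 ^ k by positivity)
    have f2 := Nat.lt_floor_add_one (u * 2 ^ k)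
    set j := ⌊u * 2 ^ k⌋₊
    have e : u = u * 2 ^ k * δ := by rw [mul_assoc, mul_comm _ δ, δ2, mul_one]
    have g1 : j * δ ≤ u := by rw [e]; gcongr
    have g2 : u < (j + 1) * δ := by rw [e]; gcongr
    have j1 : j ∈ Finset.range (2 ^ k) := by
      have : (j : ℝ) < 2 ^ k := f1.trans_lt (by nlinarith)
      exact Finset.mem_range.2 (by exact_mod_cast this)
    obtain ⟨v1, v2⟩ := (u3 j y hy).2 (le_trans (le_of_eq (by rw [hδ, pow_succ]; field_simp)) hB.1)
      (hB.2.trans_eq (by rw [hδ, div_eq_mul_inv])) ⟨⌊y.re⌋, by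
        change |u - j * δ| ≤ δ
        rw [abs_le]
        constructor <;> linarith⟩
    have h2 : κ y ^ p ≤ b j ^ p := pow_le_pow_left₀ (zero_le_one.trans (κ1 y)) h1 p
    refine ⟨(h2.trans (le_mul_of_one_le_right (w0 j) v1)).trans (Finset.single_le_sum
      (f := fun i => b i ^ p * U i y) (fun i _ => mul_nonneg (w0 i) ((u1 i).2 y hy)) j1), ?_⟩
    refine (((v2.smul (w0 j)).add (jS y hy ((Finset.range (2 ^ k)).erase j))).congr
      (.of_forall fun x => by
        simp only [← Finset.add_sum_erase _ (fun i => b i ^ p * U i x) j1])).mono ?_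
    rw [add_zero, mul_neg, mul_one_div]
    exact neg_le_neg (div_le_div_of_nonneg_right h2 (sq_nonneg _))

end Vale.Agent.P097K
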