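import Vale.Agent.P097K.Alg1

/-!
# P097K (copy of P097C): from the concrete leaf to the abstract leaf (row ALG)
-/

set_option linter.all false

open Filter Topology Set Metric Complex

open Vale.Agent.P097C

namespace Vale.Agent.P097K

namespace Alg

theorem isOpen_St (T : ℝ) : IsOpen (St T) :=
  isOpen_lt (f := fun z : ℂ => |z.im|) (by fun_prop) continuous_const

theorem convex_St (T : ℝ) : Convex ℝ (St T) := by
  have : St T = Complex.imLm ⁻¹' Ioo (-T) T := by
    ext z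
    simp [St, abs_lt]
  rw [this]
  exact (convex_Ioo _ _).linear_preimage _

theorem real_mem {T : ℝ} (hT : 0 < T) (x : ℝ) : (x : ℂ) ∈ St T := by simpa [St] using hT

theorem add_mem {T : ℝ} {z s : ℂ} (hz : z ∈ St T) (hs : s.im = 0) : z + s ∈ St T := by
  simpa [St, hs] using hz

theorem sub_mem {T : ℝ} {z s : ℂ} (hz : z ∈ St T) (hs : s.im = 0) : z - s ∈ St T := by
  simpa [St, hs] using hz

theorem im_div (j n : ℕ) : ((j : ℂ) / n).im = 0 := by
  rw [show (j : ℂ) / n = ((j / n : ℝ) : ℂ) by push_cast; rfl, ofReal_im]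

theorem im_inv (n : ℕ) : (1 / (n : ℂ)).im = 0 := by simpa using im_div 1 n

theorem an_add {T : ℝ} {G : ℂ → ℂ} (hG : AnalyticOnNhd ℂ G (St T)) {s : ℂ} (hs : s.im = 0) :
    AnalyticOnNhd ℂ (fun z => G (z + s)) (St T) := fun z hz =>
  (hG _ (add_mem hz hs)).comp_of_eq (f := fun z => z + s) (analyticAt_id.add analyticAt_const) rfl

theorem an_sub {T : ℝ} {G : ℂ → ℂ} (hG : AnalyticOnNhd ℂ G (St T)) {s : ℂ} (hs : s.im = 0) :
    AnalyticOnNhd ℂ (fun z => G (z - s)) (St T) := fun z hz =>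
  (hG _ (sub_mem hz hs)).comp_of_eq (f := fun z => z - s) (analyticAt_id.sub analyticAt_const) rfl

theorem ident {T : ℝ} (hT : 0 < T) {F G : ℂ → ℂ} (hF : AnalyticOnNhd ℂ F (St T))
    (hG : AnalyticOnNhd ℂ G (St T)) (h : ∀ x : ℝ, F x = G x) : ∀ z ∈ St T, F z = G z := by
  refine hF.eqOn_of_preconnected_of_frequently_eq hG (convex_St T).isPreconnected
    (real_mem hT 0) ?_
  have t : Tendsto ofReal (𝓝[≠] 0) (𝓝[≠] ((0 : ℝ) : ℂ)) :=
    tendsto_nhdsWithin_iff.2 ⟨(continuous_ofReal.tendsto 0).mono_left nhdsWithin_le_nhds,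
      eventually_mem_nhdsWithin.mono fun w hw => ofReal_injective.ne hw⟩
  exact t.frequently (Eventually.frequently (Eventually.of_forall h))

/-- period one on the strip -/
def Per (T : ℝ) (f : ℂ → ℂ) : Prop := ∀ x ∈ St T, f (x + 1) = f x

theorem Per.int {T : ℝ} {f : ℂ → ℂ} (hf : Per T f) (k : ℤ) : ∀ x ∈ St T, f (x + k) = f x := by
  intro x hx
  induction k using Int.induction_on with
  | zero => simp
  | succ k ih =>
    have := hf (x + k) (add_mem hx (natCast_im k))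
    push_cast at ih ⊢
    rw [← add_assoc, this, ih]
  | pred k ih =>
    have := hf (x + (-k - 1)) (add_mem hx (by simp))
    push_cast at ih ⊢
    rw [show x + (-(k : ℂ) - 1) + 1 = x + -k by ring, ih] at this
    exact this.symm

theorem Per.succ {T : ℝ} {f : ℂ → ℂ} (hf : Per T f) {n : ℕ} [NeZero n] (j : ZMod n) {x : ℂ}
    (hx : x ∈ St T) : f (x + (j + 1).val / n) = f (x + j.val / n + 1 / n) := by
  have h1 : (n : ℤ) ∣ (j.val : ℤ) + 1 - (j + 1).val := by
    rw [← ZMod.intCast_zmod_eq_zero_iff_dvd]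
    push_cast
    simp
  obtain ⟨k, hk⟩ := h1
  have h2 : (j.val : ℂ) + 1 - (j + 1).val = n * k := by exact_mod_cast hk
  have n0 : (n : ℂ) ≠ 0 := Nat.cast_ne_zero.2 (NeZero.ne n)
  rw [← hf.int k _ (add_mem hx (im_div _ n))]
  congr 1
  field_simp
  linear_combination -h2

theorem Per.pred {T : ℝ} {f : ℂ → ℂ} (hf : Per T f) {n : ℕ} [NeZero n] (j : ZMod n) {x : ℂ}
    (hx : x ∈ St T) : f (x + (j - 1).val / n) = f (x + j.val / n - 1 / n) := by
  have h1 := hf.succ (j - 1) (sub_mem hx (im_inv n))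
  rw [sub_add_cancel] at h1
  rw [show x + j.val / n - 1 / n = x - 1 / n + j.val / n by ring, h1]
  congr 1
  ring

theorem per_deriv {T : ℝ} {f : ℂ → ℂ} {k : ℂ} (hf : ∀ x ∈ St T, f (x + 1) = f x + k) :
    Per T (deriv f) := fun x hx => by
  have e : (fun z => f (z + 1)) =ᶠ[𝓝 x] fun z => f z + k := by
    filter_upwards [(isOpen_St T).mem_nhds hx] with z hz using hf z hz
  rw [← deriv_comp_add_const, e.deriv_eq, deriv_add_const]

theorem pr_iff {z : ℂ} : PR z ↔ ∃ t : ℝ, 0 < t ∧ z = t :=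
  ⟨fun h => ⟨z.re, h.2, Complex.ext (by simp) (by rw [h.1, ofReal_im])⟩,
    fun ⟨t, h, e⟩ => by rw [e]; exact ⟨ofReal_im t, by rwa [ofReal_re]⟩⟩

theorem pr_ne {z : ℂ} (h : PR z) : z ≠ 0 := fun e => by
  have := h.2
  rw [e, zero_re] at this
  exact lt_irrefl _ this

theorem pr_mul {a b : ℂ} (ha : PR a) (hb : PR b) : PR (a * b) := by
  obtain ⟨s, s0, rfl⟩ := pr_iff.1 ha
  obtain ⟨t, t0, rfl⟩ := pr_iff.1 hb
  exact pr_iff.2 ⟨s * t, mul_pos s0 t0, by push_cast; rfl⟩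

theorem pr_add {a b : ℂ} (ha : PR a) (hb : PR b) : PR (a + b) :=
  ⟨by rw [add_im, ha.1, hb.1, add_zero], by rw [add_re]; exact add_pos ha.2 hb.2⟩

theorem pr_of_mul {a b z : ℂ} (ha : PR a) (hb : PR b) (h : z * a = b) : PR z := by
  have a0 := pr_ne ha
  obtain ⟨s, s0, rfl⟩ := pr_iff.1 ha
  obtain ⟨t, t0, rfl⟩ := pr_iff.1 hb
  exact pr_iff.2 ⟨t / s, div_pos t0 s0, by rw [ofReal_div, eq_div_iff a0, h]⟩

theorem norm_exp_le (z : ℂ) : ‖exp (z * I)‖ ≤ Real.exp |z.im| ∧ ‖exp (-z * I)‖ ≤ Real.exp |z.im| := by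
  rw [norm_exp, norm_exp, Real.exp_le_exp, Real.exp_le_exp]
  simp [neg_le_abs, le_abs_self]

theorem norm_sin_le (z : ℂ) : ‖sin z‖ ≤ Real.exp |z.im| := by
  obtain ⟨h1, h2⟩ := norm_exp_le z
  have := norm_sub_le (exp (-z * I)) (exp (z * I))
  rw [Complex.sin, norm_div, norm_mul, norm_I, mul_one, Complex.norm_ofNat]
  linarith

theorem norm_cos_le (z : ℂ) : ‖cos z‖ ≤ Real.exp |z.im| := by
  obtain ⟨h1, h2⟩ := norm_exp_le z
  have := norm_add_le (exp (z * I)) (exp (-z * I))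
  rw [Complex.cos, norm_div, Complex.norm_ofNat]
  linarith

theorem bd_A {E : ℝ} (hE : 1 ≤ E) {a b b' c d e : ℂ} (ha : ‖a‖ ≤ E) (hb : ‖b‖ ≤ E) (hb' : ‖b'‖ ≤ E)
    (hc : ‖c‖ ≤ E) (hd : ‖d‖ ≤ E) (he : ‖e‖ = 1) :
    ‖a * (b - b') / 2 + e * (c * d ^ 2)‖ ≤ 2 * E ^ 3 := by
  have h1 : ‖a * (b - b') / 2‖ ≤ E * E := by
    rw [norm_div, norm_mul, Complex.norm_ofNat, mul_div_assoc]
    refine mul_le_mul ha ?_ (by positivity) (by linarith)
    have := norm_sub_le b b'
    linarith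
  have h2 : ‖e * (c * d ^ 2)‖ ≤ E * E ^ 2 := by
    rw [norm_mul, he, one_mul, norm_mul, norm_pow]
    exact mul_le_mul hc (pow_le_pow_left₀ (norm_nonneg _) hd 2) (by positivity) (by linarith)
  have h3 : E * E * 1 ≤ E * E * E := mul_le_mul_of_nonneg_left hE (by positivity)
  have := norm_add_le (a * (b - b') / 2) (e * (c * d ^ 2))
  linarith

theorem pole_free {n : ℕ} [NeZero n] (l η : ZMod n → ℂ) (h : ∀ j, η j ≠ 0) :
    ∑ j, l j * ((∏ i ∈ Finset.univ.erase j, η i) * ∏ i ∈ Finset.univ.erase (j + 1), η i) =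
      (∑ j, l j / (η j * η (j + 1))) * (∏ i, η i) ^ 2 := by
  rw [Finset.sum_mul]
  refine Finset.sum_congr rfl fun j _ => ?_
  have h1 := Finset.mul_prod_erase Finset.univ η (Finset.mem_univ j)
  have h2 := Finset.mul_prod_erase Finset.univ η (Finset.mem_univ (j + 1))
  have h3 := h j
  have h4 := h (j + 1)
  rw [sq]
  nth_rewrite 1 [← h1]
  rw [← h2]
  field_simp

theorem sum_val {n : ℕ} [NeZero n] (f : ℕ → ℂ) :
    ∑ j : ZMod n, f j.val = ∑ j ∈ Finset.range n, f j :=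
  Finset.sum_nbij' (fun j => j.val) (fun j => (j : ZMod n))
    (fun j _ => Finset.mem_range.2 (ZMod.val_lt j)) (fun _ _ => Finset.mem_univ _)
    (fun j _ => ZMod.natCast_zmod_val j) (fun _ hj => ZMod.val_cast_of_lt (Finset.mem_range.1 hj))
    (fun _ _ => rfl)

variable {n : ℕ}

/-- the half angle as a function of the configuration -/
noncomputable def dC (F : ZMod n → (ZMod n → ℂ) → ℂ) (θ : ℂ → ℂ) (j : ZMod n) (y : ZMod n → ℂ) : ℂ :=
  F j y - θ (y j)

noncomputable def AC (F G : ZMod n → (ZMod n → ℂ) → ℂ) (θ h : ℂ → ℂ) (e : ℂ) (j : ZMod n)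
    (y : ZMod n → ℂ) : ℂ :=
  cos (dC F θ j y) * (G j y - G (j - 1) y) / 2 + e * (h (y j) * sin (dC F θ j y) ^ 2)

noncomputable def lC (F G : ZMod n → (ZMod n → ℂ) → ℂ) (θ h : ℂ → ℂ) (j : ZMod n)
    (y : ZMod n → ℂ) : ℂ :=
  sin (dC F θ j y) * AC F G θ h 1 (j + 1) y - sin (dC F θ (j + 1) y) * AC F G θ h (-1) j y

end Alg

open Alg in
theorem alg (h1 : Spec_ALG1) (h2 : Spec_ALG2) : Spec_ALG := by
  intro r ρ c C θ h g Q Y φ p n _ S L
  have X := h1 r ρ c C θ h g Q Y φ p n S L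
  obtain ⟨F, G, aFG, eFG, pFG, B, hB⟩ := h2 r ρ c C θ h g Q Y φ p n S L
  have i1 := im_inv n
  have ij : ∀ j : ZMod n, ((j.val : ℂ) / n).im = 0 := fun j => im_div _ n
  have pde : Per ρ (de n φ) := fun x hx => by
    rw [de, de, show x + 1 - 1 / n = x - 1 / n + 1 by ring, L.perφ x hx,
      L.perφ _ (sub_mem hx i1)]
    ring
  have ps : Per ρ (sA n φ) := fun x hx => by rw [sA, sA, pde x hx]
  have pp : Per ρ p := L.perp
  have ph : Per ρ fun x => h (Y x) := fun x hx => by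
    show h (Y (x + 1)) = h (Y x)
    rw [L.perY x hx, S.perh _ (L.maps hx)]
  have pAp : Per ρ (Ap h n Y φ p) := fun x hx => by
    have : h (Y (x + 1)) = h (Y x) := ph x hx
    rw [Ap, Ap, pde x hx, ps x hx, pp x hx, show x + 1 - 1 / n = x - 1 / n + 1 by ring,
      pp _ (sub_mem hx i1), this]
  have pAm : Per ρ (Am h n Y φ p) := fun x hx => by
    have : h (Y (x + 1)) = h (Y x) := ph x hx
    rw [Am, Am, pde x hx, ps x hx, pp x hx, show x + 1 - 1 / n = x - 1 / n + 1 by ring,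
      pp _ (sub_mem hx i1), this]
  have pφ' : Per ρ (deriv φ) := per_deriv L.perφ
  have pp' : Per ρ (deriv p) := per_deriv (k := 0) fun x hx => by rw [add_zero, pp x hx]
  have pe : Per ρ (eA h n Y φ p) := fun x hx => by
    rw [eA, eA, ps x hx, pp' x hx, pAp x hx, pφ' x hx]
  have ade : AnalyticOnNhd ℂ (de n φ) (St ρ) := fun x hx =>
    ((L.anφ x hx).sub (an_sub L.anφ i1 x hx)).div_const
  have as : AnalyticOnNhd ℂ (sA n φ) (St ρ) := fun x hx => analyticAt_sin.comp (ade x hx)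
  have ah : AnalyticOnNhd ℂ (fun x => h (Y x)) (St ρ) := fun x hx =>
    (S.anh _ (L.maps hx)).comp (L.anY x hx)
  have aA : AnalyticOnNhd ℂ (fun x => cos (de n φ x) * (p x - p (x - 1 / n)) / 2) (St ρ) :=
    fun x hx => ((analyticAt_cos.comp (ade x hx)).mul
      ((L.anp x hx).sub (an_sub L.anp i1 x hx))).div_const
  have aAp : AnalyticOnNhd ℂ (Ap h n Y φ p) (St ρ) := fun x hx =>
    (aA x hx).sub ((ah x hx).mul ((as x hx).pow 2))
  have aAm : AnalyticOnNhd ℂ (Am h n Y φ p) (St ρ) := fun x hx =>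
    (aA x hx).add ((ah x hx).mul ((as x hx).pow 2))
  have ae : AnalyticOnNhd ℂ (eA h n Y φ p) (St ρ) := fun x hx =>
    ((as x hx).mul (L.anp x hx).deriv).sub ((aAp x hx).mul (L.anφ x hx).deriv)
  have al : AnalyticOnNhd ℂ (lA h n Y φ p) (St ρ) := fun x hx =>
    ((as x hx).mul (an_add aAm i1 x hx)).sub ((an_add as i1 x hx).mul (aAp x hx))
  have vd : ∀ j, ∀ x ∈ St ρ, dC F θ j (fun i => Y (x + i.val / n)) = de n φ (x + j.val / n) :=
    fun j x hx => by
      have := L.th _ (add_mem hx (ij j))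
      rw [dC, (eFG j x hx).1, de]
      linear_combination this / 2
  have vA : ∀ e j, ∀ x ∈ St ρ, AC F G θ h e j (fun i => Y (x + i.val / n)) =
      cos (de n φ (x + j.val / n)) * (p (x + j.val / n) - p (x + j.val / n - 1 / n)) / 2 +
        e * (h (Y (x + j.val / n)) * sA n φ (x + j.val / n) ^ 2) := fun e j x hx => by
    rw [AC, vd j x hx, (eFG j x hx).2, (eFG (j - 1) x hx).2, pp.pred j hx, sA]
  have vs : ∀ j, ∀ x ∈ St ρ, sin (dC F θ j (fun i => Y (x + i.val / n))) =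
      sA n φ (x + j.val / n) := fun j x hx => by rw [vd j x hx, sA]
  have vl : ∀ j, ∀ x ∈ St ρ, lC F G θ h j (fun i => Y (x + i.val / n)) =
      lA h n Y φ p (x + j.val / n) := fun j x hx => by
    rw [lC, vs j x hx, vs (j + 1) x hx, vA 1 (j + 1) x hx, vA (-1) j x hx, lA, ← pAm.succ j hx,
      ← ps.succ j hx, Am, Ap]
    ring
  have apr : ∀ (j : ZMod n) (y : ZMod n → ℂ), AnalyticAt ℂ (fun y : ZMod n → ℂ => y j) y :=
    fun j y => (ContinuousLinearMap.proj (R := ℂ) (φ := fun _ : ZMod n => ℂ) j).analyticAt y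
  have ad : ∀ j, AnalyticOnNhd ℂ (dC F θ j) (Cf n r) := fun j y hy =>
    ((aFG j).1 y hy).sub ((S.anθ _ (hy j)).comp_of_eq (apr j y) rfl)
  have aAC : ∀ e j, AnalyticOnNhd ℂ (AC F G θ h e j) (Cf n r) := fun e j y hy =>
    ((analyticAt_cos.comp (ad j y hy)).mul
      (((aFG j).2 y hy).sub ((aFG (j - 1)).2 y hy))).div_const.add
      (analyticAt_const.mul (((S.anh _ (hy j)).comp_of_eq (apr j y) rfl).mul
        ((analyticAt_sin.comp (ad j y hy)).pow 2)))
  have pd : ∀ j, ∀ y ∈ Cf n r, ∀ m : ZMod n → ℤ,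
      sin (dC F θ j fun i => y i + m i) = sin (dC F θ j y) ∧
      cos (dC F θ j fun i => y i + m i) = cos (dC F θ j y) := fun j y hy m => by
    obtain ⟨⟨k, k1, k', k2, -⟩, -⟩ := pFG j y hy m
    have e : (dC F θ j fun i => y i + m i) = dC F θ j y + ((k - k' : ℤ) : ℂ) * (2 * Real.pi) := by
      rw [dC, dC, k1, k2]
      push_cast
      ring
    rw [e]
    exact ⟨sin_add_int_mul_two_pi _ _, cos_add_int_mul_two_pi _ _⟩
  have pA : ∀ e j, ∀ y ∈ Cf n r, ∀ m : ZMod n → ℤ,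
      (AC F G θ h e j fun i => y i + m i) = AC F G θ h e j y := fun e j y hy m => by
    obtain ⟨⟨k, -, k', -, k3⟩, k4⟩ := pFG j y hy m
    rw [AC, AC, (pd j y hy m).1, (pd j y hy m).2, k4, (pFG (j - 1) y hy m).2, k3]
  have c1 : ∀ t : ℝ, (t : ℂ) + 1 / n = ((t + 1 / n : ℝ) : ℂ) := fun t => by push_cast; rfl
  have cj : ∀ (t : ℝ) (j : ℕ), (t : ℂ) + j / n = ((t + j / n : ℝ) : ℂ) := fun t j => by
    push_cast; rfl
  have rg : ∀ t : ℝ, PR (g (Y t)) := fun t => by
    rw [show Y t = ((Y t).re : ℂ) from Complex.ext (by simp) (by rw [L.reY, ofReal_im])]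
    exact S.posg _
  have rs : ∀ t : ℝ, PR (sA n φ t) := L.poss
  have rc : PR c := ⟨ofReal_im c, by rw [ofReal_re]; exact S.c0⟩
  have re : ∀ t : ℝ, PR (eA h n Y φ p t) := fun t =>
    pr_of_mul (pr_mul (rg t) (rg t)) (pr_mul (pr_mul rc (pr_mul (rs t) (rs t))) (L.posY t)) (by
      linear_combination X.eqη t (real_mem L.ρ0 t))
  have rl : ∀ t : ℝ, PR (lA h n Y φ p t) := fun t =>
    pr_of_mul (L.posφ t) (pr_add (pr_mul (rs (t + 1 / n)) (re t)) (pr_mul (rs t) (re (t + 1 / n))))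
      (by rw [← c1]; exact X.eqE t (real_mem L.ρ0 t))
  have esg : ∀ t : ℝ, (sg c g n Y φ t)⁻¹ = sA n φ t / eA h n Y φ p t := fun t => by
    have k := X.eqη t (real_mem L.ρ0 t)
    have k1 := pr_ne (rg t)
    have k2 := pr_ne (rs t)
    have k3 := pr_ne (re t)
    have k4 : sg c g n Y φ t = eA h n Y φ p t / sA n φ t := by
      rw [sg, div_eq_div_iff (pow_ne_zero 2 k1) k2, ← sA]
      linear_combination -k
    rw [k4, inv_div]
  refine ⟨fun x i => Y (x + i.val / n), fun j y => sin (dC F θ j y), lC F G θ h,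
    fun j x => deriv φ (x + j.val / n), fun j x => eA h n Y φ p (x + j.val / n),
    L.odd, L.ρ0, fun j => an_add L.anY (ij j), fun x hx j => L.maps (add_mem hx (ij j)),
    fun j y hy => analyticAt_sin.comp (ad j y hy),
    fun j y hy => ((analyticAt_sin.comp (ad j y hy)).mul (aAC 1 (j + 1) y hy)).sub
      ((analyticAt_sin.comp (ad (j + 1) y hy)).mul (aAC (-1) j y hy)),
    fun j => an_add L.anφ.deriv (ij j), fun j => an_add ae (ij j),
    fun j y hy m => (pd j y hy m).1, fun j y hy m => ?_, fun j x hx => ?_, fun j x hx => ?_,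
    fun j x hx => ?_, ⟨6 * (|B| + 1), fun lam hl y hy hb j => ?_⟩, fun j => ?_, fun j => ?_, ?_,
    fun x₀ σ Z k1 k2 k3 k4 k5 => ?_⟩
  · rw [lC, lC, (pd j y hy m).1, (pd (j + 1) y hy m).1, pA 1 _ y hy m, pA (-1) _ y hy m]
  · rw [vl j x hx, vs j x hx, vs (j + 1) x hx, ps.succ j hx, pe.succ j hx]
    exact X.eqE _ (add_mem hx (ij j))
  · rw [pφ'.pred j hx, deriv_comp_add_const]
    exact X.eqθ _ (add_mem hx (ij j))
  · rw [vs j x hx, deriv_comp_add_const]
    exact X.eqη _ (add_mem hx (ij j))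
  · have l0 : 0 ≤ lam := by linarith
    have b1 : B * lam ≤ |B| * lam := mul_le_mul_of_nonneg_right (le_abs_self B) l0
    have b2 : 0 ≤ |B| * lam := mul_nonneg (abs_nonneg B) l0
    have hE : 2 ≤ Real.exp ((|B| + 1) * lam) := by
      have := Real.add_one_le_exp ((|B| + 1) * lam)
      linarith
    have e6 : Real.exp (6 * (|B| + 1) * lam) = Real.exp ((|B| + 1) * lam) ^ 6 := by
      rw [← Real.exp_nat_mul]
      congr 1
      push_cast
      ring
    have bd : ∀ i, Real.exp |(dC F θ i y).im| ≤ Real.exp ((|B| + 1) * lam) := fun i => by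
      rw [Real.exp_le_exp, dC, sub_im]
      have := abs_sub (F i y).im (θ (y i)).im
      have := (hB lam hl y hy hb i).1
      have := (hb i).1
      linarith
    have bG : ∀ i, ‖G i y‖ ≤ Real.exp ((|B| + 1) * lam) := fun i =>
      (hB lam hl y hy hb i).2.trans (Real.exp_le_exp.2 (by linarith))
    have bh : ∀ i, ‖h (y i)‖ ≤ Real.exp ((|B| + 1) * lam) := fun i =>
      (hb i).2.trans (Real.exp_le_exp.2 (by linarith))
    have bs : ∀ i, ‖sin (dC F θ i y)‖ ≤ Real.exp ((|B| + 1) * lam) := fun i =>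
      (norm_sin_le _).trans (bd i)
    have bA : ∀ e : ℂ, ‖e‖ = 1 → ∀ i, ‖AC F G θ h e i y‖ ≤ 2 * Real.exp ((|B| + 1) * lam) ^ 3 :=
      fun e he i => bd_A (by linarith) ((norm_cos_le _).trans (bd i)) (bG i) (bG _) (bh i) (bs i) he
    rw [e6]
    generalize Real.exp ((|B| + 1) * lam) = E at hE bs bA
    have E0 : 0 ≤ E := by linarith
    refine ⟨(bs j).trans (le_self_pow₀ (by linarith) (by norm_num)), ?_⟩
    have m1 : ‖sin (dC F θ j y) * AC F G θ h 1 (j + 1) y‖ ≤ E * (2 * E ^ 3) := by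
      rw [norm_mul]
      exact mul_le_mul (bs j) (bA 1 norm_one _) (norm_nonneg _) E0
    have m2 : ‖sin (dC F θ (j + 1) y) * AC F G θ h (-1) j y‖ ≤ E * (2 * E ^ 3) := by
      rw [norm_mul]
      exact mul_le_mul (bs _) (bA (-1) (by simp) _) (norm_nonneg _) E0
    have m3 : E ^ 4 * 2 ^ 2 ≤ E ^ 4 * E ^ 2 :=
      mul_le_mul_of_nonneg_left (pow_le_pow_left₀ (by norm_num) hE 2) (by positivity)
    refine (norm_sub_le _ _).trans ?_
    linarith
  · show (Y (0 + j.val / n)).im = 0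
    rw [← ofReal_zero, cj]
    exact L.reY _
  · have z0 : (0 : ℂ) ∈ St ρ := real_mem L.ρ0 0
    show PR (sin (dC F θ j fun i => Y (0 + i.val / n))) ∧
      PR (lC F G θ h j fun i => Y (0 + i.val / n)) ∧ PR (eA h n Y φ p (0 + j.val / n))
    rw [vs j 0 z0, vl j 0 z0, ← ofReal_zero, cj]
    exact ⟨rs _, rl _, re _⟩
  · obtain ⟨C₀, C0, hC⟩ := L.wr
    refine ⟨C₀, C0, fun x hx hne => ?_⟩
    have aη : ∀ j : ZMod n, AnalyticOnNhd ℂ (fun x => eA h n Y φ p (x + j.val / n)) (St ρ) :=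
      fun j => an_add ae (ij j)
    have key := ident L.ρ0
      (F := fun x => ∑ j : ZMod n, lA h n Y φ p (x + j.val / n) *
        ((∏ i ∈ Finset.univ.erase j, eA h n Y φ p (x + i.val / n)) *
          ∏ i ∈ Finset.univ.erase (j + 1), eA h n Y φ p (x + i.val / n)))
      (G := fun x => C₀ * (∏ i : ZMod n, eA h n Y φ p (x + i.val / n)) ^ 2)
      (fun x hx => Finset.analyticAt_fun_sum _ fun j _ => (an_add al (ij j) x hx).mul
        ((Finset.analyticAt_fun_prod _ fun i _ => aη i x hx).mul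
          (Finset.analyticAt_fun_prod _ fun i _ => aη i x hx)))
      (fun x hx => analyticAt_const.mul ((Finset.analyticAt_fun_prod _ fun i _ => aη i x hx).pow 2))
      (fun t => by
        have n1 : ∀ j : ZMod n, eA h n Y φ p (t + j.val / n) ≠ 0 := fun j => by
          rw [cj]
          exact pr_ne (re _)
        rw [pole_free (fun j => lA h n Y φ p (t + j.val / n)) _ n1, ← hC t, ← sum_val]
        congr 1
        refine Finset.sum_congr rfl fun j _ => ?_
        have m := X.eqE _ (real_mem L.ρ0 (t + j.val / n))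
        rw [pe.succ j (real_mem L.ρ0 t), add_div (j.val : ℂ), ← add_assoc, cj, c1, esg, esg]
        rw [c1] at m
        have m1 := pr_ne (re (t + j.val / n))
        have m2 := pr_ne (re (t + j.val / n + 1 / n))
        have m3 := pr_ne (L.posφ (t + j.val / n))
        field_simp
        linear_combination m) x hx
    rw [pole_free (fun j => lA h n Y φ p (x + j.val / n)) _ hne] at key
    have k2 := mul_right_cancel₀ (pow_ne_zero 2 (Finset.prod_ne_zero_iff.2 fun i _ => hne i)) key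
    rw [← k2]
    exact Finset.sum_congr rfl fun j _ => by rw [vl j x hx]
  · refine L.noreg x₀ σ (fun j x => Z x j) k1 k2 fun j hj =>
      ⟨(k3 j).differentiableOn, fun x hx => k5 hx j, fun x hx => ?_⟩
    show Z x j = Y (x + j / n)
    rw [k4 hx]
    show Y (x + ((j : ZMod n).val : ℂ) / n) = _
    rw [ZMod.val_cast_of_lt hj]

end Vale.Agent.P097K
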