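import Vale.Agent.P097K.Alg1

/-!
# P097K (copy of P097C): the lines as functions of the configuration (row 702)
-/

set_option linter.all false

open Filter Topology Set Metric Finset

open Vale.Agent.P097C

namespace Vale.Agent.P097K

namespace Alg2

theorem st_add {r : ℝ} {y : ℂ} (hy : y ∈ St r) (t : ℂ) (ht : t.im = 0) : y + t ∈ St r := by
  simpa [St, ht] using hy

theorem per_int {r : ℝ} {f : ℂ → ℂ} {c : ℂ} (h : ∀ y ∈ St r, f (y + 1) = f y + c) (m : ℤ) :
    ∀ y ∈ St r, f (y + m) = f y + m * c := by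
  induction m using Int.induction_on with
  | zero => intro y _; simp
  | succ k ih =>
    intro y hy
    have h1 := h _ (st_add hy (((k : ℤ) : ℂ)) (by simp))
    have h2 := ih y hy
    push_cast at h1 h2 ⊢
    rw [← add_assoc, h1, h2]
    ring
  | pred k ih =>
    intro y hy
    have h1 := h _ (st_add hy (((-(k : ℤ) - 1 : ℤ) : ℂ)) (by simp))
    have h2 := ih y hy
    push_cast at h1 h2 ⊢
    have e : y + (-(k : ℂ) - 1) + 1 = y + -(k : ℂ) := by ring
    rw [e, h2] at h1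
    linear_combination -h1

theorem tele (a : ℕ → ℂ) (n : ℕ) :
    ∑ i ∈ range n, (-1) ^ i * (a (i + 1) + a i) = a 0 - (-1) ^ n * a n := by
  induction n with
  | zero => simp
  | succ n ih => rw [sum_range_succ, ih]; ring

theorem norm_cos (z : ℂ) : ‖Complex.cos z‖ ≤ Real.exp |z.im| := by
  have h1 : ‖Complex.exp (z * Complex.I)‖ ≤ Real.exp |z.im| := by
    rw [Complex.norm_exp]
    exact Real.exp_le_exp.2 (by simpa using neg_le_abs z.im)
  have h2 : ‖Complex.exp (-z * Complex.I)‖ ≤ Real.exp |z.im| := by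
    rw [Complex.norm_exp]
    exact Real.exp_le_exp.2 (by simpa using le_abs_self z.im)
  rw [Complex.cos, norm_div]
  have := norm_add_le (Complex.exp (z * Complex.I)) (Complex.exp (-z * Complex.I))
  simp only [Complex.norm_ofNat]
  linarith

/-- the direction of the line `j` -/
noncomputable def LnF (θ : ℂ → ℂ) (n : ℕ) (j : ZMod n) (y : ZMod n → ℂ) : ℂ :=
  ∑ i ∈ range n, (-1) ^ i * (θ (y ((j.val + 1 + i : ℕ) : ZMod n)) +
    (((j.val + 1 + i) / n : ℕ) : ℂ) * (2 * Real.pi)) - Real.pi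

/-- the support number of the line `j` -/
noncomputable def LnG (θ h : ℂ → ℂ) (n : ℕ) (j : ZMod n) (y : ZMod n → ℂ) : ℂ :=
  ∑ i ∈ range n, (-1) ^ i * (h (y ((j.val + 1 + i : ℕ) : ZMod n)) *
    Complex.cos (LnF θ n ((j.val + 1 + i : ℕ) : ZMod n) y - θ (y ((j.val + 1 + i : ℕ) : ZMod n))))

theorem an_co {n : ℕ} [NeZero n] {r : ℝ} {f : ℂ → ℂ} (hf : AnalyticOnNhd ℂ f (St r)) (i : ZMod n) :
    AnalyticOnNhd ℂ (fun y : ZMod n → ℂ => f (y i)) (Cf n r) := fun y hy =>
  (hf _ (hy i)).comp_of_eq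
    ((ContinuousLinearMap.proj (R := ℂ) (φ := fun _ : ZMod n => ℂ) i).analyticAt y) rfl

theorem an_F {n : ℕ} [NeZero n] {r : ℝ} {θ : ℂ → ℂ} (hθ : AnalyticOnNhd ℂ θ (St r)) (j : ZMod n) :
    AnalyticOnNhd ℂ (LnF θ n j) (Cf n r) := by
  refine AnalyticOnNhd.sub (Finset.analyticOnNhd_fun_sum _ fun i _ => ?_) analyticOnNhd_const
  exact analyticOnNhd_const.mul ((an_co hθ _).add analyticOnNhd_const)

theorem an_G {n : ℕ} [NeZero n] {r : ℝ} {θ h : ℂ → ℂ} (hθ : AnalyticOnNhd ℂ θ (St r))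
    (hh : AnalyticOnNhd ℂ h (St r)) (j : ZMod n) : AnalyticOnNhd ℂ (LnG θ h n j) (Cf n r) := by
  refine Finset.analyticOnNhd_fun_sum _ fun i _ => ?_
  refine analyticOnNhd_const.mul ((an_co hh _).mul fun y hy => ?_)
  exact Complex.analyticAt_cos.comp (((an_F hθ _).sub (an_co hθ _)) y hy)

theorem split {n : ℕ} [NeZero n] (x : ℂ) (k : ℕ) :
    x + (k : ℂ) / n = x + (((k : ZMod n).val : ℕ) : ℂ) / n + ((k / n : ℕ) : ℤ) := by
  have hn : (n : ℂ) ≠ 0 := by exact_mod_cast NeZero.ne n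
  have e : (k : ℂ) = ((k % n : ℕ) : ℂ) + n * ((k / n : ℕ) : ℂ) := by
    exact_mod_cast (Nat.mod_add_div k n).symm
  rw [ZMod.val_natCast, Int.cast_natCast]
  nth_rewrite 1 [e]
  field_simp
  ring

theorem st_sh {ρ : ℝ} {x : ℂ} (hx : x ∈ St ρ) (k n : ℕ) : x + (k : ℂ) / n ∈ St ρ :=
  st_add hx _ (by rw [← Complex.ofReal_natCast, ← Complex.ofReal_natCast, ← Complex.ofReal_div]; simp)

section

variable {r ρ c C : ℝ} {θ h g Q Y φ p : ℂ → ℂ} {n : ℕ} [NeZero n] (S : SD r θ h g Q c C)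
  (L : CL r ρ c θ h g n Y φ p)
include S L

theorem back (x : ℂ) (j i : ℕ) :
    x + ((j + 1 + i : ℕ) : ℂ) / n - 1 / n = x + ((j + i : ℕ) : ℂ) / n := by
  push_cast
  ring

theorem F_eq (j : ZMod n) {x : ℂ} (hx : x ∈ St ρ) :
    LnF θ n j (fun i => Y (x + i.val / n)) = φ (x + j.val / n) := by
  have hn : (n : ℂ) ≠ 0 := by exact_mod_cast NeZero.ne n
  have t := tele (fun i => φ (x + ((j.val + i : ℕ) : ℂ) / n)) n
  have e1 : φ (x + ((j.val + n : ℕ) : ℂ) / n) = φ (x + j.val / n) + 2 * Real.pi := by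
    rw [← L.perφ _ (st_sh hx _ _)]
    congr 1
    push_cast
    field_simp
    ring
  have e2 : ∀ i ∈ range n, (-1) ^ i * (φ (x + ((j.val + (i + 1) : ℕ) : ℂ) / n) +
      φ (x + ((j.val + i : ℕ) : ℂ) / n)) = 2 * ((-1) ^ i *
        (θ (Y (x + (((j.val + 1 + i : ℕ) : ZMod n).val : ℂ) / n)) +
          (((j.val + 1 + i) / n : ℕ) : ℂ) * (2 * Real.pi))) := by
    intro i _
    have a1 := L.th _ (st_sh hx (j.val + 1 + i) n)
    rw [back S L] at a1
    have a2 : j.val + (i + 1) = j.val + 1 + i := by ring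
    rw [a2, a1, split x (j.val + 1 + i),
      per_int (c := 1) L.perY _ _ (st_sh hx _ _), mul_one,
      per_int S.perθ _ _ (L.maps (st_sh hx _ _)), Int.cast_natCast]
    ring
  rw [sum_congr rfl e2, ← mul_sum, L.odd.neg_one_pow, e1] at t
  simp only [add_zero] at t
  simp only [LnF]
  linear_combination t / 2

theorem G_eq (j : ZMod n) {x : ℂ} (hx : x ∈ St ρ) :
    LnG θ h n j (fun i => Y (x + i.val / n)) = p (x + j.val / n) := by
  have hn : (n : ℂ) ≠ 0 := by exact_mod_cast NeZero.ne n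
  have t := tele (fun i => p (x + ((j.val + i : ℕ) : ℂ) / n)) n
  have pp : ∀ y ∈ St ρ, p (y + 1) = p y + 0 := fun y hy => by rw [L.perp y hy, add_zero]
  have e1 : p (x + ((j.val + n : ℕ) : ℂ) / n) = p (x + j.val / n) := by
    rw [← L.perp _ (st_sh hx j.val _)]
    congr 1
    push_cast
    field_simp
    ring
  have e2 : ∀ i ∈ range n, (-1) ^ i * (p (x + ((j.val + (i + 1) : ℕ) : ℂ) / n) +
      p (x + ((j.val + i : ℕ) : ℂ) / n)) = 2 * ((-1) ^ i *
        (h (Y (x + (((j.val + 1 + i : ℕ) : ZMod n).val : ℂ) / n)) *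
          Complex.cos (LnF θ n ((j.val + 1 + i : ℕ) : ZMod n) (fun i => Y (x + i.val / n)) -
            θ (Y (x + (((j.val + 1 + i : ℕ) : ZMod n).val : ℂ) / n))))) := by
    intro i _
    have a2 : j.val + (i + 1) = j.val + 1 + i := by ring
    have hz := st_sh hx ((j.val + 1 + i : ℕ) : ZMod n).val n
    have hz' : x + (((j.val + 1 + i : ℕ) : ZMod n).val : ℂ) / n - 1 / n ∈ St ρ := by
      have := st_sh (x := x + (((j.val + 1 + i : ℕ) : ZMod n).val : ℂ) / n - 1 / n) (ρ := ρ)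
      simpa [St] using hz
    have a3 := L.th _ hz
    have a4 := L.pc _ hz
    rw [a2, ← back S L x j.val i, F_eq S L _ hx]
    nth_rewrite 1 [split x (j.val + 1 + i)]
    nth_rewrite 1 [split x (j.val + 1 + i)]
    rw [add_sub_right_comm,
      per_int pp _ _ hz, per_int pp _ _ hz']
    have a5 : φ (x + (((j.val + 1 + i : ℕ) : ZMod n).val : ℂ) / n) -
        θ (Y (x + (((j.val + 1 + i : ℕ) : ZMod n).val : ℂ) / n)) =
        de n φ (x + (((j.val + 1 + i : ℕ) : ZMod n).val : ℂ) / n) := by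
      rw [de]
      linear_combination a3 / 2
    rw [a5]
    linear_combination (-1) ^ i * a4
  rw [sum_congr rfl e2, ← mul_sum, L.odd.neg_one_pow, e1] at t
  simp only [add_zero] at t
  simp only [LnG]
  linear_combination t / 2

end

theorem F_sh {r : ℝ} {θ : ℂ → ℂ} {n : ℕ} (hθ : ∀ y ∈ St r, θ (y + 1) = θ y + 2 * Real.pi)
    (j : ZMod n) {y : ZMod n → ℂ} (hy : y ∈ Cf n r) (m : ZMod n → ℤ) :
    ∃ k : ℤ, LnF θ n j (fun i => y i + m i) = LnF θ n j y + k * (2 * Real.pi) := by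
  refine ⟨∑ i ∈ range n, (-1) ^ i * m ((j.val + 1 + i : ℕ) : ZMod n), ?_⟩
  simp only [LnF, per_int hθ _ _ (hy _)]
  push_cast
  rw [sum_mul, sub_add_eq_add_sub, ← sum_add_distrib]
  congr 1
  exact sum_congr rfl fun i _ => by ring

theorem F_im {θ : ℂ → ℂ} {n : ℕ} (j : ZMod n) {y : ZMod n → ℂ} {lam : ℝ}
    (hy : ∀ i, |(θ (y i)).im| ≤ lam) : |(LnF θ n j y).im| ≤ n * lam := by
  simp only [LnF, Complex.sub_im, Complex.ofReal_im, sub_zero, Complex.im_sum]
  refine (abs_sum_le_sum_abs _ _).trans ((sum_le_card_nsmul _ _ lam fun i _ => ?_).trans ?_)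
  · rcases neg_one_pow_eq_or ℂ i with e | e <;> rw [e] <;> simpa using hy _
  · simp

end Alg2

open Alg2

theorem alg2 : Spec_ALG2 := by
  intro r ρ c C θ h g Q Y φ p n _ S L
  have hh : ∀ y ∈ St r, h (y + 1) = h y + 0 := fun y hy => by rw [S.perh y hy, add_zero]
  refine ⟨LnF θ n, LnG θ h n, fun j => ⟨an_F S.anθ j, an_G S.anθ S.anh j⟩,
    fun j x hx => ⟨F_eq S L j hx, G_eq S L j hx⟩, fun j y hy m => ⟨?_, ?_⟩,
    2 * n + 2, fun lam l1 y hy hb j => ⟨?_, ?_⟩⟩
  · obtain ⟨k, hk⟩ := F_sh S.perθ j hy m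
    exact ⟨k, hk, m j, per_int S.perθ _ _ (hy j), by simpa using per_int hh (m j) _ (hy j)⟩
  · refine sum_congr rfl fun i _ => ?_
    obtain ⟨k, hk⟩ := F_sh S.perθ ((j.val + 1 + i : ℕ) : ZMod n) hy m
    rw [hk, per_int S.perθ _ _ (hy _), per_int hh _ _ (hy _), mul_zero, add_zero,
      ← Complex.cos_add_int_mul_two_pi (_ - θ (y _)) (k - m ((j.val + 1 + i : ℕ) : ZMod n))]
    congr 3
    push_cast
    ring
  · have := F_im j fun i => (hb i).1
    have : (0 : ℝ) ≤ n := Nat.cast_nonneg n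
    nlinarith
  · have n0 : (0 : ℝ) ≤ n := Nat.cast_nonneg n
    refine (norm_sum_le _ _).trans ((sum_le_card_nsmul _ _
      (Real.exp lam * Real.exp ((n + 1) * lam)) fun i _ => ?_).trans ?_)
    · rw [norm_mul, norm_mul, norm_pow, norm_neg, norm_one, one_pow, one_mul]
      refine mul_le_mul (hb _).2 ((norm_cos _).trans (Real.exp_le_exp.2 ?_)) (norm_nonneg _)
        (Real.exp_pos _).le
      rw [Complex.sub_im]
      have a1 := F_im ((j.val + 1 + i : ℕ) : ZMod n) fun i => (hb i).1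
      have a2 := (hb ((j.val + 1 + i : ℕ) : ZMod n)).1
      exact (abs_sub _ _).trans (by linarith)
    · rw [card_range, nsmul_eq_mul]
      have a1 : (n : ℝ) ≤ Real.exp (n * lam) := by
        have := Real.add_one_le_exp (n * lam)
        nlinarith
      calc (n : ℝ) * (Real.exp lam * Real.exp ((n + 1) * lam))
          ≤ Real.exp (n * lam) * (Real.exp lam * Real.exp ((n + 1) * lam)) := by gcongr
        _ = _ := by rw [← Real.exp_add, ← Real.exp_add]; congr 1; ring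

end Vale.Agent.P097K
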