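import Vale.Agent.P097K.Spec

/-!
# P097K: assembly of the abstract core
-/

open Filter Topology Set Metric

open Vale.Agent.P097C

namespace Vale.Agent.P097K

theorem acore (hR : Spec_WR) (hF : Spec_WFIN) (hT : Spec_TAME)
    (hG : Spec_GD) (hX : Spec_TOP) : Spec_ACORE := by
  classical
  intro n _ r ρ c C₀ θ h g Q Y s l τ η hS₀ hN H
  have cv : Cv r ρ Y := ⟨hS₀.r0, H.ρ0, H.anY, H.maps, H.re0⟩
  have r0 := hS₀.r0
  have n0 : (0 : ℝ) < n := Nat.cast_pos.2 (NeZero.pos n)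
  obtain ⟨C, G, C1, hP, hO, hE⟩ := hN (1 / (10 * n)) (by positivity)
  have hS : SD r θ h g Q c C := { hS₀ with C1 := C1 }
  obtain ⟨K, l1, K1, hT⟩ := hT n r ρ c C θ h g Q Y s l τ η hS H (1 / 5) (n + n + 1) (by norm_num)
  obtain ⟨K', l2, K1', hG⟩ := hG n r ρ c C θ h g Q Y s l τ η hS H K K1
  obtain ⟨l3, hR⟩ := hR n r ρ c C θ h g Q Y hS cv K' (1 / 5) K1' (by norm_num)
  obtain ⟨l4, hF⟩ := hF n r ρ g Y G hO cv (1 / 5) (by norm_num)
  obtain ⟨lam, m1, m2, m3, m4, m5⟩ : ∃ lam : ℝ, l1 ≤ lam ∧ l2 ≤ lam ∧ l3 ≤ lam ∧ l4 ≤ lam ∧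
      Real.exp (-lam) < r ^ 2 :=
    ((eventually_ge_atTop l1).and ((eventually_ge_atTop l2).and ((eventually_ge_atTop l3).and
      ((eventually_ge_atTop l4).and (Real.tendsto_exp_neg_atTop_nhds_zero.eventually
        (gt_mem_nhds (by positivity))))))).exists
  obtain ⟨Λ₁, W₁, c1, a1, b1, z1, h1⟩ := hR lam m3
  obtain ⟨Λ₂, N, W₂, c2, a2, hN, b2, z2, h2⟩ := hF lam m4 K' K1'
  have hΛ : ∀ L ∈ insert N (Λ₁ ∪ Λ₂), lam ≤ L := fun L hL => by
    rcases Finset.mem_insert.1 hL with rfl | hL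
    exacts [hN, (Finset.mem_union.1 hL).elim (a1 L) (a2 L)]
  obtain ⟨W₃, b3, z3, h3⟩ := hT lam m1 N (insert N (Λ₁ ∪ Λ₂)) ((Finset.card_insert_le _ _).trans
    (Nat.add_le_add_right ((Finset.card_union_le _ _).trans (add_le_add c1 c2)) 1)) hΛ
  obtain ⟨⟨M, hM⟩, hX⟩ := hX n r ρ c C θ h g Q Y s l τ η hS H K lam N
  have η0 : η 0 0 ≠ 0 := fun e => by simpa [e] using (H.pos0 0).2.2.2
  set M' := max (max M 1) |Real.log ‖η 0 0‖| with hM'
  have M1 : 1 ≤ M' := le_max_of_le_left (le_max_right _ _)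
  obtain ⟨W₄, b4, z4, h4⟩ := jen n r ρ Y cv (η 0) ∅ 20 M' 30 (H.anη 0) η0 (by norm_num) M1
    (by norm_num)
  have z4' : W₄ 0 ≤ 1 / 5 := by
    have e1 : (M' + 1 + |Real.log ‖η 0 0‖|) / (30 * M') ≤ 1 / 10 := by
      rw [div_le_iff₀ (by positivity)]
      linarith [le_max_right (max M 1) |Real.log ‖η 0 0‖|]
    have e2 : Real.exp (-20) ≤ 1 / 20 := by
      rw [Real.exp_neg, ← one_div]
      exact one_div_le_one_div_of_le (by norm_num) (by linarith [Real.add_one_le_exp 20])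
    linarith
  obtain ⟨ρ', hρ', hX⟩ := hX (30 * M')
  obtain ⟨E, bE, zE, hE⟩ := hE N
  let W₅ : ℂ → ℝ := fun x => ∑ j, E (Y x j)
  have b5 : Bar (St ρ) W₅ := Bar.sum _ fun j _ => cv.bar bE j
  have z5 : W₅ 0 ≤ 1 / 10 := by
    have := Finset.sum_le_card_nsmul Finset.univ (fun j => E (Y 0 j)) (1 / (10 * n)) fun j _ => by
      have e : Y 0 j = ((Y 0 j).re : ℝ) := Complex.ext rfl (by simp [H.re0 j])
      rw [e]
      exact zE _
    rw [Finset.card_univ, ZMod.card, nsmul_eq_mul] at this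
    exact this.trans_eq (by field_simp)
  let W : ℂ → ℝ := fun x => W₁ x + W₂ x + W₃ x + W₄ x + W₅ x
  have bW : Bar (St ρ) W := (((b1.add b2).add b3).add b4).add b5
  let U : Set ℂ := {x | x ∈ St ρ ∧ W x < 1 ∧ ∀ j, Real.exp (-N) < dd r (Y x j)}
  have hU : IsOpen U := isOpen_iff_mem_nhds.2 fun x hx => by
    have n1 := (St_open ρ).mem_nhds hx.1
    filter_upwards [n1, (bW.1.continuousAt n1).eventually (gt_mem_nhds hx.2.1),
      eventually_all.2 fun j => (((cv.bar (dd_bar r) j).1.continuousAt n1).eventually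
        (lt_mem_nhds (hx.2.2 j)))] with z e1 e2 e3 using ⟨e1, e2, e3⟩
  have key : ∀ x ∈ U, UJ W x 0 ∧ |x.im| ≤ ρ' := fun x ⟨hx, hW, hd⟩ => by
    have p1 := b1.2 x hx
    have p2 := b2.2 x hx
    have p3 := b3.2 x hx
    have p4 := b4.2 x hx
    have p5 := b5.2 x hx
    simp only [W] at hW
    have gG : ∀ j, G (Y x j) := fun j => (hE _ (H.maps hx j)).2 (lt_of_le_of_lt
      (Finset.single_le_sum (f := fun j => E (Y x j)) (fun i _ => bE.2 _ (H.maps hx i))
        (Finset.mem_univ j)) (by show W₅ x < 1; linarith)) (hd j).le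
    have gP : ∀ j, PB r g Q C (Y x j) := fun j => hP _ (H.maps hx j) (gG j)
    have u5 : UJ W₅ x 0 := (UJ.sum Finset.univ fun j _ =>
      UJ.pull (F := fun x => Y x j) (H.anY j x hx) (hE _ (H.maps hx j)).1).mono (by simp)
    obtain ⟨u3, gd⟩ := h3 x hx (fun j => ⟨gP j, (hd j).le⟩) ((h1 x hx).1 (by linarith)) (by linarith)
    have dr := hG lam m2 _ hΛ x hx gP gd
    have lv : Lev r (Y x) Finset.univ N := fun j _ => (hd j).le
    have gN : Good r c g s l K lam {N} (Y x) :=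
      ⟨gd.1, fun L hL => gd.2 L (by simp [Finset.mem_singleton.1 hL])⟩
    refine ⟨?_, hX x hx lv gN ((h4 x hx).1 (by linarith) fun j hj => by simp at hj)⟩
    simpa using (((((h1 x hx).2 gP fun L hL => dr L (by simp [hL])).add
      ((h2 x hx).2 gG fun L hL => dr L (by simp [hL]))).add u3).add ((h4 x hx).2 fun _ =>
        (hM x hx lv gN).trans (Real.exp_le_exp.2 (le_max_of_le_left (le_max_left _ _))))).add u5
  have cl : closure U ⊆ St ρ := fun x hx => lt_of_le_of_lt (closure_minimal (fun z hz => (key z hz).2)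
    (isClosed_le (f := fun z : ℂ => |z.im|) (by fun_prop) continuous_const) hx) hρ'
  have w0 : W 0 < 1 := by simp only [W]; linarith
  refine absurd (minp' U W ρ' hU (fun z hz => (key z hz).2) (bW.mono cl) (fun z hz => (key z hz).1)
    (fun z hz => ?_) 0 ⟨St_zero H.ρ0, w0, fun j => ?_⟩) (not_le.2 w0)
  · have hz1 := cl hz.1
    by_contra hc
    refine hz.2 (by
      rw [hU.interior_eq]
      refine ⟨hz1, not_le.1 hc, fun j => not_le.1 fun hj => hc ?_⟩
      have := (h2 z hz1).1 ⟨j, hj⟩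
      simp only [W]
      linarith [b1.2 z hz1, b3.2 z hz1, b4.2 z hz1, b5.2 z hz1])
  · rw [dd_real (H.re0 j)]
    exact (Real.exp_le_exp.2 (by linarith)).trans_lt m5

end Vale.Agent.P097K
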