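import Vale.Agent.P097K.Spec

/-!
# P097K (copy of P097C): the differentiated identities of the leaf
-/

set_option linter.all false

open Filter Topology Set Metric

open Vale.Agent.P097C

namespace Vale.Agent.P097K

def Spec_ALG1 : Prop := ∀ (r ρ c C : ℝ) (θ h g Q Y φ p : ℂ → ℂ) (n : ℕ),
  SD r θ h g Q c C → CL r ρ c θ h g n Y φ p → CX ρ c h g n Y φ p

/-- lines as functions of the configuration (`n` odd): `F j = φ_j`, `G j = p_j` -/
def Spec_ALG2 : Prop := ∀ (r ρ c C : ℝ) (θ h g Q Y φ p : ℂ → ℂ) (n : ℕ) [NeZero n],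
  SD r θ h g Q c C → CL r ρ c θ h g n Y φ p →
  ∃ F G : ZMod n → (ZMod n → ℂ) → ℂ,
    (∀ j, AnalyticOnNhd ℂ (F j) (Cf n r) ∧ AnalyticOnNhd ℂ (G j) (Cf n r)) ∧
    (∀ j, ∀ x ∈ St ρ, F j (fun i => Y (x + i.val / n)) = φ (x + j.val / n) ∧
      G j (fun i => Y (x + i.val / n)) = p (x + j.val / n)) ∧
    (∀ j, ∀ y ∈ Cf n r, ∀ m : ZMod n → ℤ,
      (∃ k : ℤ, F j (fun i => y i + m i) = F j y + k * (2 * Real.pi) ∧
        ∃ k' : ℤ, θ (y j + m j) = θ (y j) + k' * (2 * Real.pi) ∧ h (y j + m j) = h (y j)) ∧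
      G j (fun i => y i + m i) = G j y) ∧
    ∃ B : ℝ, ∀ lam : ℝ, 1 ≤ lam → ∀ y ∈ Cf n r,
      (∀ i, |(θ (y i)).im| ≤ lam ∧ ‖h (y i)‖ ≤ Real.exp lam) →
      ∀ j, |(F j y).im| ≤ B * lam ∧ ‖G j y‖ ≤ Real.exp (B * lam)


theorem alg1_uniq {ρ : ℝ} {f g : ℂ → ℂ} {f' g' x : ℂ} (hx : x ∈ St ρ) (e : ∀ y ∈ St ρ, f y = g y)
    (hf : HasDerivAt f f' x) (hg : HasDerivAt g g' x) : f' = g' := by
  have op : IsOpen (St ρ) := isOpen_lt (by fun_prop) continuous_const
  exact hf.unique (hg.congr_of_eventuallyEq (eventually_of_mem (op.mem_nhds hx) e))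

theorem alg1 : Spec_ALG1 := by
  intro r ρ c C θ h g Q Y φ p n hS hL
  have im0 : ((1 : ℂ) / n).im = 0 := by
    rw [show ((1 : ℂ) / n) = ((1 / n : ℝ) : ℂ) by push_cast; rfl, Complex.ofReal_im]
  have sm : ∀ x ∈ St ρ, x - 1 / n ∈ St ρ := fun x hx => by
    simpa only [St, mem_setOf_eq, Complex.sub_im, im0, sub_zero] using hx
  have sp : ∀ x ∈ St ρ, x + 1 / n ∈ St ρ := fun x hx => by
    simpa only [St, mem_setOf_eq, Complex.add_im, im0, add_zero] using hx
  have key : ∀ x ∈ St ρ, deriv φ x + deriv φ (x - 1 / n) = 2 * g (Y x) * deriv Y x ∧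
      g (Y x) ^ 2 * eA h n Y φ p x = c * sA n φ x ^ 2 * deriv Y x ∧
      Am h n Y φ p x * deriv φ (x - 1 / n) = sA n φ x * deriv p (x - 1 / n) + eA h n Y φ p x := by
    intro x hx
    have hy := hL.maps hx
    have dY := (hL.anY x hx).differentiableAt.hasDerivAt
    have dφ := (hL.anφ x hx).differentiableAt.hasDerivAt
    have dp := (hL.anp x hx).differentiableAt.hasDerivAt
    have dφ' := (hL.anφ _ (sm x hx)).differentiableAt.hasDerivAt.comp_sub_const x (1 / (n : ℂ))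
    have dp' := (hL.anp _ (sm x hx)).differentiableAt.hasDerivAt.comp_sub_const x (1 / (n : ℂ))
    have dθ := (hS.anθ _ hy).differentiableAt.hasDerivAt.comp x dY
    have dh := (hS.anh _ hy).differentiableAt.hasDerivAt.comp x dY
    have dg := (hS.ang _ hy).differentiableAt.hasDerivAt.comp x dY
    have dh' := (hS.anh.deriv _ hy).differentiableAt.hasDerivAt.comp x dY
    have dδ : HasDerivAt (de n φ) ((deriv φ x - deriv φ (x - 1 / n)) / 2) x :=
      (dφ.sub dφ').div_const 2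
    have e1 := alg1_uniq hx hL.th (dφ.add dφ') (dθ.const_mul 2)
    have e2 := alg1_uniq hx hL.pc (dp.add dp') ((dh.const_mul 2).mul dδ.ccos)
    have e3 := alg1_uniq hx hL.ps ((dp.sub dp').mul dg) ((dh'.const_mul 2).mul dδ.csin)
    have e4 := hS.wr _ hy
    have e5 := hL.ps x hx
    rw [hS.dθ _ hy] at e1
    simp only [Function.comp, Pi.sub_apply] at e2 e3
    simp only [eA, Ap, Am, sA]
    generalize Complex.sin (de n φ x) = s at *
    generalize Complex.cos (de n φ x) = k at *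
    refine ⟨by linear_combination e1, ?_, ?_⟩
    · linear_combination g (Y x) ^ 2 * s / 2 * e2 + g (Y x) * s / 2 * e3 + s ^ 2 * deriv Y x * e4 -
        (s * deriv g (Y x) * deriv Y x / 2 + g (Y x) * k * deriv φ x / 2) * e5 +
        (g (Y x) ^ 2 * h (Y x) * s ^ 2 / 2 - g (Y x) * s * deriv h (Y x) * k / 2) * e1
    · linear_combination -s * e2 + k * (p x - p (x - 1 / n)) / 2 * e1 + k * deriv Y x * e5
  refine ⟨fun x hx => ?_, fun x hx => (key x hx).1, fun x hx => (key x hx).2.1⟩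
  have e := (key _ (sp x hx)).2.2
  rw [add_sub_cancel_right] at e
  rw [lA, eA]
  linear_combination sA n φ x * e

end Vale.Agent.P097K
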