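import Vale.Agent.P097K.Spec
import Vale.Agent.P097C.Anc

/-!
# P097K: the anchor barrier with pointwise bounds (an edit of `P097C/Anc.lean`)
-/

open Filter Topology Set Metric ComplexConjugate
open Vale.Agent.P097C

namespace Vale.Agent.P097K

namespace AncK

open Vale.Agent.P097C.Anc hiding dd_pos dd_cont

variable {r M C C₀ u : ℝ} {y : ℂ} {θ h g Q N : ℂ → ℂ} {c C' : ℝ}

lemma TT_pos (H : SD r θ h g Q c C) (hy : y ∈ St r) : 0 < TT r 1 g y := by
  rw [TT_eq]
  have hd := dd_pos hy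
  by_cases h0 : g y = 0
  · have h1 : deriv g y ≠ 0 := fun h1 => by
      have := H.wr y hy
      simp only [h0, h1, mul_zero, sub_zero, zero_pow three_ne_zero, add_zero] at this
      exact H.c0.ne (by exact_mod_cast this)
    positivity
  · positivity

lemma TT_cont (H : SD r θ h g Q c C) : ContinuousOn (TT r 1 g) (St r) :=
  (H.ang.continuousOn.norm.pow 2).add ((continuousOn_const.mul ((dd_cont r).continuousOn.pow 2)).mul
    (H.ang.deriv.continuousOn.norm.pow 2))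

lemma uj1 {K : ℝ} (H : SD r θ h g Q c C₀) (b1 : ‖Q y‖ * dd r y ^ 2 ≤ C)
    (hN : AnalyticOnNhd ℂ N (St r)) (hy : y ∈ St r)
    (hM : u ^ 6 ≤ M) (he : ‖deriv N y * g y - N y * deriv g y‖ ≤ u)
    (hT : √(dd r y) ≤ u ^ 2 * TT r 1 g y) (h5 : TT r 1 g y / 5 < ‖g y‖ ^ 2) (hK : 25 * r ≤ K)
    (h4 : 80 * r ^ 2 + 4 * (C + 4) ^ 2 + 40 * (C + 4) * r + 4 * K ≤ C' * r ^ 2) :
    UJ (A1 r u M C' N g) y 0 := by
  have T0 := TT_pos H hy
  have g0 : g y ≠ 0 := fun e => by
    rw [e, norm_zero] at h5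
    linarith
  have gp := norm_pos_iff.2 g0
  have hd := Real.sq_sqrt (dd_pos hy).le
  have hs := Real.sqrt_pos.2 (dd_pos hy)
  have hr := sqrt_le H.r0 y
  have hF : ‖deriv g y / g y‖ * √(dd r y) ^ 2 ≤ 2 := by
    rw [hd, norm_div, div_mul_eq_mul_div, div_le_iff₀ gp]
    refine (sq_le_sq₀ (by have := dd_pos hy; positivity) (by positivity)).1 ?_
    rw [TT_eq] at h5
    linarith
  refine (core (K := K) (C₁ := C + 4) (C' := C') (M := M) hy ((hN y hy).div (H.ang y hy) g0)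
    ((H.ang y hy).deriv.div (H.ang y hy) g0) (le_trans (by positivity) hM) hF ?_ ?_ h4).congr ?_
  · have e : deriv (deriv g / g) y = Q y - (deriv g y / g y) ^ 2 := by
      rw [deriv_div (H.ang y hy).deriv.differentiableAt (H.ang y hy).differentiableAt g0,
        H.ode y hy]
      field_simp
    have b2 := norm_sub_le (Q y) ((deriv g y / g y) ^ 2)
    rw [e, show (4 : ℕ) = 2 * 2 from rfl, pow_mul, hd]
    rw [hd] at hF
    rw [norm_pow] at b2
    nlinarith [pow_le_pow_left₀ (by have := dd_pos hy; positivity) hF 2,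
      mul_le_mul_of_nonneg_right b2 (sq_nonneg (dd r y))]
  · rw [deriv_div (hN y hy).differentiableAt (H.ang y hy).differentiableAt g0, norm_div, norm_pow,
      div_pow, div_mul_eq_mul_div, div_le_iff₀ (by positivity)]
    generalize √(dd r y) = s at *
    have b1 : s ≤ 5 * u ^ 2 * ‖g y‖ ^ 2 := by nlinarith [sq_nonneg u]
    have hu := (norm_nonneg _).trans he
    calc _ ≤ u ^ 2 * s ^ 3 := by gcongr
      _ = u ^ 2 * s * s ^ 2 := by ring
      _ ≤ u ^ 2 * r * (5 * u ^ 2 * ‖g y‖ ^ 2) ^ 2 := by have := H.r0; gcongr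
      _ = u ^ 6 * (25 * r) * (‖g y‖ ^ 2) ^ 2 := by ring
      _ ≤ _ := by gcongr <;> linarith [pow_nonneg hu 6]
  · have hS := (isOpen_St r).mem_nhds hy
    filter_upwards [hS, (((TT_cont H).continuousAt hS).div_const 5).eventually_lt
      ((H.ang y hy).continuousAt.norm.pow 2) h5] with x hx h6
    rw [A1, ch_eq (a := ‖g x‖ ^ 2) (TT_pos H hx) h6.le, q1 hx]
    rfl

lemma uj2 {K : ℝ} {e : ℂ} (H : SD r θ h g Q c C₀) (b1 : ‖Q y‖ * dd r y ^ 2 ≤ C)
    (hN : AnalyticOnNhd ℂ N (St r)) (hy : y ∈ St r)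
    (hu : 1 ≤ u) (hM : u ^ 6 ≤ M) (he : ‖deriv N y * g y - N y * deriv g y‖ ≤ u)
    (h2 : deriv (deriv N) y = Q y * N y + e) (he' : ‖e‖ ≤ u)
    (hT : √(dd r y) ≤ u ^ 2 * TT r 1 g y) (h5 : TT r 1 g y / 5 < (dd r y * ‖deriv g y‖) ^ 2)
    (hK : 10 * r ^ 6 + 50 * C ^ 2 * r ≤ K)
    (h4 : 80 * r ^ 2 + 4 * (C + 4) ^ 2 + 40 * (C + 4) * r + 4 * K ≤ C' * r ^ 2) :
    UJ (A2 r u M C' N g) y 0 := by
  have T0 := TT_pos H hy
  have g0 : deriv g y ≠ 0 := fun e => by
    rw [e, norm_zero] at h5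
    linarith
  have gp := norm_pos_iff.2 g0
  have hd := Real.sq_sqrt (dd_pos hy).le
  have hs := Real.sqrt_pos.2 (dd_pos hy)
  have hr := sqrt_le H.r0 y
  have C0 : 0 ≤ C := le_trans (by positivity) b1
  refine (core (F := fun _ => 0) (K := K) (C₁ := C + 4) (C' := C' + 1) (M := M) hy
    ((hN y hy).deriv.div (H.ang y hy).deriv g0) analyticAt_const (le_trans (by positivity) hM)
    (by simp) (by simp; linarith) ?_ (by linarith [sq_nonneg r])).congr ?_
  · have e1 : deriv (deriv N / deriv g) y =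
        e / deriv g y - Q y * (deriv N y * g y - N y * deriv g y) / deriv g y ^ 2 := by
      rw [deriv_div (hN y hy).deriv.differentiableAt (H.ang y hy).deriv.differentiableAt g0,
        H.ode y hy, h2]
      field_simp
      ring
    rw [e1]
    rw [← hd] at b1 h5
    generalize √(dd r y) = s at *
    obtain ⟨v, hv⟩ : ∃ v, v = (s ^ 2 * ‖deriv g y‖)⁻¹ := ⟨_, rfl⟩
    have v0 : 0 < v := by rw [hv]; positivity
    have b2 : v ^ 2 * s ≤ 5 * u ^ 2 := by
      rw [hv, inv_pow, inv_mul_le_iff₀ (by positivity)]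
      nlinarith [sq_nonneg u]
    have b3 : ‖e / deriv g y - Q y * (deriv N y * g y - N y * deriv g y) / deriv g y ^ 2‖ ≤
        u * (s ^ 2 * v + C * v ^ 2) := by
      refine (norm_sub_le _ _).trans ?_
      rw [norm_div, norm_div, norm_mul, norm_pow]
      calc _ = ‖e‖ * (s ^ 2 * v) + ‖deriv N y * g y - N y * deriv g y‖ *
            (‖Q y‖ * (s ^ 2) ^ 2 * v ^ 2) := by
            rw [hv]
            field_simp
        _ ≤ u * (s ^ 2 * v) + u * (C * v ^ 2) := by gcongr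
        _ = _ := by ring
    have r0 := H.r0
    calc _ ≤ (u * (s ^ 2 * v + C * v ^ 2)) ^ 2 * s ^ 3 := by gcongr
      _ ≤ u ^ 2 * (2 * (s ^ 2 * v) ^ 2 + 2 * (C * v ^ 2) ^ 2) * s ^ 3 := by
        rw [mul_pow]
        gcongr
        nlinarith [sq_nonneg (s ^ 2 * v - C * v ^ 2)]
      _ = u ^ 2 * (2 * s ^ 6 * (v ^ 2 * s) * 1 + 2 * C ^ 2 * s * (v ^ 2 * s) ^ 2) := by ring
      _ ≤ u ^ 2 * (2 * r ^ 6 * (5 * u ^ 2) * u ^ 2 + 2 * C ^ 2 * r * (5 * u ^ 2) ^ 2) := by
        gcongr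
        exact one_le_pow₀ hu
      _ = u ^ 6 * (10 * r ^ 6 + 50 * C ^ 2 * r) := by ring
      _ ≤ _ := by gcongr; exact le_trans (by positivity) hM
  · have hS := (isOpen_St r).mem_nhds hy
    filter_upwards [hS, (((TT_cont H).continuousAt hS).div_const 5).eventually_lt
      (((dd_cont r).continuousAt.mul (H.ang y hy).deriv.continuousAt.norm).pow 2) h5] with x hx h6
    rw [A2, ch_eq (a := (dd r x * ‖deriv g x‖) ^ 2) (TT_pos H hx) h6.le, q2 hx]
    simp

section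

variable (H : SD r θ h g Q c C) (hy : y ∈ St r) (hu : 1 + 3 * r ≤ u)
  (hM : M = 2 * (20 + 100 * r) * u ^ 7) (he : ‖deriv N y * g y - N y * deriv g y‖ ≤ u)
  (hT : √(dd r y) ≤ u ^ 2 * TT r 1 g y) (hC : 0 ≤ C')

include H hy hu hM he hT hC

lemma pt1 (hc : A1 r u M C' N g y ≤ A2 r u M C' N g y) (hlt : A1 r u M C' N g y < u ^ 8) :
    TT r 1 g y / 5 < ‖g y‖ ^ 2 ∧
      ‖N y * conj (g y) + (dd r y : ℂ) ^ 2 * deriv N y * conj (deriv g y)‖ ≤ u ^ 5 * TT r 1 g y := by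
  have T0 := TT_pos H hy
  have d0 := dd_pos hy
  have hd := Real.sq_sqrt d0.le
  have hs := Real.sqrt_pos.2 d0
  have hr := sqrt_le H.r0 y
  have r0 := H.r0
  have u1 : 1 ≤ u := by linarith
  have M0 : 0 < M := by rw [hM]; positivity
  have Ms : 0 < M * √(dd r y) := by positivity
  have hTe := TT_eq r g y
  have hM' : (20 + 100 * r) * u ^ 7 * √(dd r y) = M * √(dd r y) / 2 := by rw [hM]; ring
  have MC : 0 ≤ M * C' * √(dd r y) := by positivity
  rw [A1] at hlt
  obtain ⟨a1, a2⟩ := ch_lt T0 (by positivity) (by positivity)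
    ((le_add_of_nonneg_right MC).trans_lt hlt)
  rw [q1 hy] at a2
  have g0 : g y ≠ 0 := fun e => by
    rw [e, norm_zero] at a1
    linarith
  have gp := norm_pos_iff.2 g0
  have hz : ‖N y / g y‖ ^ 2 ≤ u ^ 8 := by
    linarith [show 0 ≤ M * (√(dd r y) ^ 5 * ‖deriv g y / g y‖ ^ 2) by positivity]
  refine ⟨not_le.1 fun h5 => ?_, ?_⟩
  · rw [A1, A2, ch_eq (a := (dd r y * ‖deriv g y‖) ^ 2) T0 (by linarith), q2 hy] at hc
    have b1 := sqd u1 hs hr hz (dif hs T0 hT he a1 (by rw [hd]; linarith))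
    have b2 : 4 * √(dd r y) ≤ √(dd r y) ^ 5 * ‖deriv g y / g y‖ ^ 2 := by
      rw [norm_div, div_pow, ← mul_div_assoc, le_div_iff₀ (by positivity)]
      rw [← hd] at hTe
      linarith [mul_le_mul_of_nonneg_left h5 hs.le, congrArg (√(dd r y) * ·) hTe]
    linarith [mul_le_mul_of_nonneg_left b2 M0.le]
  · refine le_of_eq_of_le (congrArg norm ?_) (Ibd (q := (dd r y : ℂ) ^ 2 * conj (deriv g y) / g y)
      hu hs hr hT T0 hz he ?_)
    · rw [TT_coe]
      field_simp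
      ring
    · have : dd r y * ‖deriv g y‖ ≤ 3 * ‖g y‖ :=
        (sq_le_sq₀ (by positivity) (by positivity)).1 (by linarith)
      rw [norm_div, norm_mul, norm_pow, Complex.norm_conj, Complex.norm_of_nonneg d0.le, hd,
        div_le_iff₀ gp]
      linarith [mul_le_mul_of_nonneg_left this d0.le]

lemma pt2 (hc : A2 r u M C' N g y ≤ A1 r u M C' N g y) (hlt : A2 r u M C' N g y < u ^ 8) :
    TT r 1 g y / 5 < (dd r y * ‖deriv g y‖) ^ 2 ∧
      ‖N y * conj (g y) + (dd r y : ℂ) ^ 2 * deriv N y * conj (deriv g y)‖ ≤ u ^ 5 * TT r 1 g y := by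
  have T0 := TT_pos H hy
  have d0 := dd_pos hy
  have hd := Real.sq_sqrt d0.le
  have hs := Real.sqrt_pos.2 d0
  have hr := sqrt_le H.r0 y
  have r0 := H.r0
  have u1 : 1 ≤ u := by linarith
  have M0 : 0 < M := by rw [hM]; positivity
  have Ms : 0 < M * √(dd r y) := by positivity
  have hTe := TT_eq r g y
  have hM' : (20 + 100 * r) * u ^ 7 * √(dd r y) = M * √(dd r y) / 2 := by rw [hM]; ring
  have MC : 0 ≤ M * (C' + 1) * √(dd r y) := by positivity
  rw [A2] at hlt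
  obtain ⟨a1, a2⟩ := ch_lt T0 (by positivity) (by positivity)
    ((le_add_of_nonneg_right MC).trans_lt hlt)
  rw [q2 hy] at a2
  have g0 : deriv g y ≠ 0 := fun e => by
    rw [e, norm_zero] at a1
    linarith
  have gp := norm_pos_iff.2 g0
  have hz : ‖deriv N y / deriv g y‖ ^ 2 ≤ u ^ 8 := by linarith
  refine ⟨not_le.1 fun h5 => ?_, ?_⟩
  · rw [A1, A2, ch_eq (a := ‖g y‖ ^ 2) T0 (by linarith), q1 hy] at hc
    have b1 := sqd u1 hs hr hz ((norm_sub_rev _ _).trans_le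
      (dif hs T0 hT he (by linarith) (by rw [hd]; linarith)))
    have b2 : √(dd r y) ^ 5 * ‖deriv g y / g y‖ ^ 2 ≤ √(dd r y) / 4 := by
      rw [norm_div, div_pow, ← mul_div_assoc]
      refine div_le_of_le_mul₀ (by positivity) (by positivity) ?_
      rw [← hd] at hTe h5
      linarith [mul_le_mul_of_nonneg_left h5 hs.le, congrArg (√(dd r y) * ·) hTe]
    linarith [mul_le_mul_of_nonneg_left b2 M0.le]
  · refine le_of_eq_of_le (congrArg norm ?_) (Ibd (q := -conj (g y) / deriv g y)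
      hu hs hr hT T0 hz he ?_)
    · rw [TT_coe]
      field_simp
      ring
    · have : ‖g y‖ ≤ 3 * (dd r y * ‖deriv g y‖) :=
        (sq_le_sq₀ (by positivity) (by positivity)).1 (by linarith)
      rw [norm_div, norm_neg, Complex.norm_conj, hd, div_le_iff₀ gp]
      linarith

end

lemma bnd (H : SD r θ h g Q c C) (hy : y ∈ St r) (hM : 0 ≤ M) (hC : 0 ≤ C') :
    min (A1 r u M C' N g y) (A2 r u M C' N g y) ≤
      5 * (‖N y‖ ^ 2 + (dd r y * ‖deriv N y‖) ^ 2) / TT r 1 g y + M * (C' + 1) * r := by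
  have T0 := TT_pos H hy
  have hTe := TT_eq r g y
  have b0 : M * (C' + 1) * √(dd r y) ≤ M * (C' + 1) * r := by
    gcongr
    exact sqrt_le H.r0 y
  have b1 : ∀ p a : ℝ, 0 ≤ p → p ≤ ‖N y‖ ^ 2 + (dd r y * ‖deriv N y‖) ^ 2 → TT r 1 g y / 5 ≤ a →
      p / a ≤ 5 * (‖N y‖ ^ 2 + (dd r y * ‖deriv N y‖) ^ 2) / TT r 1 g y := fun p a h0 h1 h2 => by
    rw [mul_comm, ← div_div_eq_mul_div]
    gcongr
  rcases le_total ((dd r y * ‖deriv g y‖) ^ 2) (‖g y‖ ^ 2) with hc | hc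
  · refine (min_le_left _ _).trans ?_
    have h5 : TT r 1 g y / 5 ≤ ‖g y‖ ^ 2 := by linarith
    have : M * √(dd r y) * (dd r y * ‖deriv g y‖) ^ 2 / ‖g y‖ ^ 2 ≤ M * √(dd r y) :=
      div_le_of_le_mul₀ (by positivity) (by positivity) (by gcongr)
    rw [A1, ch_eq T0 h5, add_div]
    linarith [b1 _ _ (sq_nonneg _) (le_add_of_nonneg_right (sq_nonneg _)) h5]
  · refine (min_le_right _ _).trans ?_
    have h5 : TT r 1 g y / 5 ≤ (dd r y * ‖deriv g y‖) ^ 2 := by linarith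
    rw [A2, ch_eq T0 h5]
    linarith [b1 _ _ (sq_nonneg _) (le_add_of_nonneg_left (sq_nonneg _)) h5]

/-- the fourth root of the depth pays for a slowly growing multiple of the square root -/
lemma ext {W : ℂ → ℝ} {B : ℝ} (hy : y ∈ St r) (hM : 0 ≤ M) (hB : 0 ≤ B)
    (h1 : 2 * C' * √√(dd r y) ≤ B) (j : UJ W y 0) :
    UJ (fun x => W x + M * (B * √√(dd r x) - C' * √(dd r x))) y 0 := by
  obtain ⟨b, j1, -⟩ := sq_jet hy
  have hs := Real.sqrt_pos.2 (dd_pos hy)
  have ht := Real.sqrt_pos.2 hs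
  have h2 : E1 Real.sqrt √(dd r y) (1 / (2 * √√(dd r y))) (-(1 / (4 * √√(dd r y) ^ 3))) :=
    E1.of_deriv (β' := fun t => 1 / (2 * √t))
      ((eventually_ne_nhds hs.ne').mono fun _ ht => Real.hasDerivAt_sqrt ht)
      (((hasDerivAt_const _ 1).div ((Real.hasDerivAt_sqrt hs.ne').const_mul 2)
        (by positivity)).congr_deriv (by field_simp; ring))
  refine (j.add ((((j1.comp h2).smul B).sub (j1.smul C')).uj.smul hM)).mono ?_
  rw [zero_add]
  refine mul_nonpos_of_nonneg_of_nonpos hM ?_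
  have a1 : C' ≤ B * (1 / (2 * √√(dd r y))) := by
    rw [mul_one_div, le_div_iff₀ (by positivity)]
    linarith
  have a2 : 0 ≤ r ^ 2 / √(dd r y) ^ 3 := by positivity
  have a3 : 0 ≤ B * (1 / (4 * √√(dd r y) ^ 3) * ‖b‖ ^ 2) := by positivity
  nlinarith [mul_le_mul_of_nonneg_right a1 a2]

lemma lv_le (r0 : 0 < r) (hy : y ∈ St r) :
    lv r y * dd r y ^ 2 ≤ r ^ 4 + (1 + r ^ 4) * r ^ 2 := by
  have d0 := dd_pos hy
  have d1 : dd r y ≤ r ^ 2 := sub_le_self _ (sq_nonneg _)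
  have d2 : dd r y ^ 2 ≤ r ^ 4 := by nlinarith
  have a : |Real.log (dd r y)| * dd r y ≤ 1 + r ^ 4 := by
    rcases le_total (dd r y) 1 with h | h
    · have := Real.abs_log_mul_self_lt _ d0 h
      rw [abs_mul, abs_of_pos d0] at this
      nlinarith [pow_pos r0 4]
    · rw [abs_of_nonneg (Real.log_nonneg h)]
      nlinarith [Real.log_le_sub_one_of_pos d0]
  have := mul_le_mul a d1 d0.le (by positivity)
  unfold lv
  nlinarith

lemma cst (r0 : 0 < r) (C0 : 0 ≤ C₀) : ∃ B, 0 ≤ B ∧ ∀ y ∈ St r, ∀ D : ℝ, 0 ≤ D →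
    D ^ 16 ≤ C₀ * lv r y → ∃ C' K, 25 * r ≤ K ∧ 10 * r ^ 6 + 50 * D ^ 2 * r ≤ K ∧
      80 * r ^ 2 + 4 * (D + 4) ^ 2 + 40 * (D + 4) * r + 4 * K ≤ C' * r ^ 2 ∧
      2 * C' * √√(dd r y) ≤ B := by
  obtain ⟨a, ha⟩ : ∃ a, a = (80 * r ^ 2 + 128 + 300 * r + 40 * r ^ 6) / r ^ 2 := ⟨_, rfl⟩
  obtain ⟨b, hb⟩ : ∃ b, b = (8 + 240 * r) / r ^ 2 := ⟨_, rfl⟩
  have a0 : 0 ≤ a := by rw [ha]; positivity
  have b0 : 0 ≤ b := by rw [hb]; positivity
  refine ⟨2 * (a * √r + b * (1 + C₀ * (r ^ 4 + (1 + r ^ 4) * r ^ 2))), by positivity,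
    fun y hy D D0 hD => ⟨a + b * D ^ 2, 25 * r + (10 * r ^ 6 + 50 * D ^ 2 * r),
      le_add_of_nonneg_right (by positivity), le_add_of_nonneg_left (by positivity), ?_, ?_⟩⟩
  · have e : (a + b * D ^ 2) * r ^ 2 =
        80 * r ^ 2 + 128 + 300 * r + 40 * r ^ 6 + (8 + 240 * r) * D ^ 2 := by
      rw [ha, hb]
      field_simp
    rw [e]
    nlinarith [sq_nonneg (D - 4), mul_nonneg r0.le (sq_nonneg (D - 1)), mul_nonneg r0.le D0]
  · have d0 := dd_pos hy
    have t1 : √√(dd r y) ≤ √r := Real.sqrt_le_sqrt (sqrt_le r0 y)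
    have t0 := Real.sqrt_nonneg √(dd r y)
    have t4 : √√(dd r y) ^ 8 = dd r y ^ 2 := by
      rw [show (8 : ℕ) = 2 * (2 * 2) from rfl, pow_mul, Real.sq_sqrt (Real.sqrt_nonneg _), pow_mul,
        Real.sq_sqrt d0.le]
    have t5 : (D ^ 2 * √√(dd r y)) ^ 8 ≤ C₀ * (r ^ 4 + (1 + r ^ 4) * r ^ 2) := by
      rw [mul_pow, t4, ← pow_mul]
      exact (mul_le_mul_of_nonneg_right hD (sq_nonneg _)).trans
        (by rw [mul_assoc]; exact mul_le_mul_of_nonneg_left (lv_le r0 hy) C0)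
    have t6 : D ^ 2 * √√(dd r y) ≤ 1 + C₀ * (r ^ 4 + (1 + r ^ 4) * r ^ 2) := by
      rcases le_total (D ^ 2 * √√(dd r y)) 1 with h | h
      · exact h.trans (le_add_of_nonneg_right (by positivity))
      · linarith [le_self_pow₀ h (by norm_num : 8 ≠ 0)]
    nlinarith [mul_le_mul_of_nonneg_left t1 a0, mul_le_mul_of_nonneg_left t6 b0]

theorem main : Spec_ANC := by
  intro r c C θ h g Q H N E E₁ hN hE hE₁ F ε hε
  have r0 := H.r0
  obtain ⟨B, B0, hB⟩ := cst (C₀ := C) r0 (zero_le_one.trans H.C1)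
  let L : ℝ → ℝ := fun t => 5 * (‖N t‖ ^ 2 + (dd r t * ‖deriv N t‖) ^ 2) / TT r 1 g t +
    2 * (20 + 100 * r) * (r + B * √r)
  have hR : ∀ t : ℝ, (t : ℂ) ∈ St r := fun t => by simpa [St] using r0
  have L0 : ∀ t, 0 ≤ L t / ε := fun t => by
    have := TT_pos H (hR t)
    positivity
  refine ⟨3 * r + ∑ t ∈ F, L t / ε, fun lam hl => ?_⟩
  have hs := Finset.sum_nonneg fun t (_ : t ∈ F) => L0 t
  have h1 := Real.add_one_le_exp lam
  have e2 : Real.exp (-2 * lam) = (Real.exp lam ^ 2)⁻¹ := by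
    rw [← Real.exp_nat_mul, ← Real.exp_neg]
    norm_num
  have e5 : Real.exp (5 * lam) = Real.exp lam ^ 5 := by
    rw [← Real.exp_nat_mul]
    norm_num
  rw [e2, e5]
  generalize Real.exp lam = u at *
  have hu : 1 + 3 * r ≤ u := by linarith
  have u1 : 1 ≤ u := by linarith
  obtain ⟨M, hM⟩ : ∃ M, M = 2 * (20 + 100 * r) * u ^ 7 := ⟨_, rfl⟩
  have M0 : 0 ≤ M := by rw [hM]; positivity
  have cd := (dd_cont r).continuousOn (s := St r)
  have cg := (cd.mul H.ang.deriv.continuousOn.norm).pow 2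
  refine ⟨fun y => (u ^ 8)⁻¹ * (min (A1 r u M 0 N g y) (A2 r u M 0 N g y) + M * (B * √√(dd r y))),
    ⟨continuousOn_const.mul (ContinuousOn.add (fun y hy => Tendsto.min ?_ ?_)
      (continuousOn_const.mul (continuousOn_const.mul cd.sqrt.sqrt))), fun y hy => ?_⟩,
    fun t ht => ?_, fun y hy hP he hT hW => ?_⟩
  · exact (ch_cont ((hN.continuousOn.norm.pow 2).add ((continuousOn_const.mul cd.sqrt).mul cg))
      (H.ang.continuousOn.norm.pow 2) (TT_cont H) fun _ => TT_pos H).add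
      (continuousOn_const.mul cd.sqrt) y hy
  · exact (ch_cont ((cd.mul hN.deriv.continuousOn.norm).pow 2) cg (TT_cont H) fun _ => TT_pos H).add
      (continuousOn_const.mul cd.sqrt) y hy
  · have T0 := TT_pos H hy
    exact mul_nonneg (by positivity) (add_nonneg (le_min
      (add_nonneg (ch_nonneg T0 (by positivity) (by positivity)) (by positivity))
      (add_nonneg (ch_nonneg T0 (by positivity) (by positivity)) (by positivity))) (by positivity))
  · have b1 : L t / ε ≤ u := (Finset.single_le_sum (fun t _ => L0 t) ht).trans (by linarith)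
    have T0 := TT_pos H (hR t)
    have b2 : M * (B * √√(dd r t)) ≤ M * (B * √r) := by
      gcongr
      exact sqrt_le r0 _
    rw [inv_mul_le_iff₀ (by positivity)]
    refine (add_le_add (bnd H (hR t) M0 le_rfl) b2).trans (le_trans (b := u ^ 7 * L t) ?_ ?_)
    · simp only [L, hM, mul_add (u ^ 7), add_assoc]
      exact add_le_add (le_mul_of_one_le_left (by positivity) (one_le_pow₀ u1)) (le_of_eq (by ring))
    · rw [pow_succ u 7, mul_assoc]
      gcongr
      exact (div_le_iff₀ hε).1 b1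
  · rw [inv_mul_lt_iff₀ (by positivity), mul_one] at hW
    replace hW := (le_add_of_nonneg_right (by positivity)).trans_lt hW
    rw [inv_mul_le_iff₀ (by positivity)] at hT
    have he' := (hE₁ y hy).2.trans he
    rw [← hE y hy] at he
    have M6 : u ^ 6 ≤ M := by
      rw [hM]
      exact (pow_le_pow_right₀ u1 (by norm_num)).trans
        (le_mul_of_one_le_left (by positivity) (by linarith))
    obtain ⟨C', K, k1, k2, h4, k3⟩ := hB y hy _ (by positivity) hP.2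
    have s1 : ∀ x, A1 r u M C' N g x = A1 r u M 0 N g x + M * C' * √(dd r x) := fun x => by
      simp only [A1]; ring
    have s2 : ∀ x, A2 r u M C' N g x = A2 r u M 0 N g x + M * C' * √(dd r x) := fun x => by
      simp only [A2]; ring
    have key : ∀ {P : Prop}, UJ (fun x => min (A1 r u M C' N g x) (A2 r u M C' N g x)) y 0 → P →
        UJ (fun x => (u ^ 8)⁻¹ * (min (A1 r u M 0 N g x) (A2 r u M 0 N g x) +
          M * (B * √√(dd r x)))) y 0 ∧ P := fun j p => ⟨by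
      have := (ext hy M0 B0 k3 j).smul (k := (u ^ 8)⁻¹) (by positivity)
      rw [mul_zero] at this
      refine this.congr (.of_forall fun x => ?_)
      simp only [s1, s2, min_add_add_right]
      ring, p⟩
    rcases le_total (A1 r u M 0 N g y) (A2 r u M 0 N g y) with hc | hc
    · have := pt1 H hy hu hM he hT le_rfl hc (min_eq_left hc ▸ hW)
      exact key ((uj1 H le_rfl hN hy M6 he hT this.1 k1 h4).min_left
        (by rw [s1, s2]; linarith)) this.2
    · have := pt2 H hy hu hM he hT le_rfl hc (min_eq_right hc ▸ hW)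
      exact key ((uj2 H le_rfl hN hy u1 M6 he (hE₁ y hy).1 he' hT this.1 k2 h4).min_right
        (by rw [s1, s2]; linarith)) this.2

end AncK

theorem anc : Spec_ANC := AncK.main

end Vale.Agent.P097K
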