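import Vale.Agent.P097K.Spec
import Vale.Agent.P097C.Bridge

/-!
# P097K: from the interface of `P097Top` to the core
-/

open Filter Topology Set Metric
open Vale.Agent.P097C

namespace Vale.Agent.P097K

theorem sd_of {r c : ℝ} {θ H Q : ℂ → ℂ} (hc : P097Top.Cur r c θ H Q) :
    SD r θ H (deriv θ) Q c 1 :=
  have an : ∀ {f : ℂ → ℂ}, DifferentiableOn ℂ f (P097T.Strip r) →
      AnalyticOnNhd ℂ f (St r) := fun h => h.analyticOnNhd (St_open _)
  ⟨hc.rpos, hc.cpos, le_rfl, an hc.dθ, an hc.dH, (an hc.dθ).deriv, an hc.dQ, fun _ _ => rfl, hc.ode,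
    hc.laz, hc.perθ, hc.perH, hc.reθ, fun t =>
      ⟨deriv_im (an hc.dθ _ (St_real hc.rpos t)).differentiableAt hc.reθ, hc.pos t⟩⟩

theorem cl_of {r c T : ℝ} {θ H Y φ p : ℂ → ℂ} {n : ℕ} (hl : P097Top.LeafD r c θ H n T Y φ p)
    (hr : P097Top.NoReg r n T Y) : CL r T c θ H (deriv θ) n Y φ p := by
  have an : ∀ {s : ℝ} {f : ℂ → ℂ}, DifferentiableOn ℂ f (P097T.Strip s) →
      AnalyticOnNhd ℂ f (St s) := fun h => h.analyticOnNhd (St_open _)
  refine ⟨hl.odd, hl.pos, an hl.dY, an hl.dφ, an hl.dp, hl.mem, hl.perY, hl.perφ, hl.perp, hl.th, hl.pc,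
      hl.ps, fun t => (hl.re t).1, fun t => ⟨deriv_im (an hl.dY _ (St_real hl.pos t)).differentiableAt
        fun s => (hl.re s).1, (hl.sgn t).1⟩, fun t => ⟨deriv_im (an hl.dφ _
          (St_real hl.pos t)).differentiableAt fun s => (hl.re s).2.1, (hl.sgn t).2.1⟩,
      fun t => ?_, hl.wr, fun x₀ σ Z h1 h2 h3 => hr x₀ h1 ⟨σ, Z, h2, h3⟩⟩
  have h1 : (P097C.de n φ t).im = 0 := by
    have := (hl.re (t - 1 / n)).2.1
    push_cast at this
    simp only [P097C.de, Complex.div_ofNat_im, Complex.sub_im, (hl.re t).2.1, this]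
    simp
  have h2 : P097C.de n φ t = ((P097C.de n φ t).re : ℝ) := Complex.ext (by simp) (by simpa using h1)
  rw [h2, ← Complex.ofReal_sin]
  exact ⟨Complex.ofReal_im _, by
    rw [Complex.ofReal_re]
    exact Real.sin_pos_of_pos_of_lt_pi (hl.sgn t).2.2.1
      ((hl.sgn t).2.2.2.trans (half_lt_self Real.pi_pos))⟩

theorem top_of (hK : Spec_KER) (hI : Spec_INP) (hC : Spec_CORE) : Spec_CORE2 :=
  fun r c T θ H Q Y φ p κ n hc hM hm hN hl hr =>
    hC r T c 1 θ H (deriv θ) Q Y φ p n (sd_of hc)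
      (hI r c 1 θ H (deriv θ) Q κ (sd_of hc) hM (hK r κ hc.rpos hM.one hm) hN) (cl_of hl hr)

end Vale.Agent.P097K
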