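import Vale.Agent.P097K.Spec

/-!
# P097K (copy of P097C): the barrier which bounds the support function
-/

open Filter Topology Set Metric ComplexConjugate

open Vale.Agent.P097C

namespace Vale.Agent.P097K

namespace Hb

theorem st_open (r : ℝ) : IsOpen (St r) :=
  isOpen_lt (continuous_abs.comp Complex.continuous_im) continuous_const

theorem st_conn (r : ℝ) : IsPreconnected (St r) := by
  have : St r = {z : ℂ | -r < z.im} ∩ {z : ℂ | z.im < r} := by
    ext z
    exact abs_lt (a := z.im)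
  rw [this]
  exact ((convex_halfSpace_im_gt _).inter (convex_halfSpace_im_lt _)).isPreconnected

variable {r c C : ℝ} {θ h g Q : ℂ → ℂ}

/-- the isotropic coordinates -/
noncomputable def NN (θ h g : ℂ → ℂ) (e : ℂ) (y : ℂ) : ℂ :=
  (deriv h y - e * h y * g y) * Complex.exp (e * θ y)

theorem an (S : SD r θ h g Q c C) (e : ℂ) : AnalyticOnNhd ℂ (NN θ h g e) (St r) := fun y hy =>
  ((S.anh y hy).deriv.sub ((analyticAt_const.mul (S.anh y hy)).mul (S.ang y hy))).mul
    (analyticAt_const.mul (S.anθ y hy)).cexp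

theorem dE (S : SD r θ h g Q c C) (e : ℂ) {y : ℂ} (hy : y ∈ St r) :
    HasDerivAt (fun y => Complex.exp (e * θ y)) (Complex.exp (e * θ y) * (e * g y)) y := by
  have := ((S.anθ y hy).differentiableAt.hasDerivAt.const_mul e).cexp
  rwa [S.dθ y hy] at this

theorem dN (S : SD r θ h g Q c C) {e : ℂ} (he : e ^ 2 = -1) {y : ℂ} (hy : y ∈ St r) :
    deriv (NN θ h g e) y =
      (deriv (deriv h) y - e * h y * deriv g y + h y * g y ^ 2) * Complex.exp (e * θ y) := by
  have h1 := (((S.anh y hy).deriv.differentiableAt.hasDerivAt).fun_sub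
    (((S.anh y hy).differentiableAt.hasDerivAt.const_mul e).fun_mul
      (S.ang y hy).differentiableAt.hasDerivAt)).fun_mul (dE S e hy)
  refine h1.deriv.trans ?_
  linear_combination (-(h y * g y ^ 2 * Complex.exp (e * θ y))) * he

theorem wrN (S : SD r θ h g Q c C) {e : ℂ} (he : e ^ 2 = -1) {y : ℂ} (hy : y ∈ St r) :
    deriv (NN θ h g e) y * g y - NN θ h g e y * deriv g y = c * Complex.exp (e * θ y) := by
  rw [dN S he hy, NN, ← S.wr y hy]
  ring

theorem odeN (S : SD r θ h g Q c C) {e : ℂ} (he : e ^ 2 = -1) : ∀ y ∈ St r,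
    deriv (deriv (NN θ h g e)) y = Q y * NN θ h g e y + e * (c * Complex.exp (e * θ y)) := by
  have hA : AnalyticOnNhd ℂ (fun y => deriv (deriv (NN θ h g e)) y -
      (Q y * NN θ h g e y + e * (c * Complex.exp (e * θ y)))) (St r) := fun y hy =>
    (an S e y hy).deriv.deriv.sub (((S.anQ y hy).mul (an S e y hy)).add
      (analyticAt_const.mul (analyticAt_const.mul (analyticAt_const.mul (S.anθ y hy)).cexp)))
  have h0 := hA.eq_zero_or_eq_zero_of_mul_eq_zero S.ang (fun y hy => by
    have h1 := ((an S e y hy).deriv.differentiableAt.hasDerivAt.fun_mul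
      (S.ang y hy).differentiableAt.hasDerivAt).fun_sub
      ((an S e y hy).differentiableAt.hasDerivAt.fun_mul
        (S.ang y hy).deriv.differentiableAt.hasDerivAt)
    have h2 := ((dE S e hy).const_mul (c : ℂ)).congr_of_eventuallyEq
      (Eventually.mono ((st_open r).mem_nhds hy) fun z hz => wrN S he hz)
    have h3 := h1.unique h2
    rw [S.ode y hy] at h3
    linear_combination h3) (st_conn r)
  refine fun y hy => sub_eq_zero.1 (h0.resolve_right (fun h1 => ?_) y hy)
  have h2 := (S.posg 0).2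
  rw [h1 _ (by simpa [St] using S.r0)] at h2
  simp at h2

theorem nE {e : ℂ} (he : e = Complex.I ∨ e = -Complex.I) {w : ℂ} {lam : ℝ} (hw : |w.im| ≤ lam) :
    ‖Complex.exp (e * w)‖ ≤ Real.exp lam := by
  rw [Complex.norm_exp, Real.exp_le_exp]
  have := abs_le.1 hw
  rcases he with rfl | rfl <;> simp <;> linarith

end Hb

open Hb in
theorem hb (hWU : Spec_WU) (hANC : Spec_ANC) : Spec_HB := by
  intro r c C θ h g Q S F ε hε
  have e1 : Complex.I ^ 2 = -1 := Complex.I_sq
  have e2 : (-Complex.I) ^ 2 = -1 := by rw [neg_sq, e1]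
  obtain ⟨l0, H0⟩ := hWU r c C θ h g Q S F (ε / 3) (by positivity)
  obtain ⟨l1, H1⟩ := hANC r c C θ h g Q S (NN θ h g Complex.I)
    (fun y => c * Complex.exp (Complex.I * θ y))
    (fun y => Complex.I * (c * Complex.exp (Complex.I * θ y))) (an S _) (fun y hy => wrN S e1 hy)
    (fun y hy => ⟨odeN S e1 y hy, by simp⟩) F (ε / 3) (by positivity)
  obtain ⟨l2, H2⟩ := hANC r c C θ h g Q S (NN θ h g (-Complex.I))
    (fun y => c * Complex.exp (-Complex.I * θ y))
    (fun y => -Complex.I * (c * Complex.exp (-Complex.I * θ y))) (an S _)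
    (fun y hy => wrN S e2 hy) (fun y hy => ⟨odeN S e2 y hy, by simp⟩) F (ε / 3) (by positivity)
  refine ⟨|l0| + |l1| + |l2| + c, fun lam hl L => ?_⟩
  have a0 := abs_nonneg l0
  have a1 := abs_nonneg l1
  have a2 := abs_nonneg l2
  have hc := S.c0
  obtain ⟨W0, B0, t0, K0⟩ := H0 (2 * lam) (by linarith [le_abs_self l0]) L
  obtain ⟨W1, B1, t1, K1⟩ := H1 (2 * lam) (by linarith [le_abs_self l1])
  obtain ⟨W2, B2, t2, K2⟩ := H2 (2 * lam) (by linarith [le_abs_self l2])
  refine ⟨fun y => W0 y + W1 y + W2 y, ⟨(B0.1.add B1.1).add B2.1, fun y hy =>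
    add_nonneg (add_nonneg (B0.2 y hy) (B1.2 y hy)) (B2.2 y hy)⟩,
    fun t ht => by linarith [t0 t ht, t1 t ht, t2 t ht], fun y hy hP hθ hW => ?_⟩
  have b0 := B0.2 y hy
  have b1 := B1.2 y hy
  have b2 := B2.2 y hy
  have hT := (K0 y hy hP).2 (by linarith)
  have hE : ∀ e : ℂ, e = Complex.I ∨ e = -Complex.I →
      ‖(c : ℂ) * Complex.exp (e * θ y)‖ ≤ Real.exp (2 * lam) := fun e he => by
    rw [norm_mul, Complex.norm_real, Real.norm_eq_abs, abs_of_pos hc, two_mul, Real.exp_add]
    exact mul_le_mul (by linarith [Real.add_one_le_exp lam]) (nE he hθ) (norm_nonneg _)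
      (Real.exp_pos _).le
  obtain ⟨u1, n1⟩ := K1 y hy hP.1 (hE _ (Or.inl rfl)) hT (by linarith)
  obtain ⟨u2, n2⟩ := K2 y hy hP.1 (hE _ (Or.inr rfl)) hT (by linarith)
  refine ⟨by simpa using ((K0 y hy hP).1.add u1).add u2, ?_⟩
  have hd : 0 < dd r y := sub_pos.2 (sq_lt_sq' (abs_lt.1 hy).1 (abs_lt.1 hy).2)
  have hT0 : 0 < TT r 1 g y := lt_of_lt_of_le (by positivity) hT
  have hx : Complex.exp (-Complex.I * θ y) * Complex.exp (Complex.I * θ y) = 1 := by
    rw [← Complex.exp_add]
    simp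
  have key : 2 * Complex.I * h y * (TT r 1 g y : ℝ) =
      (NN θ h g (-Complex.I) y * conj (g y) +
        (dd r y : ℂ) ^ 2 * deriv (NN θ h g (-Complex.I)) y * conj (deriv g y)) *
        Complex.exp (Complex.I * θ y) -
      (NN θ h g Complex.I y * conj (g y) +
        (dd r y : ℂ) ^ 2 * deriv (NN θ h g Complex.I) y * conj (deriv g y)) *
        Complex.exp (-Complex.I * θ y) := by
    rw [dN S e1 hy, dN S e2 hy, NN, NN, TT]
    push_cast
    rw [← Complex.mul_conj', ← Complex.mul_conj']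
    linear_combination (-(2 * Complex.I * h y * (g y * conj (g y) +
      (dd r y : ℂ) ^ 2 * (deriv g y * conj (deriv g y))))) * hx
  have h3 := congrArg norm key
  rw [norm_mul, norm_mul, norm_mul, Complex.norm_I, Complex.norm_real, Real.norm_eq_abs,
    abs_of_pos hT0, Complex.norm_ofNat] at h3
  have h4 := h3.le.trans ((norm_sub_le _ _).trans (add_le_add
    ((norm_mul_le _ _).trans (mul_le_mul n2 (nE (Or.inl rfl) hθ) (norm_nonneg _) (by positivity)))
    ((norm_mul_le _ _).trans (mul_le_mul n1 (nE (Or.inr rfl) hθ) (norm_nonneg _) (by positivity)))))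
  rw [show 11 * lam = 5 * (2 * lam) + lam by ring, Real.exp_add]
  refine le_of_mul_le_mul_right ?_ hT0
  linarith

end Vale.Agent.P097K
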