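import Vale.Agent.P097K.ACore
import Vale.Agent.P097K.Bridge
import Vale.Agent.P097K.Alg
import Vale.Agent.P097K.Alg2
import Vale.Agent.P097K.Hb
import Vale.Agent.P097K.TameA
import Vale.Agent.P097K.TopX
import Vale.Agent.P097K.Wfin
import Vale.Agent.P097C.Det
import Vale.Agent.P097C.Rig
import Vale.Agent.P097C.Ode

/-!
# P097K: the core from the remaining blocks
-/

open Vale.Agent.P097C

namespace Vale.Agent.P097K

theorem core0 (hU : Spec_WU) (hA : Spec_ANC) (hW : Spec_WR) : Spec_CORE :=
  core_of (alg alg1 alg2) (acore hW (wfin paste') (tameA (hb hU hA) jen det_ne ent) (gd rig)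
    (topx rig ode))

theorem core20 (hK : Spec_KER) (hI : Spec_INP) (hU : Spec_WU) (hA : Spec_ANC) (hW : Spec_WR) :
    Spec_CORE2 := top_of hK hI (core0 hU hA hW)

end Vale.Agent.P097K
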