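import Vale.Agent.P097K.Spec
import Vale.Agent.P097C.Wr

/-!
# P097K: the barrier for the angles (row **WR**)
-/

set_option linter.all false

open Filter Topology Set Metric
open Vale.Agent.P097C

namespace Vale.Agent.P097K

namespace WrK

theorem lv_le {r L : ℝ} {y : ℂ} (hy : y ∈ St r) (L0 : 0 ≤ L) (h : Real.exp (-L) ≤ dd r y) :
    lv r y ≤ 1 + |Real.log (r ^ 2)| + L := by
  have d0 := WrA.dd_pos hy
  have h1 : -L ≤ Real.log (dd r y) := (Real.le_log_iff_exp_le d0).2 h
  have h2 : Real.log (dd r y) ≤ Real.log (r ^ 2) :=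
    Real.log_le_log d0 (by unfold dd; linarith [sq_nonneg y.im])
  have h3 : |Real.log (dd r y)| ≤ |Real.log (r ^ 2)| + L :=
    abs_le.2 ⟨by linarith [abs_nonneg (Real.log (r ^ 2))], by linarith [le_abs_self (Real.log (r ^ 2))]⟩
  unfold lv
  linarith

theorem sq_le {u C₁ δ lam : ℝ} (δ0 : 0 < δ) (l1 : 1 ≤ lam) (h : u ^ 16 ≤ C₁ * lam)
    (hl : C₁ / δ ^ 8 ≤ lam) : u ^ 2 ≤ δ * lam := by
  have h1 : C₁ ≤ lam * δ ^ 8 := (div_le_iff₀ (pow_pos δ0 8)).1 hl
  have h2 : lam ^ 2 ≤ lam ^ 8 := pow_le_pow_right₀ l1 (by norm_num)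
  have h3 : (u ^ 2) ^ 8 ≤ (δ * lam) ^ 8 := by
    have h4 := mul_le_mul_of_nonneg_right h1 (show 0 ≤ lam by linarith)
    have h5 := mul_le_mul_of_nonneg_left h2 (pow_pos δ0 8).le
    rw [← pow_mul, mul_pow, show 2 * 8 = 16 from rfl]
    linarith
  exact le_of_pow_le_pow_left₀ (by norm_num) (by positivity) h3

end WrK

open WrA WrK in
theorem wr : Spec_WR := by
  intro n _ r ρ c C θ h g Q Y sd cv K ε K1 ε0
  have r0 := sd.r0
  have n0 : (0 : ℝ) < n := by exact_mod_cast NeZero.pos n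
  have m0 : 0 < r ^ 2 + (4 * K) ^ n := by positivity
  set δ : ℝ := ε * r ^ 2 / (8 * n * (r ^ 2 + (4 * K) ^ n)) with hδ
  have δ0 : 0 < δ := by positivity
  set C₁ : ℝ := C * (1 + |Real.log (r ^ 2)| + (4 * K) ^ n) with hC₁
  set M : ℝ := 2 * (n * (n * (4 * n))) with hM
  refine ⟨max 1 (max (M / ε) (C₁ / δ ^ 8)), fun lam hl => ?_⟩
  have l1 : 1 ≤ lam := (le_max_left _ _).trans hl
  have l2 : M ≤ lam * ε :=
    (div_le_iff₀ ε0).1 (((le_max_left _ _).trans (le_max_right _ _)).trans hl)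
  have l3 : C₁ / δ ^ 8 ≤ lam := ((le_max_right _ _).trans (le_max_right _ _)).trans hl
  set A : ℝ := 4 * (δ * lam) / r ^ 2 with hA
  have A0 : 0 ≤ A := by positivity
  set L : ℕ → ℝ := fun s => lam * (4 * K) ^ s with hL
  have K4 : 1 ≤ 4 * K := by linarith
  have Ll : ∀ s, lam ≤ L s := fun s => le_mul_of_one_le_right (by linarith) (one_le_pow₀ K4)
  set e : ℕ → ℝ := fun s => Real.exp (-L s) with he
  have e0 : ∀ s, 0 < e s := fun s => Real.exp_pos _
  have ea : Antitone e := fun s t hst => Real.exp_le_exp.2 (neg_le_neg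
    (mul_le_mul_of_nonneg_left (pow_le_pow_right₀ K4 hst) (by linarith)))
  set B : ℕ → ℝ := fun s => 4 * n * Real.exp (K * (lam + L s)) ^ 2 / r ^ 2 * e (s + 1) ^ 2 with hB
  have B0 : ∀ s, 0 ≤ B s := fun s => by positivity
  have q0 : 0 < (lam ^ 2)⁻¹ := by positivity
  have jθ : ∀ x ∈ St ρ, ∀ i, ∃ b, EJ (fun x => (θ (Y x i)).im ^ 2) x b
      (2 * ‖g (Y x i) * deriv (fun x => Y x i) x‖ ^ 2) := fun x hx i => by
    have a1 := sd.anθ _ (cv.maps hx i)
    have a2 := cv.anY i x hx
    have d1 : deriv (fun x => θ (Y x i)) x = g (Y x i) * deriv (fun x => Y x i) x := by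
      rw [← sd.dθ _ (cv.maps hx i)]
      exact (a1.differentiableAt.hasDerivAt.comp x a2.differentiableAt.hasDerivAt).deriv
    refine ⟨_, (EJ.im (F := fun x => θ (Y x i)) (a1.comp_of_eq a2 rfl)).sq.cast rfl ?_⟩
    rw [d1, norm_mul (-Complex.I), norm_neg, Complex.norm_I]
    ring
  have ck1 := fun x (hx : x ∈ St ρ) j s =>
    ck_pull (F := fun x => Y x j) (cv.anY j x hx) (cv.maps hx j) (e0 s)
  have nn : ∀ x ∈ St ρ, 0 ≤ ∑ i, A * ck r (e n) (Y x i) +
      ∑ s ∈ Finset.range n, ∑ j, B s * ck r (e (s + 1)) (Y x j) := fun x hx =>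
    add_nonneg (Finset.sum_nonneg fun i _ => mul_nonneg A0 (ck_nn (cv.maps hx i) (e0 _)))
      (Finset.sum_nonneg fun s _ => Finset.sum_nonneg fun j _ =>
        mul_nonneg (B0 s) (ck_nn (cv.maps hx j) (e0 _)))
  refine ⟨(Finset.range n).image L, fun x => (lam ^ 2)⁻¹ * (∑ i, (θ (Y x i)).im ^ 2 +
    (∑ i, A * ck r (e n) (Y x i) + ∑ s ∈ Finset.range n, ∑ j, B s * ck r (e (s + 1)) (Y x j))),
    Finset.card_image_le.trans_eq (Finset.card_range n), fun L' hL' => ?_, ⟨fun x hx => ?_,
    fun x hx => mul_nonneg q0.le (add_nonneg (Finset.sum_nonneg fun i _ => sq_nonneg _) (nn x hx))⟩,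
    ?_, fun x hx => ⟨fun hW j => ?_, fun hPB hD => ?_⟩⟩
  · obtain ⟨s, -, rfl⟩ := Finset.mem_image.1 hL'
    exact Ll s
  · refine ContinuousAt.continuousWithinAt (continuousAt_const.mul (ContinuousAt.add
      (tendsto_finset_sum _ fun i _ => (jθ x hx i).choose_spec.continuousAt) (ContinuousAt.add
      (tendsto_finset_sum _ fun i _ => (ck1 x hx i n).1.const_mul A)
      (tendsto_finset_sum _ fun s _ => tendsto_finset_sum _ fun j _ =>
        (ck1 x hx j (s + 1)).1.const_mul (B s)))))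
  · have z1 : ∑ i, (θ (Y 0 i)).im ^ 2 = 0 := Finset.sum_eq_zero fun i _ => by
      have : Y 0 i = ((Y 0 i).re : ℝ) := Complex.ext rfl (by simp [cv.re0 i])
      rw [this, sd.reθ]
      ring
    have z2 : ∑ i, A * ck r (e n) (Y 0 i) ≤ n * (A * (r ^ 2 + (4 * K) ^ n)) * lam := by
      have : ∀ i ∈ (Finset.univ : Finset (ZMod n)),
          A * ck r (e n) (Y 0 i) ≤ A * (r ^ 2 + (4 * K) ^ n) * lam := fun i _ => by
        have := (ck_real (r := r) (cv.re0 i) (e0 n)).2
          (Real.exp_le_one_iff.2 (by linarith [Ll n]))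
        rw [he, Real.log_exp] at this
        rw [mul_assoc]
        refine mul_le_mul_of_nonneg_left (this.trans ?_) A0
        have : r ^ 2 ≤ r ^ 2 * lam := le_mul_of_one_le_right (sq_nonneg r) l1
        simp only [hL]
        linarith
      have := Finset.sum_le_card_nsmul _ _ _ this
      rw [Finset.card_univ, ZMod.card, nsmul_eq_mul] at this
      linarith
    have z3 : ∑ s ∈ Finset.range n, ∑ j, B s * ck r (e (s + 1)) (Y 0 j) ≤ n * (n * (4 * n)) := by
      have : ∀ s ∈ Finset.range n, ∑ j, B s * ck r (e (s + 1)) (Y 0 j) ≤ n * (4 * n) := by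
        intro s _
        have : ∀ j ∈ (Finset.univ : Finset (ZMod n)),
            B s * ck r (e (s + 1)) (Y 0 j) ≤ 4 * n := fun j _ => by
          refine (mul_le_mul_of_nonneg_left (ck_real (r := r) (cv.re0 j) (e0 _)).1 (B0 s)).trans ?_
          have h1 : Real.exp (K * (lam + L s)) ^ 2 * e (s + 1) ≤ 1 := by
            rw [he, ← Real.exp_nat_mul, ← Real.exp_add, Real.exp_le_one_iff]
            have h2 : L (s + 1) = 4 * K * L s := by simp only [hL]; ring
            have h3 := mul_le_mul_of_nonneg_left (Ll s) (show 0 ≤ K by linarith)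
            rw [h2]
            push_cast
            linarith
          have h2 : B s * (r ^ 2 / e (s + 1)) =
              4 * n * (Real.exp (K * (lam + L s)) ^ 2 * e (s + 1)) := by
            have := (e0 (s + 1)).ne'
            simp only [hB]
            field_simp
          rw [h2]
          exact mul_le_of_le_one_right (by positivity) h1
        have := Finset.sum_le_card_nsmul _ _ _ this
        rwa [Finset.card_univ, ZMod.card, nsmul_eq_mul] at this
      have := Finset.sum_le_card_nsmul _ _ _ this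
      rwa [Finset.card_range, nsmul_eq_mul] at this
    show (lam ^ 2)⁻¹ * _ ≤ ε
    rw [inv_mul_le_iff₀ (by positivity), z1, zero_add]
    have z4 : (n : ℝ) * (n * (4 * n)) ≤ n * (n * (4 * n)) * lam :=
      le_mul_of_one_le_right (by positivity) l1
    have z5 := mul_le_mul_of_nonneg_right l2 (show 0 ≤ lam by linarith)
    rw [hM] at z5
    have z6 : n * (A * (r ^ 2 + (4 * K) ^ n)) * lam = lam ^ 2 * ε / 2 := by
      simp only [hA, hδ]
      field_simp
      ring
    nlinarith
  · have h1 : (θ (Y x j)).im ^ 2 ≤ ∑ i, (θ (Y x i)).im ^ 2 :=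
      Finset.single_le_sum (f := fun i => (θ (Y x i)).im ^ 2) (fun i _ => sq_nonneg _)
        (Finset.mem_univ j)
    have h2 := (inv_mul_lt_iff₀ (show 0 < lam ^ 2 by positivity)).1 hW
    exact abs_le_of_sq_le_sq' (by linarith [nn x hx]) (by linarith) |> abs_le.2
  · set v : ZMod n → ℂ := fun j => deriv (fun x => Y x j) x with hv
    set P : ℕ → ZMod n → ℝ := fun s j => 2 * r ^ 2 / (dd r (Y x j) + e s) ^ 2 * ‖v j‖ ^ 2 with hP
    have P0 : ∀ s j, 0 ≤ P s j := fun s j => by positivity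
    have J := (((UJ.sum Finset.univ fun i _ => (jθ x hx i).choose_spec.uj).add
      ((UJ.sum Finset.univ fun i _ => (ck1 x hx i n).2.smul A0).add
        (UJ.sum (Finset.range n) fun s _ => UJ.sum Finset.univ fun j _ =>
          (ck1 x hx j (s + 1)).2.smul (B0 s)))).smul q0.le)
    refine J.mono (mul_nonpos_of_nonneg_of_nonpos q0.le ?_)
    show ∑ i, 2 * ‖g (Y x i) * v i‖ ^ 2 + (∑ i, A * -P n i +
      ∑ s ∈ Finset.range n, ∑ j, B s * -P (s + 1) j) ≤ 0
    simp only [mul_neg, Finset.sum_neg_distrib]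
    have s1 : 0 ≤ ∑ i, A * P n i := Finset.sum_nonneg fun i _ => mul_nonneg A0 (P0 _ _)
    have s2 : ∀ s, 0 ≤ ∑ j, B s * P (s + 1) j := fun s =>
      Finset.sum_nonneg fun j _ => mul_nonneg (B0 s) (P0 _ _)
    by_cases hc : ∀ i, e n ≤ dd r (Y x i)
    · have h1 : ∑ i, 2 * ‖g (Y x i) * v i‖ ^ 2 ≤ ∑ i, A * P n i := Finset.sum_le_sum fun i _ => by
        have d0 := WrA.dd_pos (cv.maps hx i)
        have h2 : (‖g (Y x i)‖ * dd r (Y x i)) ^ 2 ≤ δ * lam := by
          refine sq_le δ0 l1 ((hPB i).1.trans ?_) l3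
          have h6 := lv_le (cv.maps hx i) (show 0 ≤ L n by linarith [Ll n]) (hc i)
          have h7 : 1 + |Real.log (r ^ 2)| ≤ (1 + |Real.log (r ^ 2)|) * lam :=
            le_mul_of_one_le_right (by positivity) l1
          rw [hC₁, mul_assoc]
          refine mul_le_mul_of_nonneg_left (h6.trans ?_) (by linarith [sd.C1])
          simp only [hL]
          linarith
        have h3 : ‖g (Y x i)‖ * (dd r (Y x i) + e n) ≤ 2 * (‖g (Y x i)‖ * dd r (Y x i)) := by
          linarith [mul_le_mul_of_nonneg_left (hc i) (norm_nonneg (g (Y x i)))]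
        have h4 : (‖g (Y x i)‖ * (dd r (Y x i) + e n)) ^ 2 ≤ 4 * (δ * lam) := by
          have := pow_le_pow_left₀ (mul_nonneg (norm_nonneg _) (add_pos d0 (e0 n)).le) h3 2
          rw [mul_pow 2] at this
          linarith
        have h5 : A * P n i = 2 * (4 * (δ * lam) / (dd r (Y x i) + e n) ^ 2 * ‖v i‖ ^ 2) := by
          simp only [hA, hP]
          field_simp
        rw [h5, norm_mul, mul_pow]
        refine mul_le_mul_of_nonneg_left (mul_le_mul_of_nonneg_right ?_ (sq_nonneg _)) zero_le_two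
        rw [le_div_iff₀ (pow_pos (add_pos d0 (e0 n)) 2), ← mul_pow]
        exact h4
      linarith [Finset.sum_nonneg fun s (_ : s ∈ Finset.range n) => s2 s]
    · push Not at hc
      obtain ⟨i, hi⟩ := hc
      obtain ⟨s, hs, hf⟩ := free (fun j => dd r (Y x j)) ea hi
      obtain ⟨k, hk, h1, -⟩ := hD (L s) (Finset.mem_image_of_mem L (Finset.mem_range.2 hs))
        (Finset.univ.filter fun j => e s ≤ dd r (Y x j)) (fun h => by
          have := (Finset.mem_filter.1 (Finset.eq_univ_iff_forall.1 h i)).2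
          linarith [ea hs.le])
        fun j hj => (Finset.mem_filter.1 hj).2
      have hk' : dd r (Y x k) < e (s + 1) :=
        hf k (not_le.1 fun h => hk (Finset.mem_filter.2 ⟨Finset.mem_univ _, h⟩))
      have h2 : ∑ i, 2 * ‖g (Y x i) * v i‖ ^ 2 ≤
          n * (2 * (Real.exp (K * (lam + L s)) * ‖v k‖) ^ 2) := by
        have := Finset.sum_le_card_nsmul Finset.univ (fun i => 2 * ‖g (Y x i) * v i‖ ^ 2) _
          fun i _ => mul_le_mul_of_nonneg_left (pow_le_pow_left₀ (norm_nonneg _) (h1 i) 2)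
            zero_le_two
        rwa [Finset.card_univ, ZMod.card, nsmul_eq_mul] at this
      have h3 : n * (2 * (Real.exp (K * (lam + L s)) * ‖v k‖) ^ 2) ≤ B s * P (s + 1) k := by
        have d0 := WrA.dd_pos (cv.maps hx k)
        have p := add_pos d0 (e0 (s + 1))
        have h4 : B s * P (s + 1) k = n * (2 * (Real.exp (K * (lam + L s)) * ‖v k‖) ^ 2) *
            ((2 * e (s + 1)) ^ 2 / (dd r (Y x k) + e (s + 1)) ^ 2) := by
          simp only [hB, hP]
          field_simp
          ring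
        rw [h4]
        refine le_mul_of_one_le_right (by positivity) ?_
        rw [one_le_div (pow_pos p 2)]
        exact pow_le_pow_left₀ p.le (by linarith) 2
      have h5 : B s * P (s + 1) k ≤ ∑ j, B s * P (s + 1) j :=
        Finset.single_le_sum (f := fun j => B s * P (s + 1) j)
          (fun j _ => mul_nonneg (B0 s) (P0 _ _)) (Finset.mem_univ k)
      have h6 : ∑ j, B s * P (s + 1) j ≤ ∑ s ∈ Finset.range n, ∑ j, B s * P (s + 1) j :=
        Finset.single_le_sum (f := fun s => ∑ j, B s * P (s + 1) j) (fun s _ => s2 s)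
          (Finset.mem_range.2 hs)
      linarith

end Vale.Agent.P097K
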