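import Vale.Agent.P097K.TameA
import Vale.Agent.P097C.Wu

/-!
# P097K: the barrier against a small state, by blocks of levels (row WU)
-/

set_option linter.all false

open Filter Topology
open Vale.Agent.P097C

namespace Vale.Agent.P097K

namespace WuK

variable {r c C : ℝ} {θ h g Q : ℂ → ℂ}

lemma cqK (H : SD r θ h g Q c C) : OP.Cq (St r) (dd r) g Q (2 * r + 1) := by
  have r0 := H.r0
  refine ⟨St_open r, by linarith, fun y => dd_pos, fun y hy => ?_, H.ang, H.anQ, H.ode,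
    fun y hy => ?_⟩
  · obtain ⟨b, h1, h2⟩ := SB.dd_jet r y
    have h3 : |y.im| < r := hy
    have h4 := dd_le r y
    refine ⟨b, _, h1, by linarith, ?_⟩
    rw [abs_neg, abs_two]
    nlinarith
  · by_contra k
    push Not at k
    have := H.wr y hy
    rw [k.1, k.2] at this
    have c0 : (c : ℂ) ≠ 0 := Complex.ofReal_ne_zero.2 H.c0.ne'
    exact c0 (by rw [← this]; ring)

/-- one block -/
lemma blk (H : SD r θ h g Q c C) : ∃ k : ℝ, 0 < k ∧ ∀ D μ : ℝ, 1 ≤ D → ∃ W, Bar (St r) W ∧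
    (∀ (t : ℝ) (m : ℝ), 0 ≤ m → m ≤ 4 * Real.log ‖g t‖ - 1 / 2 * Real.log (r ^ 2) + μ →
      W t ≤ Real.exp (-(k / D ^ 2 * m))) ∧
    ∀ y ∈ St r, (‖Q y‖ * dd r y ^ 2 ≤ D → UJ W y 0) ∧ (W y < 1 → ∀ lam : ℝ,
      Real.log (dd r y) + 2 * μ ≤ 8 * lam → Real.exp (-2 * lam) * √(dd r y) ≤ TT r 1 g y) := by
  have r0 := H.r0
  have R := cqK H
  set K := 2 * r + 1 with hK
  have K1 : 1 ≤ K := R.K1
  refine ⟨r ^ 2 / (665 * K) ^ 2, by positivity, fun D μ D1 => ?_⟩
  have KD : K ≤ K * D := le_mul_of_one_le_right (by linarith) D1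
  have KD' : D ≤ K * D := le_mul_of_one_le_left (by linarith) K1
  obtain ⟨τ, hτ⟩ : ∃ τ : ℝ, τ = (80 * (K * D))⁻¹ := ⟨_, rfl⟩
  have τ0 : 0 < τ := by rw [hτ]; positivity
  have τe : 80 * (K * D) * τ = 1 := by rw [hτ]; exact mul_inv_cancel₀ (by positivity)
  have τ1 : 40 * K * τ ≤ 1 := by nlinarith [mul_le_mul_of_nonneg_right KD τ0.le]
  have τ3 : τ ≤ 1 := by nlinarith [mul_le_mul_of_nonneg_right K1 τ0.le]
  have τ2 : 2 * (2 * D) * τ ^ 2 ≤ 1 := by
    nlinarith [mul_le_mul_of_nonneg_right KD' τ0.le, mul_pos (one_pos.trans_le D1) τ0]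
  have τ4 : 2 / τ = 160 * (K * D) := by rw [hτ]; field_simp; norm_num
  obtain ⟨B, hB⟩ : ∃ B : ℝ, B = 332 * (K * D) := ⟨_, rfl⟩
  have B0 : 0 < B := by rw [hB]; positivity
  obtain ⟨β, hβ⟩ : ∃ β : ℝ, β = r ^ 2 / (2 * B + r) ^ 2 := ⟨_, rfl⟩
  have β0 : 0 < β := by rw [hβ]; positivity
  have β1 : r ^ 2 / (665 * K) ^ 2 / D ^ 2 ≤ β := by
    rw [hβ, div_div, ← mul_pow]
    gcongr
    nlinarith
  let s : ℂ → ℝ := OC.St (dd r) g τ (6 * K ^ 2)
  let w : ℂ → ℝ := fun y => 2 * (2 * Real.log (s y)) - 1 / 2 * Real.log (dd r y)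
  refine ⟨fun y => Real.exp (-β * (w y + μ)), ⟨?_, fun y _ => (Real.exp_pos _).le⟩,
    fun t m m0 hm => ?_, fun y hy => ⟨fun hQ => ?_, fun hW lam hl => ?_⟩⟩
  · refine (continuousOn_const.mul (ContinuousOn.add (ContinuousOn.sub ?_ ?_)
      continuousOn_const)).rexp
    · exact continuousOn_const.mul (continuousOn_const.mul
        ((R.cSt τ0).log fun y hy => (R.St_pos hy τ0).ne'))
    · exact continuousOn_const.mul (R.cd.log fun y hy => (R.pos y hy).ne')
  · have g0 : 0 < ‖g t‖ := norm_pos_iff.2 fun e => by simpa [e] using (H.posg t).2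
    have h1 : Real.log ‖g t‖ ≤ Real.log (s t) := Real.log_le_log g0 (le_max_left _ _)
    have h2 : m ≤ w t + μ := by
      simp only [w, dd_real (Complex.ofReal_im t)]
      linarith
    refine Real.exp_le_exp.2 ?_
    nlinarith [mul_le_mul_of_nonneg_right β1 m0, mul_le_mul_of_nonneg_left h2 β0.le]
  · obtain ⟨φ, b, a, j, le, e, a0, bb, -⟩ := (R.loc (C := 2 * D) (by linarith)).st_jet
      ⟨hy, show ‖Q y‖ * dd r y ^ 2 < 2 * D by linarith⟩ τ0 τ1 τ2
    obtain ⟨b', j', nb⟩ := SB.dd_jet r y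
    have d0 := R.pos y hy
    have J := (((((j.smul 2).smul 2).sub ((j'.log d0.ne').smul (1 / 2))).add_const μ).smul (-β)).exp
    have bb' : dd r y * ‖((2 : ℝ) : ℂ) * b‖ ≤ B := by
      rw [norm_mul, Complex.norm_real, Real.norm_of_nonneg zero_le_two, hB]
      nlinarith
    refine (J.uj.mono (mul_nonpos_of_nonneg_of_nonpos (Real.exp_pos _).le
      (WuR.num r0 d0 rfl hy (by positivity) B0 bb' nb hβ))).touch
      (le.mono fun x hx => Real.exp_le_exp.2 ?_) (by simp only [w, s, e])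
    have := mul_le_mul_of_nonneg_left hx β0.le
    simp only [w, s]
    linarith
  · refine WuR.fin (R.St_pos hy τ0) (R.pos y hy) (norm_nonneg _) τ3 ?_ (R.St_le hy τ0 τ1)
    have := Real.exp_lt_one_iff.1 hW
    rw [neg_mul, neg_lt_zero] at this
    have := (mul_pos_iff_of_pos_left β0).1 this
    simp only [w, s] at this
    linarith

/-- pasting on the strip -/
lemma pst {a : ℂ → ℝ} {L : ℝ} (ha : Bar (St r) a) : ∃ W, Bar (St r) W ∧
    ∀ y ∈ St r, W y ≤ a y + 2 * Real.exp (-L) ∧ (Real.exp (-L) ≤ dd r y → W y < 1 → a y < 1) ∧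
      ((Real.exp (-(2 * L)) ≤ dd r y → UJ a y 0) → UJ W y 0) := by
  have e := Real.exp_pos L
  have e1 : Real.exp L * Real.exp (-L) = 1 := by rw [← Real.exp_add]; simp
  refine ⟨fun x => min (a x + 2 * Real.exp (-L)) (Real.exp L * dd r x),
    (ha.add (Bar.const (by positivity))).min ((dd_bar r).smul e.le), fun x hx => ?_⟩
  refine ⟨min_le_left _ _, fun h h' => ?_, fun h => ?_⟩
  · rcases min_lt_iff.1 h' with k | k
    · linarith [Real.exp_pos (-L)]
    · linarith [mul_le_mul_of_nonneg_left h e.le]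
  · rcases le_total (a x + 2 * Real.exp (-L)) (Real.exp L * dd r x) with h' | h'
    · refine UJ.min_left (((h ?_).add (UJ.const _ x)).mono (by simp)) h'
      have e2 : Real.exp L * Real.exp (-(2 * L)) = Real.exp (-L) := by
        rw [← Real.exp_add]; ring_nf
      refine le_of_mul_le_mul_left ?_ e
      linarith [ha.2 x hx, Real.exp_pos (-L)]
    · exact UJ.min_right (((dd_uj r x).smul e.le).mono (by linarith)) h'

lemma exp_le {x : ℝ} (hx : 0 < x) : Real.exp (-x) ≤ 2 / x ^ 2 := by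
  rw [Real.exp_neg, inv_eq_one_div, div_le_div_iff₀ (Real.exp_pos _) (by positivity)]
  linarith [Real.quadratic_le_exp_of_nonneg hx.le]

end WuK

open WuK in
theorem wu : Spec_WU := by
  intro r c C θ h g Q H F ε hε
  obtain ⟨k, k0, hk⟩ := blk H
  have C1 := H.C1
  set A := 384 * C / k ^ 2 + 2 with hA
  have A0 : 0 < A := by positivity
  have ev : ∀ᶠ lam : ℝ in atTop, (∀ t ∈ F,
      8 * (1 / 2 * Real.log (r ^ 2) - 4 * Real.log ‖g (t : ℝ)‖) ≤ lam) ∧
      1 + |Real.log (r ^ 2)| ≤ lam ∧ 2 * A / ε ≤ lam :=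
    ((eventually_all_finset F).2 fun t _ => eventually_ge_atTop _).and
      ((eventually_ge_atTop _).and (eventually_ge_atTop _))
  obtain ⟨lam₀, hl⟩ := eventually_atTop.1 ev
  refine ⟨lam₀, fun lam hlam N => ?_⟩
  obtain ⟨l1, l2, l3⟩ := hl lam hlam
  have l4 : 1 ≤ lam := by linarith [abs_nonneg (Real.log (r ^ 2))]
  let L : ℕ → ℝ := fun j => 2 ^ j * lam
  have Ll : ∀ j, lam ≤ L j := fun j => le_mul_of_one_le_left (by linarith) (one_le_pow₀ one_le_two)
  have G : ∀ j : ℕ, ∃ W, Bar (St r) W ∧ (∀ t ∈ F, W (t : ℝ) ≤ A / L j) ∧ ∀ y ∈ St r,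
      (PB r g Q C y → UJ W y 0) ∧ (Real.exp (-L j) ≤ dd r y → W y < 1 →
        Real.log (dd r y) + L j / 2 ≤ 8 * lam → Real.exp (-2 * lam) * √(dd r y) ≤ TT r 1 g y) := by
    intro j
    have L1 : 1 ≤ L j := l4.trans (Ll j)
    have X1 : 1 ≤ 3 * C * L j := by nlinarith
    obtain ⟨D, D1, hD⟩ : ∃ D : ℝ, 1 ≤ D ∧ D ^ 16 = 3 * C * L j :=
      ⟨(3 * C * L j) ^ ((16 : ℕ) : ℝ)⁻¹, Real.one_le_rpow X1 (by positivity),
        Real.rpow_inv_natCast_pow (by linarith) (by norm_num)⟩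
    obtain ⟨a, a1, a2, a3⟩ := hk D (L j / 4) D1
    obtain ⟨W, w1, w2⟩ := pst (L := L j) a1
    refine ⟨W, w1, fun t ht => ?_, fun y hy => ⟨fun hP => (w2 y hy).2.2 fun hd => (a3 y hy).1 ?_,
      fun hd hW hh => (a3 y hy).2 ((w2 y hy).2.1 hd hW) lam (by linarith)⟩⟩
    · have e1 := (a2 t (L j / 8) (by linarith) (by linarith [l1 t ht, Ll j])).trans
        (exp_le (by positivity))
      have e2 : 2 / (k / D ^ 2 * (L j / 8)) ^ 2 ≤ 384 * C / k ^ 2 / L j := by
        have e3 : D ^ 4 ≤ 3 * C * L j := hD ▸ pow_le_pow_right₀ D1 (by norm_num)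
        have e4 : 2 / (k / D ^ 2 * (L j / 8)) ^ 2 = 128 * D ^ 4 / (k ^ 2 * L j ^ 2) := by
          field_simp; norm_num
        have e5 : 384 * C / k ^ 2 / L j = 128 * (3 * C * L j) / (k ^ 2 * L j ^ 2) := by
          field_simp; norm_num
        rw [e4, e5]
        gcongr
      have e6 : Real.exp (-L j) ≤ 1 / L j := by
        rw [Real.exp_neg, inv_eq_one_div]
        exact one_div_le_one_div_of_le (by linarith) (by linarith [Real.add_one_le_exp (L j)])
      have e7 : A / L j = 384 * C / k ^ 2 / L j + 2 * (1 / L j) := by rw [hA]; ring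
      linarith [(w2 t (St_real H.r0 t)).1]
    · refine le_of_pow_le_pow_left₀ (n := 16) (by norm_num) (by linarith) (hP.2.trans ?_)
      have := TameA.lv_le hy hd (by linarith)
      rw [hD]
      nlinarith [Ll j]
  choose W w1 w2 w3 using G
  obtain ⟨J, hJ⟩ : ∃ J : ℕ, N ≤ L J := by
    obtain ⟨J, hJ⟩ := pow_unbounded_of_one_lt N (one_lt_two (α := ℝ))
    exact ⟨J, hJ.le.trans (le_mul_of_one_le_right (by positivity) l4)⟩
  refine ⟨fun y => ∑ j ∈ Finset.range (J + 1), W j y, Bar.sum _ fun j _ => w1 j, fun t ht => ?_,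
    fun y hy hP => ⟨(UJ.sum _ fun j _ => (w3 j y hy).1 hP.1).mono (by simp), fun hW => ?_⟩⟩
  · refine (Finset.sum_le_sum fun j _ => w2 j t ht).trans ?_
    have e1 : ∀ j : ℕ, A / L j = A / lam * (1 / 2) ^ j := fun j => by
      simp only [L]
      rw [one_div, inv_pow]
      field_simp
    simp only [e1, ← Finset.mul_sum]
    have e2 := mul_le_mul_of_nonneg_left (sum_geometric_two_le (J + 1))
      (show 0 ≤ A / lam by positivity)
    rw [div_le_iff₀ hε] at l3
    refine e2.trans ?_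
    rw [div_mul_eq_mul_div, div_le_iff₀ (by linarith)]
    linarith
  · have ex : ∃ j, Real.exp (-L j) ≤ dd r y :=
      ⟨J, (Real.exp_le_exp.2 (neg_le_neg hJ)).trans hP.2⟩
    classical
    have j1 : Nat.find ex ≤ J := Nat.find_min' ex ((Real.exp_le_exp.2 (neg_le_neg hJ)).trans hP.2)
    refine (w3 _ y hy).2 (Nat.find_spec ex) (lt_of_le_of_lt (Finset.single_le_sum
      (f := fun j => W j y) (fun j _ => (w1 j).2 y hy) (Finset.mem_range.2 (by omega))) hW) ?_
    rcases h0 : Nat.find ex with _ | i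
    · have := Real.log_le_log (dd_pos hy) (dd_le r y)
      simp only [L]
      linarith [le_abs_self (Real.log (r ^ 2))]
    · have h1 := Real.log_lt_log (dd_pos hy) (not_le.1 (Nat.find_min ex (m := i) (by omega)))
      rw [Real.log_exp] at h1
      simp only [L, pow_succ] at h1 ⊢
      linarith

end Vale.Agent.P097K
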