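import Vale.Agent.P097K.Core0
import Vale.Agent.P097K.Wu
import Vale.Agent.P097K.Anc
import Vale.Agent.P097K.Wr
import Vale.Agent.P097K.Ker

/-!
# P097K: the core
-/

namespace Vale.Agent.P097K

theorem core : Spec_CORE := core0 wu anc wr

theorem core21 (hI : Spec_INP) : Spec_CORE2 := top_of ker hI core

end Vale.Agent.P097K
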