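import Vale.Agent.P097K.OccP
import Vale.Agent.P097C.Occ2

/-!
# P097K: occupation up to depth `N` with level dependent constants
-/

set_option linter.all false

open Filter Topology
open Vale.Agent.P097C

namespace Vale.Agent.P097K

lemma oc2 {r ε M d₁ N : ℝ} {Ξ : ℂ → ℝ} {G P : ℂ → Prop} (hr : 0 < r) (hε : 0 < ε) (hd : 0 < d₁)
    (hX : Bar (St r) Ξ) (HX : ∀ y ∈ St r, Ξ y ≤ M ∧ (G y → Real.exp (-N) ^ 2 ≤ dd r y →
      UJ Ξ y (ε * r ^ 2 / 8 / dd r y ^ 2) ∧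
        (P y → dd r y < d₁ → UJ Ξ y ((ε * r ^ 2 / 8 - 1) / dd r y ^ 2)))) (N0 : 0 ≤ N)
    (N1 : 2 * (M + ε / 4 * r ^ 2 + 1 + r ^ 2 / (2 * d₁ ^ 2)) ≤ N * ε) :
    ∃ W : ℂ → ℝ, Bar (St r) W ∧ ∀ y ∈ St r, W y ≤ ε * N ∧ (G y → UJ W y 0 ∧
      (P y → UJ W y (-1 / (dd r y + Real.exp (-N)) ^ 2))) := by
  obtain ⟨Xc, X0⟩ := hX
  set a := Real.exp (-N) with ha
  have a0 : 0 < a := Real.exp_pos _
  have a1 : a ≤ 1 := Real.exp_le_one_iff.2 (by linarith)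
  have k0 : 0 < a ^ 2 := by positivity
  have k1 : a ^ 2 ≤ 1 := by nlinarith
  have lk : Real.log (a ^ 2) = -2 * N := by rw [Real.log_pow, ha, Real.log_exp]; push_cast; ring
  have dc : Continuous (dd r) := by unfold dd; fun_prop
  let U : ℂ → ℝ := fun y => Ξ y + (ε / 4 * Real.log (dd r y + a ^ 2) + (ε / 2 * N + 1))
  let V : ℂ → ℝ := fun y => (a ^ 2)⁻¹ * dd r y
  have U1 : ∀ y ∈ St r, 1 ≤ U y := fun y hy => by
    have h1 : Real.log (a ^ 2) ≤ Real.log (dd r y + a ^ 2) :=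
      Real.log_le_log k0 (by linarith [(oc2_pos hy).1])
    have h2 := mul_le_mul_of_nonneg_left h1 (show 0 ≤ ε / 4 by positivity)
    have := X0 y hy
    rw [lk] at h2
    simp only [U]
    linarith
  have Uc : ContinuousOn U (St r) := Xc.add ((continuousOn_const.mul
    ((dc.continuousOn.add continuousOn_const).log fun y hy =>
      (add_pos (oc2_pos hy).1 k0).ne')).add continuousOn_const)
  have Vc : Continuous V := continuous_const.mul dc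
  refine ⟨fun y => min (U y) (V y) + (2 * d₁ ^ 2)⁻¹ * dd r y, ⟨ContinuousOn.add
    (fun y hy => Tendsto.min (Uc y hy) Vc.continuousWithinAt) (continuous_const.mul dc).continuousOn,
    fun y hy => ?_⟩, fun y hy => ?_⟩
  · have := (oc2_pos hy).1
    exact add_nonneg (le_min (by linarith [U1 y hy]) (by simp only [V]; positivity)) (by positivity)
  obtain ⟨d0, d1⟩ := oc2_pos hy
  obtain ⟨XM, X1⟩ := HX y hy
  obtain ⟨b, hb, -⟩ := oc2_dd r y
  have JT : UJ (fun y => (2 * d₁ ^ 2)⁻¹ * dd r y) y (-1 / d₁ ^ 2) :=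
    (hb.smul _).uj.mono (le_of_eq (by field_simp))
  have JT0 := JT.mono (show _ ≤ 0 from div_nonpos_of_nonpos_of_nonneg (by norm_num) (by positivity))
  have JU : ∀ s : ℝ, U y ≤ V y →
      (a ^ 2 ≤ dd r y → UJ Ξ y ((ε * r ^ 2 / 8 - s) / dd r y ^ 2)) →
      UJ (fun y => min (U y) (V y)) y (-s / dd r y ^ 2) := fun s e h => by
    have e1 : a ^ 2 ≤ dd r y := by
      have : 1 ≤ (a ^ 2)⁻¹ * dd r y := (U1 y hy).trans e
      rwa [le_inv_mul_iff₀ k0, mul_one] at this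
    exact (((h e1).add (((oc2_log hy k0 e1).smul (show 0 ≤ ε / 4 by positivity)).add
      (UJ.const _ y))).mono (le_of_eq (by ring))).min_left e
  have JV : V y ≤ U y → UJ (fun y => min (U y) (V y)) y (-1 / (dd r y + a) ^ 2) := fun e => by
    refine ((hb.smul _).uj.mono ?_).min_right e
    have : 1 / (dd r y + a) ^ 2 ≤ 1 / a ^ 2 := by gcongr; linarith
    have h2 : 0 < (a ^ 2)⁻¹ := by positivity
    rw [neg_div]
    rw [one_div (a ^ 2)] at this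
    linarith
  have n0 : -1 / (dd r y + a) ^ 2 ≤ 0 :=
    div_nonpos_of_nonpos_of_nonneg (by norm_num) (by positivity)
  have J0 : G y → UJ (fun y => min (U y) (V y)) y 0 := fun hG => (le_total (U y) (V y)).elim
    (fun e => (JU 0 e fun e1 => by rw [sub_zero]; exact (X1 hG e1).1).mono (by simp))
    fun e => (JV e).mono n0
  refine ⟨?_, fun hG => ⟨((J0 hG).add JT0).mono (by simp), fun g1 => ?_⟩⟩
  · have h1 : Real.log (dd r y + a ^ 2) ≤ r ^ 2 :=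
      (Real.log_le_sub_one_of_pos (by positivity)).trans (by linarith)
    have h2 := mul_le_mul_of_nonneg_left h1 (show 0 ≤ ε / 4 by positivity)
    have h3 : (2 * d₁ ^ 2)⁻¹ * dd r y ≤ r ^ 2 / (2 * d₁ ^ 2) := by
      rw [div_eq_inv_mul]; gcongr
    have h4 : min (U y) (V y) ≤ U y := min_le_left _ _
    simp only [U] at h4 ⊢
    linarith
  rcases lt_or_ge (dd r y) d₁ with h | h
  · refine (UJ.add ?_ JT0).mono (add_zero _).le
    refine (le_total (U y) (V y)).elim (fun e => (JU 1 e fun e1 => (X1 hG e1).2 g1 h).mono ?_) JV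
    rw [neg_div, neg_div, neg_le_neg_iff]
    gcongr
    linarith
  · refine ((J0 hG).add JT).mono ?_
    rw [zero_add, neg_div, neg_div, neg_le_neg_iff]
    gcongr
    linarith

/-- **OCC2 with level dependent constants** `φ (level)`, `φ (2 N) ^ 14 = o (N)` -/
theorem occ2P {r d₀ : ℝ} {g Q : ℂ → ℂ} {φ : ℝ → ℝ} (hr : 0 < r) (hg : AnalyticOnNhd ℂ g (St r))
    (hQ : AnalyticOnNhd ℂ Q (St r)) (ode : ∀ y ∈ St r, deriv (deriv g) y = Q y * g y)
    (nd : ∀ y ∈ St r, g y ≠ 0 ∨ deriv g y ≠ 0) (d0 : 0 < d₀) (φ1 : ∀ s, 1 ≤ φ s) (φm : Monotone φ)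
    (φo : Tendsto (fun N => φ (2 * N) ^ 14 / N) atTop (𝓝 0)) {A ε : ℝ} (hA : 1 ≤ A) (hε : 0 < ε) :
    ∃ N₀ : ℝ, ∀ N ≥ N₀, ∃ W : ℂ → ℝ, Bar (St r) W ∧ ∀ y ∈ St r, W y ≤ ε * N ∧
      (GQ r Q (φ (-Real.log (dd r y))) y →
        (dd r y < d₀ → ¬ Calm r g Q (φ (-Real.log (dd r y)))⁻¹ y) → UJ W y 0 ∧
        (A⁻¹ ≤ ‖g y‖ → ‖g y‖ ≤ A → UJ W y (-1 / (dd r y + Real.exp (-N)) ^ 2))) := by
  obtain ⟨B, B1, H⟩ := occP hr hg hQ ode nd hA (show 0 < ε * r ^ 2 / 8 by positivity)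
  set c := 2 * (B + ε / 4 * r ^ 2 + 1 + r ^ 2 / 2 * (B + d₀⁻¹) ^ 2)
  have c0 : 0 < c := by positivity
  obtain ⟨N₀, h⟩ := eventually_atTop.1 ((φo.eventually_le_const (div_pos hε c0)).and
    (eventually_gt_atTop 0))
  refine ⟨N₀, fun N hN => ?_⟩
  obtain ⟨h1, N0⟩ := h N hN
  set D := φ (2 * N)
  have D1 : 1 ≤ D := φ1 _
  have i0 : 0 < d₀⁻¹ := inv_pos.2 d0
  obtain ⟨Ξ, b, hX⟩ := H D D1
  refine (oc2 (M := B * D ^ 14) (d₁ := ((B + d₀⁻¹) * D)⁻¹) (N := N)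
    (G := fun y => GQ r Q (φ (-Real.log (dd r y))) y ∧
      (dd r y < d₀ → ¬ Calm r g Q (φ (-Real.log (dd r y)))⁻¹ y))
    (P := fun y => A⁻¹ ≤ ‖g y‖ ∧ ‖g y‖ ≤ A) hr hε (by positivity) b (fun y hy => ⟨(hX y hy).1,
      fun hG hd => ?_⟩) N0.le ?_).imp fun W ⟨w1, w2⟩ => ⟨w1, fun y hy => ⟨(w2 y hy).1,
      fun a1 a2 => ⟨((w2 y hy).2 ⟨a1, a2⟩).1, fun a3 a4 => ((w2 y hy).2 ⟨a1, a2⟩).2 ⟨a3, a4⟩⟩⟩⟩
  · have p := dd_pos hy
    have e : φ (-Real.log (dd r y)) ≤ D := φm (by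
      have := Real.log_le_log (by positivity) hd
      rw [Real.log_pow, Real.log_exp] at this
      push_cast at this
      linarith)
    have k := (hX y hy).2 fun z hz => (hG.1 z hz).trans e
    refine ⟨k.1, fun a1 a2 => ?_⟩
    rw [← one_div, lt_div_iff₀' (by positivity)] at a2
    have a3 : 0 ≤ d₀⁻¹ * D * dd r y := by positivity
    have a4 : 0 ≤ B * D * dd r y := by positivity
    have a5 : d₀⁻¹ * dd r y ≤ d₀⁻¹ * D * dd r y := by
      rw [mul_right_comm]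
      exact le_mul_of_one_le_right (by positivity) D1
    have i1 := inv_anti₀ (one_pos.trans_le (φ1 _)) e
    exact k.2 a1.1 a1.2 (by linarith) fun hc => hG.2 ((inv_mul_lt_one₀ d0).1 (by linarith))
      fun z hz => ⟨(hc z hz).1.trans i1, (hc z hz).2.trans i1⟩
  · rw [div_le_div_iff₀ N0 c0] at h1
    have e1 := one_le_pow₀ D1 (n := 14)
    have e2 := pow_le_pow_right₀ D1 (show 2 ≤ 14 by norm_num)
    have e3 : r ^ 2 / (2 * ((B + d₀⁻¹) * D)⁻¹ ^ 2) = r ^ 2 / 2 * (B + d₀⁻¹) ^ 2 * D ^ 2 := by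
      field_simp
    have e4 := mul_le_mul_of_nonneg_left e2 (show 0 ≤ r ^ 2 / 2 * (B + d₀⁻¹) ^ 2 by positivity)
    have e5 := mul_le_mul_of_nonneg_left e1 (show 0 ≤ ε / 4 * r ^ 2 + 1 by positivity)
    rw [e3]
    simp only [c] at h1
    linarith

end Vale.Agent.P097K
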