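import Vale.Agent.P097K.Spec
import Vale.Agent.P097K.Occ2P

/-!
# P097K: from the majorant to the input of the core
-/

set_option linter.all false

open Filter Topology Set Metric
open Vale.Agent.P097C

namespace Vale.Agent.P097K

namespace Inp

variable {r N : ℝ} {y : ℂ} {g Q : ℂ → ℂ} {κ : ℂ → ℝ}

noncomputable def mm (r : ℝ) : ℝ := 2 + 2 * |Real.log (2 * r ^ 2)|

lemma mm_pos (r : ℝ) : 0 < mm r := by unfold mm; positivity

lemma lv_one (r : ℝ) (y : ℂ) : 1 ≤ lv r y := le_add_of_nonneg_right (abs_nonneg _)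

lemma dd_le_t (hy : y ∈ St r) : dd r y ≤ 2 * r * (r - |y.im|) := by
  have h : |y.im| < r := hy
  unfold dd
  nlinarith [sq_abs y.im, sq_nonneg (r - |y.im|)]

lemma exists_band (hr : 0 < r) (hy : y ∈ St r) :
    ∃ k : ℕ, Band r k y ∧ (k : ℝ) + 1 ≤ mm r * lv r y := by
  have h : |y.im| < r := hy
  have t0 : 0 < r - |y.im| := sub_pos.2 h
  obtain ⟨k, h1, h2⟩ := exists_nat_pow_near (x := r / (r - |y.im|)) (y := (2 : ℝ))
    ((one_le_div t0).2 (by linarith [abs_nonneg y.im])) (by norm_num)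
  rw [le_div_iff₀ t0] at h1
  rw [div_lt_iff₀ t0] at h2
  refine ⟨k, ⟨(div_le_iff₀' (by positivity)).2 h2.le, (le_div_iff₀' (by positivity)).2 h1⟩, ?_⟩
  have d0 := dd_pos hy
  have e : 2 ^ k * dd r y ≤ 2 * r ^ 2 :=
    (mul_le_mul_of_nonneg_left (dd_le_t hy) (by positivity)).trans (by nlinarith)
  have e1 := Real.log_le_log (by positivity) e
  rw [Real.log_mul (by positivity) d0.ne', Real.log_pow] at e1
  have e2 := mul_le_mul_of_nonneg_left (show (1 / 2 : ℝ) ≤ Real.log 2 by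
    linarith [Real.log_two_gt_d9]) (Nat.cast_nonneg (α := ℝ) k)
  have e3 := le_abs_self (Real.log (2 * r ^ 2))
  have e4 := neg_abs_le (Real.log (dd r y))
  have e5 := mul_nonneg (abs_nonneg (Real.log (2 * r ^ 2))) (abs_nonneg (Real.log (dd r y)))
  unfold mm lv
  nlinarith

lemma lv_le (hy : y ∈ St r) (h : Real.exp (-N) ≤ dd r y) :
    lv r y ≤ 1 + |Real.log (r ^ 2)| + |N| := by
  have h1 := Real.log_le_log (Real.exp_pos _) h
  have h2 := Real.log_le_log (dd_pos hy) (dd_le r y)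
  rw [Real.log_exp] at h1
  have : |Real.log (dd r y)| ≤ |Real.log (r ^ 2)| + |N| := abs_le.2 ⟨by
    linarith [abs_nonneg (Real.log (r ^ 2)), le_abs_self N], by
    linarith [abs_nonneg N, le_abs_self (Real.log (r ^ 2))]⟩
  unfold lv
  linarith

/-- the number of bands up to the level `N` -/
noncomputable def KK (r N : ℝ) : ℕ := ⌈mm r * (1 + |Real.log (r ^ 2)| + |N|)⌉₊

lemma band (hr : 0 < r) (hy : y ∈ St r) (h : Real.exp (-N) ≤ dd r y) :
    ∃ k ∈ Finset.range (KK r N), Band r k y ∧ (k : ℝ) + 1 ≤ mm r * lv r y := by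
  obtain ⟨k, h1, h2⟩ := exists_band hr hy
  refine ⟨k, Finset.mem_range.2 ?_, h1, h2⟩
  have := (h2.trans (mul_le_mul_of_nonneg_left (lv_le hy h) (mm_pos r).le)).trans (Nat.le_ceil _)
  exact_mod_cast this

lemma sum_sq (K : ℕ) : ∑ k ∈ Finset.range K, (((k : ℝ) + 1) ^ 2)⁻¹ ≤ 2 - 2 / ((K : ℝ) + 1) := by
  induction K with
  | zero => simp
  | succ K ih =>
    rw [Finset.sum_range_succ]
    push_cast
    have k0 : (0 : ℝ) ≤ K := K.cast_nonneg
    have : (((K : ℝ) + 1) ^ 2)⁻¹ ≤ 2 / ((K : ℝ) + 1) - 2 / ((K : ℝ) + 1 + 1) := by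
      rw [div_sub_div _ _ (by positivity) (by positivity), inv_eq_one_div,
        div_le_div_iff₀ (by positivity) (by positivity)]
      nlinarith [mul_nonneg k0 k0]
    linarith

lemma avoid (hr : 0 < r) (h1 : ∀ y, 1 ≤ κ y) (hK : Ker r κ) {ε : ℝ} (hε : 0 < ε) :
    ∃ C₀ : ℝ, 1 ≤ C₀ ∧ Avoid r (fun y => κ y ^ 32 ≤ C₀ * lv r y) ε := by
  obtain ⟨C, hC⟩ := hK 64
  choose V Vb Vr Vy using hC
  have m0 := mm_pos r
  set L := 1 + 2 * |C| / ε with hL
  have L1 : 1 ≤ L := le_add_of_nonneg_right (by positivity)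
  have m2 : 2 ≤ mm r := le_add_of_nonneg_right (by positivity)
  refine ⟨L * mm r, by nlinarith, fun N => ?_⟩
  have w0 : ∀ k : ℕ, 0 ≤ (L ^ 2)⁻¹ * (((k : ℝ) + 1) ^ 2)⁻¹ := fun k => by positivity
  refine ⟨fun y => ∑ k ∈ Finset.range (KK r N), (L ^ 2)⁻¹ * (((k : ℝ) + 1) ^ 2)⁻¹ * V k y,
    Bar.sum _ fun k _ => (Vb k).smul (w0 k), fun t => ?_, fun y hy => ⟨?_, fun e hd => ?_⟩⟩
  · refine (Finset.sum_le_sum (g := fun k : ℕ => (L ^ 2)⁻¹ * |C| * (((k : ℝ) + 1) ^ 2)⁻¹)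
      fun k _ => ?_).trans ?_
    · rw [mul_right_comm _ |C|]
      exact mul_le_mul_of_nonneg_left ((Vr k t).trans (le_abs_self C)) (w0 k)
    rw [← Finset.mul_sum]
    have s := (sum_sq (KK r N)).trans (sub_le_self _ (by positivity))
    refine (mul_le_mul_of_nonneg_left s (by positivity)).trans ?_
    have e : 2 * |C| ≤ ε * L := by
      rw [hL, mul_add, mul_div_cancel₀ _ hε.ne']
      linarith
    rw [mul_assoc, inv_mul_le_iff₀ (by positivity)]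
    nlinarith [mul_le_mul_of_nonneg_left L1 (show 0 ≤ ε * L by positivity)]
  · exact (UJ.sum _ fun k _ => ((Vy k y hy).1.smul (w0 k))).mono (by simp)
  · obtain ⟨k, hk, b, e1⟩ := band hr hy hd
    by_contra hc
    have e2 : L * (k + 1) ≤ κ y ^ 32 := by
      have := mul_le_mul_of_nonneg_left e1 (zero_le_one.trans L1)
      rw [← mul_assoc] at this
      exact this.trans (not_le.1 hc).le
    have e3 : (L * (k + 1)) ^ 2 ≤ V k y := by
      refine (pow_le_pow_left₀ (by positivity) e2 2).trans ?_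
      rw [← pow_mul]
      exact ((Vy k y hy).2 b).1
    have e4 := (Finset.single_le_sum (f := fun k : ℕ => (L ^ 2)⁻¹ * (((k : ℝ) + 1) ^ 2)⁻¹ * V k y)
      (fun i _ => mul_nonneg (w0 i) ((Vb i).2 y hy)) hk).trans_lt e
    rw [← mul_inv, ← mul_pow, inv_mul_lt_one₀ (by positivity)] at e4
    linarith

/-- the points where the majorant is large are paid for by the kernels -/
lemma pay (hr : 0 < r) (hK : Ker r κ) {ε : ℝ} (hε : 0 < ε) :
    ∃ C₁ N₀ : ℝ, ∀ N ≥ N₀, ∃ W : ℂ → ℝ, Bar (St r) W ∧ (∀ t : ℝ, W t ≤ ε * N) ∧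
      ∀ y ∈ St r, UJ W y 0 ∧ (C₁ < κ y → UJ W y (-1 / (dd r y + Real.exp (-N)) ^ 2)) := by
  classical
  obtain ⟨C, hC⟩ := hK 1
  choose V Vb Vr Vy using hC
  have m0 := mm_pos r
  set L := 1 + 8 * mm r * |C| / ε with hL
  have L1 : 1 ≤ L := le_add_of_nonneg_right (by positivity)
  have L0 : 0 ≤ L⁻¹ := by positivity
  refine ⟨L, 1 + |Real.log (r ^ 2)| + 2 / ε, fun N hN => ?_⟩
  have p1 := abs_nonneg (Real.log (r ^ 2))
  have p2 : 0 < 2 / ε := by positivity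
  have N0 : 0 < N := by linarith
  set a := Real.exp (-N) with ha
  have a0 : 0 < a := Real.exp_pos _
  have i0 : 0 ≤ (a ^ 2)⁻¹ := by positivity
  refine ⟨fun y => L⁻¹ * (∑ k ∈ Finset.range (KK r (2 * N)), V k y) + min ((a ^ 2)⁻¹ * dd r y) 1,
    ((Bar.sum _ fun k _ => Vb k).smul L0).add (((dd_bar r).smul i0).min (Bar.const zero_le_one)),
    fun t => ?_, fun y hy => ?_⟩
  · have s := Finset.sum_le_card_nsmul (Finset.range (KK r (2 * N))) (fun k => V k t) |C|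
      fun k _ => (Vr k t).trans (le_abs_self C)
    rw [Finset.card_range, nsmul_eq_mul] at s
    have k1 : (KK r (2 * N) : ℝ) ≤ 4 * mm r * N := by
      have := (Nat.ceil_lt_add_one (show 0 ≤ mm r * (1 + |Real.log (r ^ 2)| + |2 * N|) by
        positivity)).le
      rw [abs_of_pos (show 0 < 2 * N by positivity)] at this
      have m2 : 2 ≤ mm r := le_add_of_nonneg_right (by positivity)
      unfold KK
      rw [abs_of_pos (show 0 < 2 * N by positivity)]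
      nlinarith
    have e : 8 * mm r * |C| ≤ ε * L := by
      rw [hL, mul_add, mul_div_cancel₀ _ hε.ne']
      linarith
    have e1 : L⁻¹ * ∑ k ∈ Finset.range (KK r (2 * N)), V k t ≤ ε / 2 * N := by
      rw [inv_mul_le_iff₀ (by positivity)]
      nlinarith [mul_le_mul_of_nonneg_right k1 (abs_nonneg C), mul_le_mul_of_nonneg_right e N0.le]
    have e2 : 2 ≤ ε * N := (div_le_iff₀' hε).1 (by linarith)
    linarith [min_le_right ((a ^ 2)⁻¹ * dd r t) 1]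
  have d0 := dd_pos hy
  have J1 : UJ (fun y => L⁻¹ * ∑ k ∈ Finset.range (KK r (2 * N)), V k y) y 0 :=
    ((UJ.sum _ fun k _ => (Vy k y hy).1).smul L0).mono (by simp)
  have J2 : (a ^ 2)⁻¹ * dd r y ≤ 1 →
      UJ (fun y => min ((a ^ 2)⁻¹ * dd r y) 1) y (-1 / (dd r y + a) ^ 2) := fun e => by
    refine (((dd_uj r y).smul i0).mono ?_).min_left e
    have : 1 / (dd r y + a) ^ 2 ≤ 1 / a ^ 2 := by gcongr; linarith
    rw [neg_div]
    rw [one_div (a ^ 2)] at this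
    linarith
  have J3 : UJ (fun y => min ((a ^ 2)⁻¹ * dd r y) 1) y 0 :=
    (le_total ((a ^ 2)⁻¹ * dd r y) 1).elim (fun e => (J2 e).mono
      (div_nonpos_of_nonpos_of_nonneg (by norm_num) (by positivity)))
      fun e => (UJ.const 1 y).min_right (u := fun y => (a ^ 2)⁻¹ * dd r y) e
  refine ⟨(J1.add J3).mono (by simp), fun hk => ?_⟩
  rcases le_total ((a ^ 2)⁻¹ * dd r y) 1 with e | e
  · exact (J1.add (J2 e)).mono (by simp)
  obtain ⟨k, k1, b, -⟩ := band (N := 2 * N) hr hy (by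
    rwa [le_inv_mul_iff₀ (by positivity), mul_one, ha, ← Real.exp_nat_mul, Nat.cast_ofNat,
      mul_neg] at e)
  have J4 := (UJ.sum (Finset.range (KK r (2 * N))) (u := V)
    (a := fun i => if i = k then -(κ y ^ 1 / dd r y ^ 2) else 0) fun i _ => by
      split_ifs with h
      · rw [h]; exact ((Vy k y hy).2 b).2
      · exact (Vy i y hy).1).smul L0
  refine (J4.add J3).mono ?_
  rw [Finset.sum_ite_eq', if_pos k1, add_zero, pow_one, mul_neg, neg_div, neg_le_neg_iff,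
    ← mul_div_assoc]
  have : 1 ≤ L⁻¹ * κ y := (one_le_inv_mul₀ (by positivity)).2 hk.le
  gcongr
  linarith

lemma occ3 (hr : 0 < r) (hg : AnalyticOnNhd ℂ g (St r)) (hQ : AnalyticOnNhd ℂ Q (St r))
    (ode : ∀ y ∈ St r, deriv (deriv g) y = Q y * g y) (nd : ∀ y ∈ St r, g y ≠ 0 ∨ deriv g y ≠ 0)
    (hM : Maj r g Q κ) (hN : NCL r g Q κ) {C₀ A ε : ℝ} (C1 : 1 ≤ C₀) (C₁ : ℝ) (hA : 1 ≤ A)
    (hε : 0 < ε) : ∃ N₀ : ℝ, ∀ N ≥ N₀, ∃ W : ℂ → ℝ, Bar (St r) W ∧ ∀ y ∈ St r, W y ≤ ε * N ∧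
      (κ y ^ 32 ≤ C₀ * lv r y → UJ W y 0 ∧ (((A⁻¹ ≤ ‖g y‖ ∧ ‖g y‖ ≤ A) ∧ κ y ≤ C₁) →
        UJ W y (-1 / (dd r y + Real.exp (-N)) ^ 2))) := by
  obtain ⟨B, B1, H⟩ := occP hr hg hQ ode nd hA (show 0 < ε * r ^ 2 / 8 by positivity)
  obtain ⟨e, d₀, e0, d0, hN⟩ := hN C₁
  set c := 2 * (B + ε / 4 * r ^ 2 + 1 + r ^ 2 / 2 * (B + d₀⁻¹) ^ 2)
  have c0 : 0 < c := by positivity
  have q1 : 0 < e⁻¹ := by positivity
  have q2 : 0 < 4 * C₀ * c / ε := by positivity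
  obtain ⟨L, hL⟩ : ∃ L : ℝ, L = 1 + e⁻¹ + 4 * C₀ * c / ε := ⟨_, rfl⟩
  have p1 := abs_nonneg (Real.log (r ^ 2))
  have L0 : 0 ≤ L := by linarith
  have p2 := pow_nonneg L0 16
  refine ⟨1 + |Real.log (r ^ 2)| + L ^ 16, fun N hN' => ?_⟩
  have N0 : 0 < N := by linarith
  obtain ⟨D, D0, hD⟩ : ∃ D : ℝ, 0 ≤ D ∧ D ^ 16 = 4 * C₀ * N :=
    ⟨(4 * C₀ * N) ^ ((16 : ℕ) : ℝ)⁻¹, by positivity,
      Real.rpow_inv_natCast_pow (by positivity) (by norm_num)⟩
  have LD : L ≤ D := (pow_le_pow_iff_left₀ L0 D0 (show 16 ≠ 0 by norm_num)).1 (by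
    have := mul_le_mul_of_nonneg_right C1 N0.le
    rw [hD, mul_assoc]
    linarith)
  have D1 : 1 ≤ D := by linarith
  have i0 : 0 < d₀⁻¹ := inv_pos.2 d0
  obtain ⟨Ξ, b, hX⟩ := H D D1
  refine oc2 (M := B * D ^ 14) (d₁ := ((B + d₀⁻¹) * D)⁻¹) hr hε (by positivity) b
    (fun y hy => ⟨(hX y hy).1, fun hG hd => ?_⟩) N0.le ?_
  · have p := dd_pos hy
    have l := lv_le (N := 2 * N) hy (by rwa [← Real.exp_nat_mul, Nat.cast_ofNat, mul_neg] at hd)
    rw [abs_of_pos (show 0 < 2 * N by positivity)] at l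
    have e1 : κ y ^ 2 ≤ D := (pow_le_pow_iff_left₀ (sq_nonneg _) D0 (show 16 ≠ 0 by norm_num)).1 (by
      rw [← pow_mul, hD]
      refine hG.trans ?_
      rw [mul_comm 4, mul_assoc]
      exact mul_le_mul_of_nonneg_left (by linarith) (by linarith))
    have k := (hX y hy).2 fun z hz => (hM.loc y hy z hz).2.trans e1
    refine ⟨k.1, fun a1 a2 => ?_⟩
    rw [← one_div, lt_div_iff₀' (by positivity)] at a2
    have a3 : 0 ≤ d₀⁻¹ * D * dd r y := by positivity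
    have a4 : 0 ≤ B * D * dd r y := by positivity
    have a5 : d₀⁻¹ * dd r y ≤ d₀⁻¹ * D * dd r y := by
      rw [mul_right_comm]
      exact le_mul_of_one_le_right (by positivity) D1
    have i1 : D⁻¹ ≤ e := inv_le_of_inv_le₀ e0 (by linarith)
    exact k.2 a1.1.1 a1.1.2 (by linarith) fun hc => hN y hy a1.2
      ((inv_mul_lt_one₀ d0).1 (by linarith))
      fun z hz => ⟨(hc z hz).1.trans i1, (hc z hz).2.trans i1⟩
  · have h1 : c * D ^ 14 ≤ N * ε := by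
      have u1 : 4 * C₀ * c ≤ D ^ 2 * ε := (div_le_iff₀ hε).1 (by
        linarith [le_self_pow₀ D1 two_ne_zero])
      have u2 := mul_le_mul_of_nonneg_right u1 (pow_nonneg D0 14)
      rw [mul_right_comm (D ^ 2), ← pow_add, hD] at u2
      refine le_of_mul_le_mul_left ?_ (show 0 < 4 * C₀ by positivity)
      linarith
    have e1 := one_le_pow₀ D1 (n := 14)
    have e2 := pow_le_pow_right₀ D1 (show 2 ≤ 14 by norm_num)
    have e3 : r ^ 2 / (2 * ((B + d₀⁻¹) * D)⁻¹ ^ 2) = r ^ 2 / 2 * (B + d₀⁻¹) ^ 2 * D ^ 2 := by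
      field_simp
    have e4 := mul_le_mul_of_nonneg_left e2 (show 0 ≤ r ^ 2 / 2 * (B + d₀⁻¹) ^ 2 by positivity)
    have e5 := mul_le_mul_of_nonneg_left e1 (show 0 ≤ ε / 4 * r ^ 2 + 1 by positivity)
    rw [e3]
    simp only [c] at h1
    linarith

lemma pb (hr : 0 < r) (hM : Maj r g Q κ) {C₀ : ℝ} (hy : y ∈ St r) (h : κ y ^ 32 ≤ C₀ * lv r y) :
    PB r g Q ((1 + 2 * r) ^ 32 * C₀) y := by
  have t0 : 0 < r - |y.im| := sub_pos.2 hy
  obtain ⟨h1, h2⟩ := hM.loc y hy y (mem_ball_self (by positivity))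
  have k1 := hM.one y
  have d0 := dd_pos hy
  have d1 : dd r y ≤ (1 + 2 * r) * (r - |y.im|) := (dd_le_t hy).trans (by nlinarith)
  have s1 : 1 ≤ (1 + 2 * r) * κ y := by nlinarith
  have e : (((1 + 2 * r) * κ y) ^ 2) ^ 16 ≤ (1 + 2 * r) ^ 32 * C₀ * lv r y := by
    rw [← pow_mul, mul_pow, mul_assoc]
    exact mul_le_mul_of_nonneg_left h (by positivity)
  refine ⟨(pow_le_pow_left₀ (by positivity) ?_ 16).trans e,
    (pow_le_pow_left₀ (by positivity) ?_ 16).trans e⟩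
  · refine le_trans ?_ (le_self_pow₀ s1 two_ne_zero)
    calc ‖g y‖ * dd r y ≤ ‖g y‖ * ((1 + 2 * r) * (r - |y.im|)) := by gcongr
      _ = (1 + 2 * r) * (‖g y‖ * (r - |y.im|)) := by ring
      _ ≤ _ := by gcongr
  · calc ‖Q y‖ * dd r y ^ 2 ≤ ‖Q y‖ * ((1 + 2 * r) * (r - |y.im|)) ^ 2 := by gcongr
      _ = (1 + 2 * r) ^ 2 * (‖Q y‖ * (r - |y.im|) ^ 2) := by ring
      _ ≤ (1 + 2 * r) ^ 2 * κ y ^ 2 := by gcongr
      _ = _ := by ring

end Inp

open Inp in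
theorem inp : Spec_INP := by
  intro r c C θ h g Q κ H hM hK hN ε hε
  have hr := H.r0
  obtain ⟨C₀, C1, hA⟩ := avoid hr hM.one hK hε
  refine ⟨(1 + 2 * r) ^ 32 * C₀, _, one_le_mul_of_one_le_of_one_le
    (one_le_pow₀ (by linarith)) C1, fun y hy => pb hr hM hy, fun A e A1 e0 => ?_, hA⟩
  obtain ⟨C₁, N₁, h1⟩ := pay hr hK (half_pos e0)
  obtain ⟨N₂, h2⟩ := occ3 hr H.ang H.anQ H.ode (fun y hy => by
    by_contra! hc
    have := H.wr y hy
    rw [hc.1, hc.2] at this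
    exact H.c0.ne (by exact_mod_cast (by simpa using this : (0 : ℂ) = c))) hM hN C1 C₁ A1
    (half_pos e0)
  refine ⟨max N₁ N₂, fun N hN => ?_⟩
  obtain ⟨W₁, b1, r1, j1⟩ := h1 N (le_of_max_le_left hN)
  obtain ⟨W₂, b2, j2⟩ := h2 N (le_of_max_le_right hN)
  refine ⟨_, b1.add b2, fun t => ?_, fun y hy hG => ⟨((j1 y hy).1.add ((j2 y hy).2 hG).1).mono
    (by simp), fun a1 a2 => ?_⟩⟩
  · linarith [r1 t, (j2 t (by simpa [St] using hr)).1]
  rcases lt_or_ge C₁ (κ y) with k | k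
  · exact (((j1 y hy).2 k).add ((j2 y hy).2 hG).1).mono (add_zero _).le
  · exact ((j1 y hy).1.add (((j2 y hy).2 hG).2 ⟨⟨a1, a2⟩, k⟩)).mono (zero_add _).le

end Vale.Agent.P097K
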