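import Vale.Agent.P097K.Core1
import Vale.Agent.P097K.Inp

/-!
# P097K: the core with bounded moments
-/

namespace Vale.Agent.P097K

theorem core2 : Spec_CORE2 := core21 inp

end Vale.Agent.P097K
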