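import Vale.Agent.P097C.OccJ

/-!
# P097K: barriers with pointwise bounds on `Q` and explicit size
-/

set_option linter.all false

open Filter Topology
open scoped ComplexConjugate
open Vale.Agent.P097C Vale.Agent.P097C.OC

namespace Vale.Agent.P097K.OP

/-- the data without the bound on `Q` -/
structure Cq (S : Set ℂ) (d : ℂ → ℝ) (g Q : ℂ → ℂ) (K : ℝ) : Prop where
  opn : IsOpen S
  K1 : 1 ≤ K
  pos : ∀ y ∈ S, 0 < d y
  jet : ∀ y ∈ S, ∃ b a, EJ d y b a ∧ ‖b‖ ≤ K ∧ |a| * d y ≤ K ^ 2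
  ang : ∀ y ∈ S, AnalyticAt ℂ g y
  anQ : ∀ y ∈ S, AnalyticAt ℂ Q y
  ode : ∀ y ∈ S, deriv (deriv g) y = Q y * g y
  nd : ∀ y ∈ S, g y ≠ 0 ∨ deriv g y ≠ 0

/-- a barrier of size `M` with `d² Δ W ≤ f` at the points of `G` -/
def Br (S : Set ℂ) (d : ℂ → ℝ) (G : ℂ → Prop) (M : ℝ) (f : ℂ → ℝ) : Prop :=
  ∃ W : ℂ → ℝ, ContinuousOn W S ∧ (∀ y ∈ S, 0 ≤ W y ∧ W y ≤ M) ∧
    ∀ y ∈ S, G y → UJ W y (f y / d y ^ 2)

variable {S : Set ℂ} {d f f' : ℂ → ℝ} {g Q : ℂ → ℂ} {K C τ c M M' : ℝ} {y : ℂ} {G G' : ℂ → Prop}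

lemma Br.add (h : Br S d G M f) (h' : Br S d G M' f') : Br S d G (M + M') fun y => f y + f' y := by
  obtain ⟨W, h1, h2, h3⟩ := h
  obtain ⟨W', k1, k2, k3⟩ := h'
  exact ⟨fun y => W y + W' y, h1.add k1, fun y hy => ⟨add_nonneg (h2 y hy).1 (k2 y hy).1,
    add_le_add (h2 y hy).2 (k2 y hy).2⟩,
    fun y hy e => add_div (f y) _ _ ▸ (h3 y hy e).add (k3 y hy e)⟩

lemma Br.smul {k : ℝ} (hk : 0 ≤ k) (h : Br S d G M f) : Br S d G (k * M) fun y => k * f y := by
  obtain ⟨W, h1, h2, h3⟩ := h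
  exact ⟨fun y => k * W y, continuousOn_const.mul h1, fun y hy =>
    ⟨mul_nonneg hk (h2 y hy).1, mul_le_mul_of_nonneg_left (h2 y hy).2 hk⟩,
    fun y hy e => mul_div_assoc k (f y) _ ▸ (h3 y hy e).smul hk⟩

lemma Br.mono (h : Br S d G M f) (hM : M ≤ M') (hG : ∀ y ∈ S, G' y → G y)
    (e : ∀ y ∈ S, G' y → f y ≤ f' y) : Br S d G' M' f' :=
  let ⟨W, h1, h2, h3⟩ := h
  ⟨W, h1, fun y hy => ⟨(h2 y hy).1, (h2 y hy).2.trans hM⟩, fun y hy k =>
    (h3 y hy (hG y hy k)).mono (div_le_div_of_nonneg_right (e y hy k) (sq_nonneg _))⟩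

namespace Cq

variable (H : Cq S d g Q K)
include H

lemma cd : ContinuousOn d S := fun y hy =>
  let ⟨_, _, h, _⟩ := H.jet y hy
  h.continuousAt.continuousWithinAt

lemma loc (C1 : 1 ≤ C) : Cr (S ∩ {x | ‖Q x‖ * d x ^ 2 < C}) d g Q K C :=
  ⟨isOpen_iff_mem_nhds.2 fun y hy => inter_mem (H.opn.mem_nhds hy.1)
    (((H.anQ y hy.1).continuousAt.norm.mul ((H.cd.continuousAt
      (H.opn.mem_nhds hy.1)).pow 2)).eventually_lt continuousAt_const hy.2),
    H.K1, C1, fun y hy => H.pos y hy.1, fun y hy => H.jet y hy.1, fun y hy => H.ang y hy.1,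
    fun y hy => H.anQ y hy.1, fun y hy => H.ode y hy.1, fun y hy => le_of_lt hy.2,
    fun y hy => H.nd y hy.1⟩

lemma ex (hy : y ∈ S) : ∃ S' C, Cr S' d g Q K C ∧ y ∈ S' :=
  ⟨_, _, H.loc (C := ‖Q y‖ * d y ^ 2 + 1) (le_add_of_nonneg_left (by positivity)), hy,
    lt_add_one (‖Q y‖ * d y ^ 2)⟩

lemma cD : ContinuousOn (fun y => d y * ‖deriv g y‖) S := fun y hy =>
  let ⟨_, _, h, e⟩ := H.ex hy
  (h.cD.continuousAt (h.opn.mem_nhds e)).continuousWithinAt

lemma csg (hτ : 0 < τ) : ContinuousOn (sg d g τ) S := fun y hy =>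
  let ⟨_, _, h, e⟩ := H.ex hy
  ((h.csg hτ).continuousAt (h.opn.mem_nhds e)).continuousWithinAt

lemma cSt (hτ : 0 < τ) : ContinuousOn (St d g τ c) S := fun y hy =>
  let ⟨_, _, h, e⟩ := H.ex hy
  ((h.cSt hτ).continuousAt (h.opn.mem_nhds e)).continuousWithinAt

lemma St_pos (hy : y ∈ S) (hτ : 0 < τ) : 0 < St d g τ c y :=
  let ⟨_, _, h, e⟩ := H.ex hy
  h.St_pos e hτ

lemma St_le (hy : y ∈ S) (hτ : 0 < τ) (h1 : 40 * K * τ ≤ 1) :
    St d g τ (6 * K ^ 2) y ≤ max ‖g y‖ (τ * (d y * ‖deriv g y‖)) :=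
  let ⟨_, _, h, e⟩ := H.ex hy
  h.St_le e hτ h1

variable (C1 : 1 ≤ C) (hτ : 0 < τ) (h1 : 40 * K * τ ≤ 1) (h2 : 2 * C * τ ^ 2 ≤ 1)
include C1 hτ h1 h2

open Classical in
/-- the window of the state -/
lemma bar1 {ε κ r R : ℝ} (hε : 0 < ε) (hκ : 0 ≤ κ) (hr : 0 < r) (hR : 0 < R) :
    Br S d (fun y => ‖Q y‖ * d y ^ 2 < C)
      (8 * κ / (r / R) * (1 + (8 * κ * (2 / τ + 2 * K + C) ^ 2 + 1) / (ε * (r / R))))
      fun y => ε - κ * if r ≤ St d g τ (6 * K ^ 2) y ∧ St d g τ (6 * K ^ 2) y ≤ R then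
      min ((d y * ‖deriv g y‖ / ‖g y‖) ^ 2) 1 else 0 := by
  set C₁ := 2 / τ + 2 * K + C
  set q := r / R
  have q0 : 0 < q := div_pos hr hR
  set η := min 1 (ε * q / (8 * κ * C₁ ^ 2 + 1))
  have η0 : 0 < η := lt_min one_pos (by positivity)
  have η1 : η ≤ 1 := min_le_left _ _
  have η2 : η * (8 * κ * C₁ ^ 2 + 1) ≤ ε * q := (le_div_iff₀ (by positivity)).1 (min_le_right _ _)
  let β : ℝ → ℝ := fun s => Real.exp (-η * Real.log (Real.exp (s + -Real.log R) + 1))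
  have βa : Antitone β := fun s s' h => Real.exp_le_exp.2 (mul_le_mul_of_nonpos_left
    (Real.log_le_log (by positivity) (by gcongr)) (by linarith))
  have β1 : ∀ s, β s ≤ 1 := fun s => Real.exp_le_one_iff.2 (mul_nonpos_of_nonpos_of_nonneg
    (by linarith) (Real.log_nonneg (by linarith [Real.exp_pos (s + -Real.log R)])))
  have βc : Continuous β := Real.continuous_exp.comp (continuous_const.mul
    (Continuous.log (by fun_prop) fun s => by positivity))
  have k0 : 0 ≤ 8 * κ / (η * q) := by positivity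
  have k1 : 8 * κ / (η * q) ≤ 8 * κ / q * (1 + (8 * κ * C₁ ^ 2 + 1) / (ε * q)) := by
    rw [mul_comm η, ← div_div, div_eq_mul_inv _ η]
    refine mul_le_mul_of_nonneg_left ?_ (by positivity)
    rcases min_choice 1 (ε * q / (8 * κ * C₁ ^ 2 + 1)) with e | e <;> rw [show η = _ from e]
    · exact inv_one.trans_le (le_add_of_nonneg_right (by positivity))
    · exact (inv_div _ _).trans_le (le_add_of_nonneg_left zero_le_one)
  refine ⟨fun y => 8 * κ / (η * q) * β (Real.log (St d g τ (6 * K ^ 2) y)),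
    continuousOn_const.mul (βc.comp_continuousOn ((H.cSt hτ).log fun y hy => (H.St_pos hy hτ).ne')),
    fun y _ => ⟨mul_nonneg k0 (Real.exp_pos _).le, (mul_le_of_le_one_right k0 (β1 _)).trans k1⟩,
    fun y hy hG => ?_⟩
  obtain ⟨φ, b, a, j, j1, j2, a0, j3, j4⟩ := (H.loc C1).st_jet ⟨hy, hG⟩ hτ h1 h2
  have hd := H.pos y hy
  have J := ((((j.add_const (-Real.log R)).exp.add_const 1).log (by positivity)).smul (-η)).exp
  refine ((J.uj.touch (W := fun y => β (Real.log (St d g τ (6 * K ^ 2) y)))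
    (j1.mono fun x hx => βa hx) (by rw [← j2])).smul k0).mono ?_
  set e := Real.exp (φ y + -Real.log R) with he
  have e0 : 0 < e := Real.exp_pos _
  set P := Real.exp (-η * Real.log (e + 1))
  have P1 : P ≤ 1 := β1 _
  have P0 : 0 < P := Real.exp_pos _
  have n1 : ‖(e : ℂ) * b‖ ^ 2 = e ^ 2 * ‖b‖ ^ 2 := by simp [mul_pow]
  have n2 : ‖((-η : ℝ) : ℂ) * ((e : ℂ) * b / ((e + 1 : ℝ) : ℂ))‖ ^ 2 =
      η ^ 2 * ‖b‖ ^ 2 * (e / (e + 1)) ^ 2 := by
    simp only [norm_mul, norm_div, Complex.norm_real, mul_pow, div_pow, Real.norm_eq_abs, sq_abs]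
    ring
  rw [n1, n2, le_div_iff₀ (by positivity)]
  refine num1 hκ η0 q0 e0 P0 P1 a0 (sq_nonneg _) (sq_nonneg _) (by rw [← mul_pow]; gcongr) η2 ?_
  split_ifs with h
  · have ee : e = St d g τ (6 * K ^ 2) y / R := by
      rw [he, j2, Real.exp_add, Real.exp_neg, Real.exp_log hR, Real.exp_log (hr.trans_le h.1)]
      rfl
    have e1 : e ≤ 1 := ee ▸ (div_le_one hR).2 h.2
    refine .inr ⟨j4, ee ▸ div_le_div_of_nonneg_right h.1 hR.le, e1, ?_⟩
    have l1 := mul_le_of_le_one_left (Real.log_nonneg (show 1 ≤ e + 1 by linarith)) η1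
    have l2 := Real.log_le_log (by positivity) (show e + 1 ≤ 2 by linarith)
    refine le_trans ?_ (Real.exp_le_exp.2 (show -Real.log 2 ≤ _ by linarith))
    rw [Real.exp_neg, Real.exp_log two_pos, one_div]
  · exact .inl rfl

open Classical in
/-- small discs round the zeros -/
lemma bar2 {ε : ℝ} (hε : 0 < ε) : ∃ ρ, 0 < ρ ∧ τ ≤ (1 + 38 / ε) * ρ ∧
    Br S d (fun y => ‖Q y‖ * d y ^ 2 < C) 8 fun y => ε - if ‖g y‖ ≤ ρ * (d y * ‖deriv g y‖) then 1 else 0 := by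
  have K1 := H.K1
  set ρ := min τ (ε / (36 / τ + 52 * K))
  have ρ0 : 0 < ρ := lt_min hτ (by positivity)
  have ρ1 : ρ ≤ τ := min_le_left _ _
  have ρ2 : ρ * (36 / τ + 52 * K) ≤ ε := (le_div_iff₀ (by positivity)).1 (min_le_right _ _)
  set Z := τ ^ 2 + ρ ^ 2 with hZ
  have Z0 : 0 < Z := by positivity
  let β : ℝ → ℝ := fun s => 4 * ρ ^ 2 * (Z⁻¹ * s - Real.log (s + ρ ^ 2) + (Real.log Z - τ ^ 2 / Z))
  have β0 : ∀ s, 0 ≤ s → 0 ≤ β s := fun s hs => mul_nonneg (by positivity) (by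
    have := Real.log_le_sub_one_of_pos (show 0 < (s + ρ ^ 2) / Z by positivity)
    rw [Real.log_div (by positivity) Z0.ne', show (s + ρ ^ 2) / Z - 1 = Z⁻¹ * s - τ ^ 2 / Z by
      field_simp; ring] at this
    linarith)
  have βz : β (τ ^ 2) = 0 := by simp only [β, ← hZ]; field_simp; ring
  have ρ3 : τ ≤ (1 + 38 / ε) * ρ := by
    rcases min_choice τ (ε / (36 / τ + 52 * K)) with e | e <;> rw [show ρ = _ from e]
    · exact le_mul_of_one_le_left hτ.le (le_add_of_nonneg_right (by positivity))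
    · rw [← mul_div_assoc, le_div_iff₀ (by positivity), mul_add τ, mul_div_cancel₀ _ hτ.ne', add_mul,
        div_mul_cancel₀ _ hε.ne']
      linarith
  have τ1 : τ ≤ 1 := by nlinarith
  have M8 : 4 * ρ ^ 2 * (Real.log Z - Real.log (ρ ^ 2)) ≤ 8 := by
    rw [← Real.log_div Z0.ne' (by positivity)]
    refine (mul_le_mul_of_nonneg_left (Real.log_le_sub_one_of_pos (by positivity))
      (by positivity)).trans ?_
    rw [mul_sub, mul_assoc, mul_div_cancel₀ _ (by positivity), hZ]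
    nlinarith
  refine ⟨ρ, ρ0, ρ3, fun y => β (sg d g τ y),
    continuousOn_const.mul (((continuousOn_const.mul (H.csg hτ)).sub (((H.csg hτ).add
      continuousOn_const).log fun y _ => (add_pos_of_nonneg_of_pos (sg_nonneg y)
        (pow_pos ρ0 2)).ne')).add continuousOn_const), fun y _ => ⟨β0 _ (sg_nonneg y), le_trans ?_ M8⟩,
    fun y hy hG => ?_⟩
  · have s0 := sg_nonneg (d := d) (g := g) (τ := τ) y
    have := Real.log_le_log (by positivity) (show ρ ^ 2 ≤ sg d g τ y + ρ ^ 2 by linarith)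
    have := mul_le_mul_of_nonneg_left (sg_le (d := d) (g := g) hτ y) (inv_pos.2 Z0).le
    refine mul_le_mul_of_nonneg_left ?_ (by positivity)
    rw [div_eq_inv_mul]
    linarith
  have hd := H.pos y hy
  have an := H.ang y hy
  obtain ⟨_, _, k, -⟩ := H.jet y hy
  rcases le_or_gt ‖g y‖ (τ * (d y * ‖deriv g y‖)) with h | h
  · have h0 := (H.loc C1).ne' ⟨hy, hG⟩ h
    have n0 := norm_pos_iff.2 h0
    set t := ‖g y‖ / (d y * ‖deriv g y‖) with ht
    have t0 : 0 ≤ t := by positivity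
    have t1 : t ≤ τ := by rw [ht, div_le_iff₀ (by positivity)]; exact h
    obtain ⟨b, a, γ, j, g1, g2, j1, j2⟩ := (H.loc C1).ss_jet ⟨hy, hG⟩ h0 ht (by
      nlinarith [mul_le_mul_of_nonneg_left (pow_le_pow_left₀ t0 t1 2) (zero_le_one.trans C1)])
    have st : ss d g y = t ^ 2 := ss_eq y
    have J := (((j.smul Z⁻¹).sub ((j.add_const (ρ ^ 2)).log (by rw [st]; positivity))).add_const
      (Real.log Z - τ ^ 2 / Z)).smul (4 * ρ ^ 2)
    refine (J.uj.touch (W := fun y => β (sg d g τ y)) ?_ (by rw [sg_in hτ h])).mono ?_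
    · filter_upwards [an.deriv.continuousAt.eventually_ne h0, H.opn.mem_nhds hy] with x hx hS
      rcases le_total ‖g x‖ (τ * (d x * ‖deriv g x‖)) with e | e
      · rw [sg_in hτ e]
      · have := H.pos x hS
        have := norm_pos_iff.2 hx
        rw [sg_out hτ (norm_pos_iff.1 (lt_of_lt_of_le (by positivity) e)) (by positivity) e, βz]
        exact β0 _ (by rw [ss_eq]; positivity)
    · rw [st, le_div_iff₀ (by positivity)]
      refine num2 K1 hτ h1 ρ0 ρ1 ρ2 t0 t1 g1 g2 j1 j2 (by positivity) ?_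
      split_ifs with h
      · exact .inr ⟨rfl, by rw [ht, div_le_iff₀ (by positivity)]; exact h⟩
      · exact .inl rfl
  · refine ((UJ.const 0 y).congr ?_).mono ?_
    · filter_upwards [(continuousAt_const.mul (k.continuousAt.mul
        an.deriv.continuousAt.norm)).eventually_lt an.continuousAt.norm h, H.opn.mem_nhds hy]
        with x hx hS
      have := H.pos x hS
      have hx : τ * (d x * ‖deriv g x‖) < ‖g x‖ := hx
      rw [sg_out hτ (norm_pos_iff.1 (lt_of_le_of_lt (by positivity) hx)) this.le hx.le, βz]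
    · beta_reduce
      rw [if_neg fun e : ‖g y‖ ≤ ρ * _ => h.not_ge (e.trans (by gcongr)), sub_zero]
      positivity

end Cq

end Vale.Agent.P097K.OP
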