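import Vale.Agent.P097K.OP1

/-!
# P097K: the barrier built from the jets of `Q` with general weights, and the assembly
-/

set_option linter.all false

open Filter Topology
open scoped ComplexConjugate
open Vale.Agent.P097C Vale.Agent.P097C.OC

namespace Vale.Agent.P097K.OP

variable {S : Set ℂ} {d : ℂ → ℝ} {g Q F : ℂ → ℂ} {K C τ : ℝ} {y : ℂ}

lemma num4 {x a w L : ℕ → ℝ} (x0 : ∀ j, 0 ≤ x j) (w0 : ∀ j, 0 ≤ w j) (L1 : ∀ j, 1 ≤ L j)
    (w1 : ∀ j, w (j + 1) * L (j + 1) ≤ w j) (w2 : w 0 * L 0 ≤ 1 / 2) (k : ℕ)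
    (h : ∀ j, 2 * x (j + 1) - L j * x j ≤ a j) :
    ∑ j ∈ Finset.range (k + 1), w j * x j ≤ x 0 + ∑ j ∈ Finset.range k, w j * a j := by
  suffices H : ∑ j ∈ Finset.range k, w j * x j + (w k + w k * L k) * x k ≤
      x 0 + ∑ j ∈ Finset.range k, w j * a j by
    rw [Finset.sum_range_succ]
    linarith [mul_nonneg (mul_nonneg (w0 k) (zero_le_one.trans (L1 k))) (x0 k)]
  induction k with
  | zero =>
    have := le_mul_of_one_le_right (w0 0) (L1 0)
    simpa using mul_le_of_le_one_left (x0 0) (show w 0 + w 0 * L 0 ≤ 1 by linarith)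
  | succ k ih =>
    have e1 := mul_le_mul_of_nonneg_left (h k) (w0 k)
    have e2 := le_mul_of_one_le_right (w0 (k + 1)) (L1 (k + 1))
    have e3 := mul_le_mul_of_nonneg_right
      (show w (k + 1) + w (k + 1) * L (k + 1) ≤ 2 * w k by linarith [w1 k]) (x0 (k + 1))
    rw [Finset.sum_range_succ, Finset.sum_range_succ]
    linarith

namespace Cq

variable (H : Cq S d g Q K)
include H

open Classical in
/-- the barrier made of the jets of `Q` -/
lemma bar3 (C1 : 1 ≤ C) (hτ : 0 < τ) (h1 : 40 * K * τ ≤ 1) {w : ℕ → ℝ} (w0 : ∀ j, 0 ≤ w j)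
    (w1 : ∀ j, w (j + 1) * (3 * ((2 * (j + 1) + 4 : ℕ) * K) ^ 2) ≤ w j)
    (w2 : w 0 * (3 * ((2 * 0 + 4 : ℕ) * K) ^ 2) ≤ 1 / 2) {Λ r R : ℝ} (hΛ : 1 ≤ Λ)
    (hr : r ≤ Real.exp (-(2 * Λ))) (hR : Real.exp (2 * Λ) ≤ R) (k : ℕ) :
    Br S d (fun y => ‖Q y‖ * d y ^ 2 < C ∧ ∑ j ∈ Finset.range k,
      w j * (d y ^ (2 * j + 4) * ‖iteratedDeriv j Q y‖ ^ 2) < 1) 3
      fun y => (3 * (28 * (C + 3) ^ 2 + 132 * K ^ 2 + 8) *
        if r ≤ St d g τ (6 * K ^ 2) y ∧ St d g τ (6 * K ^ 2) y ≤ R then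
          min ((d y * ‖deriv g y‖ / ‖g y‖) ^ 2) 1 else 0) -
      if g y ≠ 0 ∧ |Real.log ‖g y‖| ≤ Λ ∧ d y * ‖deriv g y‖ ≤ ‖g y‖ then
        ∑ j ∈ Finset.range (k + 1), w j * (d y ^ (2 * j + 4) * ‖iteratedDeriv j Q y‖ ^ 2) else 0 := by
  have K1 := H.K1
  let x : ℕ → ℂ → ℝ := fun j y => d y ^ (2 * j + 4) * ‖iteratedDeriv j Q y‖ ^ 2
  let s : ℂ → ℝ := fun y => d y ^ 2 * ‖deriv g y / g y‖ ^ 2
  let T : ℂ → ℝ := fun y => ∑ j ∈ Finset.range k, w j * x j y
  let v : ℂ → ℝ := fun y => (Λ⁻¹ * Real.log ‖g y‖) ^ 2 + (s y ^ 2 - s y) - min (T y) 1 + -1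
  let B : Set ℂ := {y | (d y * ‖deriv g y‖) ^ 2 < 3 * ‖g y‖ ^ 2}
  have se : ∀ y, s y = (d y * ‖deriv g y‖) ^ 2 / ‖g y‖ ^ 2 := fun y => by
    simp only [s, norm_div]
    ring
  have s0 : ∀ y, 0 ≤ s y := fun y => by positivity
  have gB : ∀ y ∈ B, g y ≠ 0 := fun y hy e => by
    have : (d y * ‖deriv g y‖) ^ 2 < 3 * ‖g y‖ ^ 2 := hy
    rw [e, norm_zero] at this
    linarith [sq_nonneg (d y * ‖deriv g y‖)]
  have x0 : ∀ y ∈ S, ∀ j, 0 ≤ x j y := fun y hy j => by have := H.pos y hy; positivity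
  have T0 : ∀ y ∈ S, 0 ≤ min (T y) 1 := fun y hy =>
    le_min (Finset.sum_nonneg fun j _ => mul_nonneg (w0 j) (x0 y hy j)) zero_le_one
  have T1 : ∀ y ∈ S, min (T y) 1 ≤ 1 := fun y hy => min_le_right _ _
  have aQ : ∀ j, ∀ y ∈ S, AnalyticAt ℂ (iteratedDeriv j Q) y := fun j y hy => by
    rw [iteratedDeriv_eq_iterate]
    exact (H.anQ y hy).iterated_deriv j
  have cB : ∀ y ∈ S, ∀ c : ℝ, ContinuousAt (fun y => (d y * ‖deriv g y‖) ^ 2) y ∧
      ContinuousAt (fun y => c * ‖g y‖ ^ 2) y := fun y hy c =>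
    ⟨(H.cD.continuousAt (H.opn.mem_nhds hy)).pow 2,
      continuousAt_const.mul ((H.ang y hy).continuousAt.norm.pow 2)⟩
  have cT : ∀ y ∈ S, ContinuousAt T y := fun y hy => tendsto_finset_sum _ fun j _ =>
    continuousAt_const.mul (((H.cd.continuousAt (H.opn.mem_nhds hy)).pow _).mul
      ((aQ j y hy).continuousAt.norm.pow 2))
  have cv : ∀ y ∈ S, y ∈ B → ContinuousAt v y := fun y hy hB => by
    have cs : ContinuousAt s y := ((H.cd.continuousAt (H.opn.mem_nhds hy)).pow 2).mul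
      (((H.ang y hy).deriv.continuousAt.div (H.ang y hy).continuousAt (gB y hB)).norm.pow 2)
    exact ((((continuousAt_const.mul ((H.ang y hy).continuousAt.norm.log
      (norm_ne_zero_iff.2 (gB y hB)))).pow 2).add ((cs.pow 2).sub cs)).sub
      (Tendsto.min (cT y hy) tendsto_const_nhds)).add continuousAt_const
  have jv : ∀ y ∈ S, ‖Q y‖ * d y ^ 2 < C → T y < 1 → y ∈ B → ∃ b a, EJ v y b a ∧ d y ^ 2 * a ≤
      (28 * (C + 3) ^ 2 + 132 * K ^ 2 + 8) * s y - ∑ j ∈ Finset.range (k + 1), w j * x j y := by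
    intro y hy hG hT hB
    have hd := H.pos y hy
    have g0 := gB y hB
    have n0 := norm_pos_iff.2 g0
    have an := H.ang y hy
    have s3 : s y ≤ 3 := by
      rw [se, div_le_iff₀ (by positivity)]
      exact le_of_lt hB
    obtain ⟨b, a, j, j1, j2, j3⟩ := (H.loc C1).tj ⟨hy, hG⟩ le_rfl (an.deriv.div an g0)
    choose b' a' k1 k2 _ using fun j => (H.loc C1).tj ⟨hy, hG⟩ (show 2 ≤ 2 * j + 4 by omega) (aQ j y hy)
    have eh : deriv (deriv g / g) y = Q y - (deriv g y / g y) ^ 2 := by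
      rw [deriv_div an.deriv.differentiableAt an.differentiableAt g0, H.ode y hy]
      field_simp
    refine ⟨_, _, (((((EJ.logNorm an g0).smul Λ⁻¹).sq.add (j.sq.sub j)).sub
      (EJ.sum (Finset.range k) fun j _ => (k1 j).smul (w j))).add_const (-1)).congr
      (((cT y hy).eventually_lt continuousAt_const hT).mono fun z hz => by
        simp only [v, min_eq_left (le_of_lt hz)]
        rfl), ?_⟩
    have e1 := num4 (x0 y hy) w0 (L := fun j => 3 * ((2 * j + 4 : ℕ) * K) ^ 2) (fun j => by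
      have : (1 : ℝ) ≤ (2 * j + 4 : ℕ) := Nat.one_le_cast.2 (by omega)
      have := one_le_pow₀ (one_le_mul_of_one_le_of_one_le this K1) (n := 2)
      linarith) w1 w2 k (a := fun j => d y ^ 2 * a' j) fun j => by
        refine le_of_eq_of_le ?_ (k2 j)
        rw [← iteratedDeriv_succ]
        rfl
    have q1 : d y ^ (2 + 2) * ‖deriv (deriv g / g) y‖ ^ 2 ≤ (C + 3) ^ 2 := by
      rw [eh, pow_add, ← sq, ← mul_pow]
      refine pow_le_pow_left₀ (by positivity) ((mul_le_mul_of_nonneg_left (norm_sub_le _ _)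
        (by positivity)).trans ?_) 2
      rw [norm_pow]
      linarith [hG, show d y ^ 2 * ‖deriv g y / g y‖ ^ 2 ≤ 3 from s3]
    have q2 : x 0 y - 2 * s y ^ 2 ≤ 2 * (d y ^ (2 + 2) * ‖deriv (deriv g / g) y‖ ^ 2) := by
      have : ‖Q y‖ ≤ ‖deriv (deriv g / g) y‖ + ‖deriv g y / g y‖ ^ 2 := by
        rw [eh, ← norm_pow]
        exact norm_le_norm_sub_add _ _
      have := pow_le_pow_left₀ (norm_nonneg _) this 2
      have : ‖Q y‖ ^ 2 ≤ 2 * ‖deriv (deriv g / g) y‖ ^ 2 + 2 * (‖deriv g y / g y‖ ^ 2) ^ 2 := by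
        linarith [sq_nonneg (‖deriv (deriv g / g) y‖ - ‖deriv g y / g y‖ ^ 2)]
      have := mul_le_mul_of_nonneg_left this (show 0 ≤ d y ^ 4 by positivity)
      simp only [x, s, iteratedDeriv_zero]
      linarith
    have e2 := num5 (A := ∑ j ∈ Finset.range k, w j * (d y ^ 2 * a' j)) (s0 y) s3
      (by positivity) q1 q2 (pow_le_one₀ (by positivity) (inv_le_one_of_one_le₀ hΛ) (n := 2))
      j1 j2 j3
    refine le_trans (le_of_eq ?_) (e2.trans (sub_le_sub_left e1 _))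
    have : ∑ j ∈ Finset.range k, w j * (d y ^ 2 * a' j) =
        d y ^ 2 * ∑ j ∈ Finset.range k, w j * a' j := by
      rw [Finset.mul_sum]
      exact Finset.sum_congr rfl fun _ _ => by ring
    rw [this, norm_mul, Complex.norm_real, Real.norm_of_nonneg (by positivity)]
    simp only [s, Pi.div_apply]
    ring
  set κ := 28 * (C + 3) ^ 2 + 132 * K ^ 2 + 8
  have κ0 : 0 ≤ κ := by positivity
  refine ⟨fun y => 3 + paste B (fun _ => 0) v y, continuousOn_const.add (paste_cont continuousOn_const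
      (fun y hy => ?_) fun y hy => ?_), fun y hy => ⟨?_, add_le_of_nonpos_right (paste_le _ _ _ _)⟩,
    fun y hy hG => ?_⟩
  · exact (cv y hy.1 hy.2).continuousWithinAt
  · by_cases hB : y ∈ B
    · exact .inl (mem_nhdsWithin_of_mem_nhds ((cB y hy 3).1.eventually_lt (cB y hy 3).2 hB))
    · have hB : 3 * ‖g y‖ ^ 2 ≤ (d y * ‖deriv g y‖) ^ 2 := not_lt.1 hB
      have : 2 * ‖g y‖ ^ 2 < (d y * ‖deriv g y‖) ^ 2 := by
        have := H.pos y hy
        rcases H.nd y hy with h | h <;> have := norm_pos_iff.2 h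
        · linarith [show 0 < ‖g y‖ ^ 2 by positivity]
        · linarith [show 0 < (d y * ‖deriv g y‖) ^ 2 by positivity]
      refine .inr ?_
      filter_upwards [mem_nhdsWithin_of_mem_nhds ((cB y hy 2).2.eventually_lt (cB y hy 2).1 this),
        self_mem_nhdsWithin] with z hz hS hB
      have := norm_pos_iff.2 (gB z hB)
      have : 2 ≤ s z := by
        rw [se, le_div_iff₀ (by positivity)]
        exact le_of_lt hz
      have := T1 z hS
      have := sq_nonneg (Λ⁻¹ * Real.log ‖g z‖)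
      show 0 ≤ v z
      simp only [v]
      nlinarith
  · have : -3 ≤ paste B (fun _ => 0) v y := by
      by_cases hB : y ∈ B
      · rw [paste_in hB]
        refine le_min (by norm_num) ?_
        have := T1 y hy
        have := sq_nonneg (Λ⁻¹ * Real.log ‖g y‖)
        have := sq_nonneg (s y - 1 / 2)
        simp only [v]
        linarith
      · rw [paste_out hB]
        norm_num
    linarith
  have hd := H.pos y hy
  beta_reduce
  refine ((UJ.const 3 y).add (a' := _ / d y ^ 2) ?_).mono (zero_add _).le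
  by_cases hz : y ∈ B ∧ v y ≤ 0
  · obtain ⟨b, a, j, j1⟩ := jv y hy hG.1 hG.2 hz.1
    refine (j.uj.touch (Eventually.mono ((cB y hy 3).1.eventually_lt (cB y hy 3).2 hz.1)
      fun x hx => (paste_in hx).trans_le (min_le_right _ _))
      ((paste_in hz.1).trans (min_eq_right hz.2))).mono ?_
    rw [le_div_iff₀' (by positivity)]
    have g0 := norm_pos_iff.2 (gB y hz.1)
    have s3 : s y ≤ 3 := by
      rw [se, div_le_iff₀ (by positivity)]
      exact le_of_lt hz.1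
    have w1 : |Real.log ‖g y‖| ≤ 2 * Λ := by
      have h := hz.2
      have := T1 y hy
      have := sq_nonneg (s y - 1 / 2)
      have : (Λ⁻¹ * Real.log ‖g y‖) ^ 2 ≤ 2 ^ 2 := by
        simp only [v] at h
        linarith
      have := abs_le_of_sq_le_sq this zero_le_two
      rwa [abs_mul, abs_of_pos (by positivity), inv_mul_le_iff₀' (by positivity)] at this
    have w2 : St d g τ (6 * K ^ 2) y ≤ ‖g y‖ := (H.St_le hy hτ h1).trans (max_le le_rfl (by
      have : d y * ‖deriv g y‖ ≤ 2 * ‖g y‖ := by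
        refine (sq_le_sq₀ (by positivity) (by positivity)).1 ?_
        have : (d y * ‖deriv g y‖) ^ 2 < 3 * ‖g y‖ ^ 2 := hz.1
        linarith [sq_nonneg ‖g y‖]
      have : τ ≤ 1 / 2 := by nlinarith
      nlinarith))
    rw [if_pos ⟨hr.trans (((Real.le_log_iff_exp_le g0).1 (abs_le.1 w1).1).trans (le_max_left _ _)),
      w2.trans (((Real.log_le_iff_le_exp g0).1 (abs_le.1 w1).2).trans hR)⟩, div_pow, ← se]
    refine j1.trans (sub_le_sub ?_ ?_)
    · rw [mul_comm 3, mul_assoc]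
      refine mul_le_mul_of_nonneg_left ?_ κ0
      rw [mul_min_of_nonneg _ _ zero_le_three]
      exact le_min (by linarith [s0 y]) (by linarith)
    · split_ifs
      exacts [le_rfl, Finset.sum_nonneg fun j _ => mul_nonneg (w0 j) (x0 y hy j)]
  · refine ((UJ.const 0 y).touch (.of_forall (paste_le B _ v))
      (paste_eq fun h1 => (not_le.1 fun h2 => hz ⟨h1, h2⟩).le)).mono ?_
    suffices h : ¬(g y ≠ 0 ∧ |Real.log ‖g y‖| ≤ Λ ∧ d y * ‖deriv g y‖ ≤ ‖g y‖) by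
      rw [if_neg h, sub_zero]
      split_ifs <;> positivity
    rintro ⟨g0, w1, w2⟩
    have g0 := norm_pos_iff.2 g0
    have w3 := pow_le_pow_left₀ (by positivity) w2 2
    refine hz ⟨show (d y * ‖deriv g y‖) ^ 2 < 3 * ‖g y‖ ^ 2 by
      linarith [show 0 < ‖g y‖ ^ 2 by positivity], ?_⟩
    have s1 : s y ≤ 1 := by
      rw [se, div_le_one (by positivity)]
      exact w3
    have : (Λ⁻¹ * Real.log ‖g y‖) ^ 2 ≤ 1 := by
      rw [sq_le_one_iff_abs_le_one, abs_mul, abs_of_pos (by positivity),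
        inv_mul_le_iff₀' (by positivity), one_mul]
      exact w1
    have := T0 y hy
    have := mul_le_of_le_one_right (s0 y) s1
    simp only [v]
    linarith

open Classical in
/-- **occupation of the moderate band**, polynomial size -/
theorem occ0 {A ε : ℝ} (hA : 1 ≤ A) (hε : 0 < ε) : ∃ B, 1 ≤ B ∧ ∀ (C D c : ℝ) (w : ℕ → ℝ) (k : ℕ)
    (G P : ℂ → Prop), 1 ≤ C → C ≤ D → 0 < c → c⁻¹ ≤ D ^ 4 → (∀ j, 0 ≤ w j) →
    (∀ j, w (j + 1) * (3 * ((2 * (j + 1) + 4 : ℕ) * K) ^ 2) ≤ w j) →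
    w 0 * (3 * ((2 * 0 + 4 : ℕ) * K) ^ 2) ≤ 1 / 2 →
    (∀ y ∈ S, G y → ‖Q y‖ * d y ^ 2 < C ∧ ∑ j ∈ Finset.range k,
      w j * (d y ^ (2 * j + 4) * ‖iteratedDeriv j Q y‖ ^ 2) < 1) →
    (∀ y ∈ S, G y → P y → ‖g y‖ ≤ A → d y * ‖deriv g y‖ ≤ ‖g y‖ →
      c ≤ ∑ j ∈ Finset.range (k + 1), w j * (d y ^ (2 * j + 4) * ‖iteratedDeriv j Q y‖ ^ 2)) →
    Br S d G (B * D ^ 14) fun y => ε - if (A⁻¹ ≤ ‖g y‖ ∧ ‖g y‖ ≤ A) ∧ P y then 1 else 0 := by
  have K1 := H.K1
  set Λ := Real.log A + 1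
  have l0 := Real.log_nonneg hA
  set R := max (Real.exp (2 * Λ)) (A * (1 + 38 / (ε / 2)) + A)
  have R0 : 0 < R := lt_max_of_lt_left (Real.exp_pos _)
  set q := Real.exp (-(2 * Λ)) / R
  have q0 : 0 < q := div_pos (Real.exp_pos _) R0
  set κ₀ := 3 * (28 * 16 + 132 * K ^ 2 + 8) + 1
  refine ⟨8 * κ₀ / q * (1 + (8 * κ₀ * (82 * K + 5) ^ 2 + 1) / (ε / 2 * q)) + 8 + 3,
    by have : 0 ≤ 8 * κ₀ / q * (1 + (8 * κ₀ * (82 * K + 5) ^ 2 + 1) / (ε / 2 * q)) := by positivity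
       linarith, fun C D c w k G P C1 CD c0 cD w0 w1 w2 hG hn => ?_⟩
  set τ := 1 / (40 * K + 2 * C) with eτ
  have hτ : 0 < τ := by positivity
  have h1 : 40 * K * τ ≤ 1 := by
    rw [eτ, mul_one_div, div_le_one (by positivity)]
    linarith
  have h2 : 2 * C * τ ^ 2 ≤ 1 := by
    have : 2 * C * τ ≤ 1 := by
      rw [eτ, mul_one_div, div_le_one (by positivity)]
      linarith
    have : τ ≤ 1 := by nlinarith
    nlinarith
  obtain ⟨ρ, ρ0, ρ1, b2⟩ := H.bar2 C1 hτ h1 h2 (half_pos hε)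
  have b3 := H.bar3 C1 hτ h1 w0 w1 w2 (Λ := Λ) (R := R) (le_add_of_nonneg_left l0) le_rfl
    (le_max_left _ _) k
  set κ := 3 * (28 * (C + 3) ^ 2 + 132 * K ^ 2 + 8)
  have κ0 : 0 ≤ κ := by positivity
  have b1 := H.bar1 C1 hτ h1 h2 (half_pos hε) (κ := c⁻¹ * κ + 1) (by positivity)
    (Real.exp_pos (-(2 * Λ))) R0
  have D1 : 1 ≤ D := C1.trans CD
  have pw : ∀ m n : ℕ, m ≤ n → D ^ m ≤ D ^ n := fun m n => pow_le_pow_right₀ D1
  have u1 : c⁻¹ * κ + 1 ≤ κ₀ * D ^ 6 := by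
    have : (C + 3) ^ 2 ≤ (4 * D) ^ 2 := pow_le_pow_left₀ (by positivity) (by linarith) 2
    have e := one_le_pow₀ D1 (n := 2)
    have : κ ≤ (κ₀ - 1) * D ^ 2 := by
      have := mul_le_mul_of_nonneg_left e (sq_nonneg K)
      simp only [κ, κ₀]
      linarith
    have := mul_le_mul cD this κ0 (by positivity)
    have := one_le_pow₀ D1 (n := 6)
    linarith
  have u2 : 2 / τ + 2 * K + C ≤ (82 * K + 5) * D := by
    rw [eτ, div_div_eq_mul_div, div_one]
    nlinarith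
  have u3 : 8 * (c⁻¹ * κ + 1) / q *
      (1 + (8 * (c⁻¹ * κ + 1) * (2 / τ + 2 * K + C) ^ 2 + 1) / (ε / 2 * q)) ≤
      8 * κ₀ / q * (1 + (8 * κ₀ * (82 * K + 5) ^ 2 + 1) / (ε / 2 * q)) * D ^ 14 :=
    calc _ ≤ 8 * (κ₀ * D ^ 6) / q *
          (D ^ 8 + (8 * (κ₀ * D ^ 6) * ((82 * K + 5) * D) ^ 2 + D ^ 8) / (ε / 2 * q)) := by
          gcongr <;> exact one_le_pow₀ D1
      _ = _ := by ring
  refine (((b1.mono u3 (fun y hy e => (hG y hy e).1) fun _ _ _ => le_rfl).add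
    (b2.mono le_rfl (fun y hy e => (hG y hy e).1) fun _ _ _ => le_rfl)).add
    ((b3.mono le_rfl hG fun _ _ _ => le_rfl).smul (k := c⁻¹) (by positivity))).mono
    (by linarith [pw 4 14 (by norm_num), pw 0 14 (by norm_num), pow_zero D]) (fun _ _ => id)
    fun y hy gy => ?_
  have hd := H.pos y hy
  set u := if Real.exp (-(2 * Λ)) ≤ St d g τ (6 * K ^ 2) y ∧ St d g τ (6 * K ^ 2) y ≤ R then
    min ((d y * ‖deriv g y‖ / ‖g y‖) ^ 2) 1 else 0 with hu
  set i := if ‖g y‖ ≤ ρ * (d y * ‖deriv g y‖) then (1 : ℝ) else 0 with hi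
  set σ := if g y ≠ 0 ∧ |Real.log ‖g y‖| ≤ Λ ∧ d y * ‖deriv g y‖ ≤ ‖g y‖ then
    ∑ j ∈ Finset.range (k + 1), w j * (d y ^ (2 * j + 4) * ‖iteratedDeriv j Q y‖ ^ 2) else 0
    with hσ
  have u0 : 0 ≤ u := by rw [hu]; split_ifs <;> positivity
  have i0 : 0 ≤ i := by rw [hi]; split_ifs <;> positivity
  have σ0 : 0 ≤ σ / c := by
    rw [hσ]
    split_ifs
    · exact div_nonneg (Finset.sum_nonneg fun j _ => mul_nonneg (w0 j) (by positivity)) c0.le
    · positivity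
  have e : c⁻¹ * (κ * u - σ) = c⁻¹ * κ * u - σ / c := by field_simp
  rw [e]
  suffices h : (A⁻¹ ≤ ‖g y‖ ∧ ‖g y‖ ≤ A) ∧ P y → 1 ≤ u ∨ 1 ≤ i ∨ 1 ≤ σ / c by
    split_ifs with h'
    · rcases h h' with h | h | h <;> linarith
    · linarith
  rintro ⟨⟨a1, a2⟩, a3⟩
  have g0 : 0 < ‖g y‖ := (inv_pos.2 (by positivity)).trans_le a1
  have lg : |Real.log ‖g y‖| ≤ Λ := by
    have u1 := Real.log_le_log (by positivity) a1
    have u2 := Real.log_le_log g0 a2
    rw [Real.log_inv] at u1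
    exact abs_le.2 ⟨by simp only [Λ]; linarith, by simp only [Λ]; linarith⟩
  rcases le_or_gt (d y * ‖deriv g y‖) ‖g y‖ with h | h
  · refine .inr (.inr ?_)
    rw [hσ, if_pos ⟨norm_pos_iff.1 g0, lg, h⟩, one_le_div c0]
    exact hn y hy gy a3 a2 h
  rcases le_or_gt (St d g τ (6 * K ^ 2) y) R with h' | h'
  · refine .inl ?_
    rw [hu, if_pos ⟨((Real.le_log_iff_exp_le g0).1 (by
      linarith [(abs_le.1 lg).1, show 0 ≤ Λ by positivity])).trans (le_max_left _ _), h'⟩]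
    exact le_min (one_le_pow₀ ((one_le_div g0).2 h.le)) le_rfl
  · refine .inr (.inl ?_)
    have v := ((le_max_right _ _).trans_lt h').trans_le (H.St_le hy hτ h1)
    have p : 0 ≤ A * (1 + 38 / (ε / 2)) := by positivity
    have v : A * (1 + 38 / (ε / 2)) < τ * (d y * ‖deriv g y‖) := by
      rcases lt_max_iff.1 v with v | v <;> linarith
    have v := v.le.trans (mul_le_mul_of_nonneg_right ρ1 (by positivity))
    rw [hi, if_pos (a2.trans (le_of_mul_le_mul_left (a := 1 + 38 / (ε / 2)) (by linarith)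
      (by positivity)))]

end Cq

end Vale.Agent.P097K.OP
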