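import Vale.Agent.P097K.OP2
import Vale.Agent.P097C.Ncp
import Vale.Agent.P097C.Dd

/-!
# P097K: occupation of the moderate band with pointwise hypotheses and polynomial size
-/

set_option linter.all false

open Set Metric Filter Topology
open Vale.Agent.P097C

namespace Vale.Agent.P097K

/-- `Q` is bounded near `y` -/
def GQ (r : ℝ) (Q : ℂ → ℂ) (D : ℝ) (y : ℂ) : Prop :=
  ∀ z ∈ ball y ((r - |y.im|) / 2), ‖Q z‖ * (r - |y.im|) ^ 2 ≤ D

/-- a calm disc -/
def Calm (r : ℝ) (g Q : ℂ → ℂ) (e : ℝ) (y : ℂ) : Prop :=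
  ∀ z ∈ ball y ((r - |y.im|) / 8), ‖Q z‖ * (r - |y.im|) ^ 2 ≤ e ∧ ‖g z‖ * (r - |y.im|) ≤ e

namespace OP

variable {r D e : ℝ} {g Q : ℂ → ℂ} {y : ℂ}

lemma cauP (hQ : AnalyticOnNhd ℂ Q (St r)) (hy : y ∈ St r) (h : GQ r Q D y) (j : ℕ) :
    (r - |y.im|) ^ (j + 2) * ‖iteratedDeriv j Q y‖ ≤ j.factorial * 3 ^ j * D := by
  set t := r - |y.im| with ht
  have t0 : 0 < t := sub_pos.2 hy
  have hd : DiffContOnCl ℂ Q (ball y (t / 3)) := by
    refine DifferentiableOn.diffContOnCl ?_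
    rw [closure_ball _ (by positivity)]
    exact fun z hz => (hQ z ((abs_im_le_of_mem hz).trans_lt
      (by linarith))).differentiableAt.differentiableWithinAt
  have := Complex.norm_iteratedDeriv_le_of_forall_mem_sphere_norm_le j (by positivity) hd
    (C := D / t ^ 2) fun z hz => (le_div_iff₀ (by positivity)).2
      (h z (sphere_subset_ball (by linarith) hz))
  refine (mul_le_mul_of_nonneg_left this (by positivity)).trans_eq ?_
  rw [div_pow]
  field_simp
  ring

/-- the square roots of the weights -/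
noncomputable def sw (j : ℕ) : ℝ := 2 / (4 ^ j * (j + 2).factorial)

lemma sw_pos (j : ℕ) : 0 < sw j := by unfold sw; positivity

lemma sw_succ (j : ℕ) : sw (j + 1) * (4 * (j + 3)) = sw j := by
  unfold sw
  rw [show j + 1 + 2 = (j + 2) + 1 from rfl, Nat.factorial_succ (j + 2)]
  push_cast
  field_simp
  ring

lemma fac (j : ℕ) : ((j + 2).factorial : ℝ) = (j + 2) * (j + 1) * j.factorial := by
  rw [Nat.factorial_succ, Nat.factorial_succ]
  push_cast
  ring

lemma poly (j : ℕ) : ((j : ℝ) + 2) * (j + 1) ≤ 6 * (3 / 2) ^ j := by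
  rcases lt_or_ge j 3 with h | h
  · interval_cases j <;> norm_num
  induction j, h using Nat.le_induction with
  | base => norm_num
  | succ j h ih =>
    have : (3 : ℝ) ≤ j := by exact_mod_cast h
    push_cast
    rw [pow_succ]
    nlinarith

lemma small (hQ : AnalyticOnNhd ℂ Q (St r)) (hy : y ∈ St r) (h : GQ r Q D y) {k : ℕ} {u : ℝ}
    (he : 0 ≤ e) (hk : D * (1 / 2) ^ k ≤ e / 6) (hu : 9 / 10 * (r - |y.im|) ≤ u)
    (hj : ∀ j ≤ k, sw j * (u ^ (j + 2) * ‖iteratedDeriv j Q y‖) ≤ e / 24) :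
    ∀ z ∈ ball y ((r - |y.im|) / 8), ‖Q z‖ * (r - |y.im|) ^ 2 ≤ e := by
  intro z hz
  have hc := cauP hQ hy h
  set t := r - |y.im| with ht
  have t0 : 0 < t := sub_pos.2 hy
  have D0 : 0 ≤ D := le_trans (by positivity) (h y (mem_ball_self (by positivity)))
  have hd : DifferentiableOn ℂ Q (ball y (t / 8)) := fun x hx =>
    (hQ x ((abs_im_le_of_mem (ball_subset_closedBall hx)).trans_lt
      (by linarith))).differentiableAt.differentiableWithinAt
  have hs := Complex.hasSum_taylorSeries_on_ball hd hz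
  have hb : ∀ j : ℕ, ‖(j.factorial : ℂ)⁻¹ • (z - y) ^ j • iteratedDeriv j Q y‖ ≤
      e / 6 / t ^ 2 * (5 / 6) ^ j := by
    intro j
    have hf : (0 : ℝ) < j.factorial := by exact_mod_cast j.factorial_pos
    have h1 : ‖z - y‖ ^ j ≤ (t / 8) ^ j :=
      pow_le_pow_left₀ (norm_nonneg _) (mem_ball_iff_norm.1 hz).le j
    rw [norm_smul, norm_smul, norm_inv, norm_pow, Complex.norm_natCast]
    refine (mul_le_mul_of_nonneg_left (mul_le_mul_of_nonneg_right h1 (norm_nonneg _))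
      (by positivity)).trans ?_
    have h2 : (j.factorial : ℝ)⁻¹ * ((t / 8) ^ j * ‖iteratedDeriv j Q y‖) =
        (t ^ (j + 2) * ‖iteratedDeriv j Q y‖ / (j.factorial * 8 ^ j)) / t ^ 2 := by
      rw [div_pow]
      field_simp
      ring
    rw [h2, div_mul_eq_mul_div]
    refine div_le_div_of_nonneg_right ?_ (by positivity)
    rw [div_le_iff₀ (by positivity)]
    by_cases hjk : j ≤ k
    · have a1 := hj j hjk
      have a2 : (9 / 10 * t) ^ (j + 2) ≤ u ^ (j + 2) := pow_le_pow_left₀ (by positivity) hu _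
      have a3 := (mul_le_mul_of_nonneg_left (mul_le_mul_of_nonneg_right a2
        (norm_nonneg (iteratedDeriv j Q y))) (sw_pos j).le).trans a1
      rw [sw, div_mul_eq_mul_div, div_le_iff₀ (by positivity), fac, mul_pow, pow_add (9 / 10 : ℝ)] at a3
      have a4 : e / 24 * (4 ^ j * ((j + 2) * (j + 1) * j.factorial)) ≤
          e / 24 * (4 ^ j * (6 * (3 / 2) ^ j * j.factorial)) := by
        have := poly j
        gcongr e / 24 * (4 ^ j * (?_ * j.factorial))
      have a5 : (4 : ℝ) ^ j * (3 / 2) ^ j = (9 / 10) ^ j * ((5 / 6) ^ j * 8 ^ j) := by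
        rw [← mul_pow, ← mul_pow, ← mul_pow]
        norm_num
      have a6 : 0 ≤ e * ((5 / 6) ^ j * 8 ^ j * j.factorial) := by positivity
      refine le_of_mul_le_mul_left (a := (9 / 10 : ℝ) ^ j) ?_ (by positivity)
      have a7 := mul_nonneg (show (0 : ℝ) ≤ (9 / 10) ^ j by positivity) a6
      have a8 := congrArg (· * (e * j.factorial)) a5
      linarith
    · refine (hc j).trans ?_
      have h5 : (1 / 2 : ℝ) ^ j ≤ (1 / 2) ^ k :=
        pow_le_pow_of_le_one (by norm_num) (by norm_num) (by omega)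
      have h6 := (mul_le_mul_of_nonneg_left h5 D0).trans hk
      have h7 : (3 : ℝ) ^ j ≤ (1 / 2) ^ j * ((5 / 6) ^ j * 8 ^ j) := by
        rw [← mul_pow, ← mul_pow]
        exact pow_le_pow_left₀ (by norm_num) (by norm_num) j
      calc _ ≤ j.factorial * ((1 / 2) ^ j * ((5 / 6) ^ j * 8 ^ j)) * D := by gcongr
        _ = D * (1 / 2) ^ j * ((5 / 6) ^ j * (j.factorial * 8 ^ j)) := by ring
        _ ≤ e / 6 * ((5 / 6) ^ j * (j.factorial * 8 ^ j)) := by gcongr
        _ = _ := by ring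
  have h := hs.norm_le_of_bounded ((hasSum_geometric_of_lt_one (by norm_num)
    (by norm_num)).mul_left (e / 6 / t ^ 2)) hb
  rw [← le_div_iff₀ (by positivity)]
  refine h.trans_eq ?_
  ring

lemma cq (hr : 0 < r) (hg : AnalyticOnNhd ℂ g (St r)) (hQ : AnalyticOnNhd ℂ Q (St r))
    (ode : ∀ y ∈ St r, deriv (deriv g) y = Q y * g y) (nd : ∀ y ∈ St r, g y ≠ 0 ∨ deriv g y ≠ 0) :
    Cq (St r) (fun y => (2 * r)⁻¹ * dd r y) g Q 1 where
  opn := St_open r
  K1 := le_rfl
  pos := fun _ hy => mul_pos (by positivity) (dd_pos hy)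
  jet := fun y hy => by
    have hy : |y.im| < r := hy
    refine ⟨_, _, (dd_ej r y).smul _, ?_, ?_⟩
    · rw [norm_mul, Complex.norm_real, Real.norm_of_nonneg (by positivity), inv_mul_le_one₀
        (by positivity)]
      simpa using hy.le
    · rw [mul_neg, abs_neg, abs_of_pos (by positivity)]
      refine (mul_le_mul_of_nonneg_left (mul_le_mul_of_nonneg_left (dd_le r y) (by positivity))
        (by positivity)).trans ?_
      field_simp
      norm_num
  ang := hg
  anQ := hQ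
  ode := ode
  nd := nd

end OP

open OP in
/-- **OCC with pointwise hypotheses** -/
theorem occP {r : ℝ} {g Q : ℂ → ℂ} (hr : 0 < r) (hg : AnalyticOnNhd ℂ g (St r))
    (hQ : AnalyticOnNhd ℂ Q (St r)) (ode : ∀ y ∈ St r, deriv (deriv g) y = Q y * g y)
    (nd : ∀ y ∈ St r, g y ≠ 0 ∨ deriv g y ≠ 0) {A ε : ℝ} (hA : 1 ≤ A) (hε : 0 < ε) :
    ∃ B : ℝ, 1 ≤ B ∧ ∀ D : ℝ, 1 ≤ D → ∃ Ξ : ℂ → ℝ, Bar (St r) Ξ ∧ ∀ y ∈ St r, Ξ y ≤ B * D ^ 14 ∧
      (GQ r Q D y → UJ Ξ y (ε / dd r y ^ 2) ∧ (A⁻¹ ≤ ‖g y‖ → ‖g y‖ ≤ A → B * D * dd r y ≤ 1 →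
        ¬ Calm r g Q D⁻¹ y → UJ Ξ y ((ε - 1) / dd r y ^ 2))) := by
  classical
  obtain ⟨B, B1, H⟩ := (cq hr hg hQ ode nd).occ0 hA hε
  set B₀ := 3 * A / r + 5 / r ^ 2
  have B0 : 0 ≤ B₀ := by positivity
  have p1 : 0 ≤ (4 * r ^ 2)⁻¹ * (B * 16 ^ 14) := by positivity
  refine ⟨(4 * r ^ 2)⁻¹ * (B * 16 ^ 14) + B₀ + 1, by linarith, fun D D1 => ?_⟩
  obtain ⟨k, hk⟩ : ∃ k : ℕ, D * (1 / 2) ^ k ≤ D⁻¹ / 6 := by
    have := (tendsto_pow_atTop_nhds_zero_of_lt_one (r := (1 / 2 : ℝ)) (by norm_num)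
      (by norm_num)).const_mul D
    rw [mul_zero] at this
    exact (this.eventually_le_const (by positivity)).exists
  have tu : ∀ y ∈ St r, 0 < (2 * r)⁻¹ * dd r y ∧ (2 * r)⁻¹ * dd r y ≤ r - |y.im| := fun y hy =>
    ⟨mul_pos (by positivity) (dd_pos hy), (inv_mul_le_iff₀ (by positivity)).2 (d_upper hy)⟩
  have sq : ∀ (j : ℕ) (u a : ℝ), (100 * D ^ 2)⁻¹ * sw j ^ 2 * (u ^ (2 * j + 4) * a ^ 2) =
      (100 * D ^ 2)⁻¹ * (sw j * (u ^ (j + 2) * a)) ^ 2 := fun j u a => by ring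
  obtain ⟨W, c1, c2, c3⟩ := H (2 * D) (16 * D) ((100 * D ^ 2)⁻¹ * (D⁻¹ / 24) ^ 2)
    (fun j => (100 * D ^ 2)⁻¹ * sw j ^ 2) k (GQ r Q D)
    (fun y => B₀ * D * dd r y ≤ 1 ∧ ¬ Calm r g Q D⁻¹ y) (by linarith) (by linarith) (by positivity)
    (by
      rw [show ((100 * D ^ 2)⁻¹ * (D⁻¹ / 24) ^ 2)⁻¹ = 57600 * D ^ 4 by field_simp; ring]
      linarith [show 0 ≤ D ^ 4 by positivity])
    (fun j => by positivity)
    (fun j => by
      rw [← sw_succ j, mul_assoc, mul_pow _ (4 * _)]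
      push_cast
      gcongr
      linarith [sq_nonneg ((j : ℝ) + 3)])
    (by
      have : (100 * D ^ 2)⁻¹ ≤ 100⁻¹ := inv_anti₀ (by norm_num) (by nlinarith)
      simp only [sw]
      norm_num at this ⊢
      linarith)
    (fun y hy h => by
      obtain ⟨u0, u1⟩ := tu y hy
      refine ⟨((mul_le_mul_of_nonneg_left (pow_le_pow_left₀ u0.le u1 2) (norm_nonneg _)).trans
        (h y (mem_ball_self (half_pos (sub_pos.2 hy))))).trans_lt (by linarith), ?_⟩
      have : ∀ j ∈ Finset.range k, (100 * D ^ 2)⁻¹ * sw j ^ 2 * (((2 * r)⁻¹ * dd r y) ^ (2 * j + 4) *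
          ‖iteratedDeriv j Q y‖ ^ 2) ≤ 100⁻¹ * (9 / 16) ^ j := fun j _ => by
        have a1 := (mul_le_mul_of_nonneg_right (pow_le_pow_left₀ u0.le u1 (j + 2))
          (norm_nonneg _)).trans (cauP hQ hy h j)
        have a2 : sw j * (j.factorial * 3 ^ j * D) ≤ (3 / 4) ^ j * D := by
          have f0 : (0 : ℝ) < j.factorial := by exact_mod_cast j.factorial_pos
          have : (0 : ℝ) ≤ j := j.cast_nonneg
          rw [sw, fac, div_mul_eq_mul_div, div_le_iff₀ (by positivity), div_pow]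
          field_simp
          nlinarith
        have s0 := sw_pos j
        rw [sq]
        refine (mul_le_mul_of_nonneg_left (pow_le_pow_left₀ (by positivity)
          ((mul_le_mul_of_nonneg_left a1 s0.le).trans a2) 2) (by positivity)).trans_eq ?_
        rw [mul_pow, ← pow_mul, mul_comm j, pow_mul]
        field_simp
        norm_num
      refine (Finset.sum_le_sum this).trans_lt ?_
      rw [← Finset.mul_sum]
      have := (hasSum_geometric_of_lt_one (r := (9 / 16 : ℝ)) (by norm_num)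
        (by norm_num)).summable.sum_le_tsum (Finset.range k) fun _ _ => by positivity
      rw [tsum_geometric_of_lt_one (by norm_num) (by norm_num)] at this
      linarith)
    (fun y hy h ⟨p, nc⟩ a1 a2 => by
      by_contra! hlt
      obtain ⟨u0, u1⟩ := tu y hy
      set t := r - |y.im| with ht
      have t0 : 0 < t := sub_pos.2 hy
      have dl : r * t ≤ dd r y := d_lower hy
      have p : B₀ * D * (r * t) ≤ 1 := (mul_le_mul_of_nonneg_left dl (by positivity)).trans p
      have e : B₀ * D * (r * t) = 3 * A * t * D + 5 * t / r * D := by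
        simp only [B₀]
        field_simp
      have q1 : 0 ≤ 3 * A * t * D := by positivity
      have q2 : 5 * t / r ≤ 5 * t / r * D := le_mul_of_one_le_right (by positivity) D1
      have q3 : 5 * t ≤ r := (div_le_one hr).1 (by linarith)
      have u2 : 9 / 10 * t ≤ (2 * r)⁻¹ * dd r y := by
        rw [le_inv_mul_iff₀ (by positivity), dd, ← sq_abs y.im, show |y.im| = r - t by linarith]
        nlinarith
      have hs := small hQ hy h (by positivity) hk u2 fun j hj => by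
        have := (Finset.single_le_sum (f := fun j => (100 * D ^ 2)⁻¹ * sw j ^ 2 *
          (((2 * r)⁻¹ * dd r y) ^ (2 * j + 4) * ‖iteratedDeriv j Q y‖ ^ 2))
          (fun i _ => by positivity) (Finset.mem_range.2 (Nat.lt_succ_of_le hj))).trans hlt.le
        rw [sq] at this
        exact le_of_sq_le_sq (le_of_mul_le_mul_left this (by positivity)) (by positivity)
      refine nc fun z hz => ⟨hs z hz, ?_⟩
      have hρ : ‖z - y‖ < t / 8 := mem_ball_iff_norm.1 hz
      have hS : ∀ x ∈ closedBall y ‖z - y‖, x ∈ St r := fun x hx =>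
        (abs_im_le_of_mem hx).trans_lt (by linarith)
      have h1 := norm_le_of_ode (Q := Q) (K := 1 / t ^ 2) (norm_nonneg (z - y))
        (fun x hx => hg x (hS x hx)) (fun x hx => ode x (hS x hx)) (fun x hx => by
          rw [le_div_iff₀ (by positivity)]
          exact (hs x (closedBall_subset_ball hρ hx)).trans (inv_le_one_of_one_le₀ D1)) (by
          rw [one_div, inv_mul_le_iff₀ (by positivity)]
          nlinarith [norm_nonneg (z - y)]) z (mem_closedBall_iff_norm.2 le_rfl)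
      have h2 : ‖z - y‖ * ‖deriv g y‖ ≤ (2 * r)⁻¹ * dd r y / 2 * ‖deriv g y‖ :=
        mul_le_mul_of_nonneg_right (by linarith) (norm_nonneg _)
      have h3 : ‖g z‖ * t ≤ 3 * A * t := mul_le_mul_of_nonneg_right (by linarith) t0.le
      refine h3.trans ?_
      rw [← one_div, le_div_iff₀ (by positivity)]
      linarith [show 0 ≤ 5 * t / r * D by positivity])
  have D14 : 0 ≤ D ^ 14 := by positivity
  have J : ∀ y ∈ St r, GQ r Q D y → UJ (fun y => (4 * r ^ 2)⁻¹ * W y) y ((ε - if (A⁻¹ ≤ ‖g y‖ ∧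
      ‖g y‖ ≤ A) ∧ B₀ * D * dd r y ≤ 1 ∧ ¬ Calm r g Q D⁻¹ y then 1 else 0) / dd r y ^ 2) :=
    fun y hy h => ((c3 y hy h).smul (by positivity)).mono (le_of_eq (by
      have := dd_pos hy
      field_simp
      ring))
  refine ⟨fun y => (4 * r ^ 2)⁻¹ * W y, Bar.smul (by positivity) ⟨c1, fun y hy => (c2 y hy).1⟩,
    fun y hy => ⟨?_, fun h => ⟨(J y hy h).mono (div_le_div_of_nonneg_right (sub_le_self _ ?_)
      (sq_nonneg _)), fun a1 a2 a3 a4 => ?_⟩⟩⟩
  · have := mul_le_mul_of_nonneg_left (c2 y hy).2 (show 0 ≤ (4 * r ^ 2)⁻¹ by positivity)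
    linarith [mul_nonneg B0 D14]
  · split_ifs <;> norm_num
  · have := dd_pos hy
    have := J y hy h
    rwa [if_pos ⟨⟨a1, a2⟩, le_trans (by gcongr; linarith) a3, a4⟩] at this

end Vale.Agent.P097K
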